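import Vale.Agent.P256.Local

/-!
Tools for factorisations: composition, bounded parameters and coefficient bounds.
-/

namespace Vale.Agent.P256

open MvPolynomial Filter Topology

variable {α β : Type*}

theorem FacOn.comp {α' β' : Type*} {U : Set α} {W : Set β} {S : α → β → ℝ} (h : FacOn U W S)
    (φ : α' → α) (ψ : β' → β) {U' : Set α'} {W' : Set β'} (hU : Set.MapsTo φ U' U)
    (hW : Set.MapsTo ψ W' W) : FacOn U' W' fun x y => S (φ x) (ψ y) := by
  obtain ⟨T, hT, he⟩ := h
  suffices ∀ T : α → β → ℝ, Fac T → Fac fun x y => T (φ x) (ψ y) from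
    ⟨_, this T hT, fun x hx y hy => he _ (hU hx) _ (hW hy)⟩
  intro T hT
  induction hT with
  | zero => exact Fac.zero
  | sq hh =>
    obtain ⟨m, a, c, hS⟩ := hh
    exact Fac.sq ⟨m, fun x => a (φ x), fun y => c (ψ y), fun x y => hS _ _⟩
  | add _ _ ih ih' => exact Fac.add ih ih'
  | @mul S f g hf hg _ ih => exact Fac.mul _ _ (fun x => hf (φ x)) (fun y => hg (ψ y)) ih

theorem FacOn.fst {U : Set α} {W : Set β} (f : α → ℝ) (hf : ∀ x ∈ U, 0 ≤ f x) :
    FacOn U W fun x _ => f x :=
  ((FacOn.sq (U := U) (W := W) (Sep.left fun _ : α => (1:ℝ))).mul f (fun _ => 1) hf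
    fun _ _ => zero_le_one).congr fun x _ y _ => by ring

theorem FacOn.snd {U : Set α} {W : Set β} (g : β → ℝ) (hg : ∀ y ∈ W, 0 ≤ g y) :
    FacOn U W fun _ y => g y :=
  ((FacOn.sq (U := U) (W := W) (Sep.left fun _ : α => (1:ℝ))).mul (fun _ => 1) g
    (fun _ _ => zero_le_one) hg).congr fun x _ y _ => by ring

/-- Bounded functions of the second variable may be assumed convergent. -/
theorem glue_bounded {Fx : Filter α} {Fy : Filter β} {S : α → β → ℝ} {ι : Type*} (φ : β → ι → ℝ)
    (B : ℝ) (hφ : ∀ᶠ y in Fy, ∀ i, |φ y i| ≤ B)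
    (h : ∀ L : ι → ℝ, ∃ U ∈ Fx, ∃ V ∈ Fy ⊓ comap φ (𝓝 L), FacOn U V S) :
    ∃ U ∈ Fx, ∃ V ∈ Fy, FacOn U V S :=
  glue_right (T := Set.univ.pi fun _ : ι => Set.Icc (-B) B)
    (isCompact_univ_pi fun _ => isCompact_Icc) φ
    (hφ.mono fun _ hy i _ => abs_le.mp (hy i)) fun L _ => h L

variable {n : ℕ}

/-- A monomial. -/
def mono (μ : Fin n → ℕ) (w : Fin n → ℝ) : ℝ := ∏ i, w i ^ μ i

theorem mono_mul (μ : Fin n → ℕ) (s w : Fin n → ℝ) :
    mono μ (fun i => s i * w i) = mono μ s * mono μ w := by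
  simp [mono, mul_pow, Finset.prod_mul_distrib]

theorem mono_add (μ ν : Fin n → ℕ) (w : Fin n → ℝ) :
    mono (μ + ν) w = mono μ w * mono ν w := by
  simp [mono, pow_add, Finset.prod_mul_distrib]

theorem mono_single (k : Fin n) (w : Fin n → ℝ) : mono (Pi.single k 1) w = w k := by
  rw [mono, Finset.prod_eq_single k (fun i _ hi => by simp [hi]) (by simp)]
  simp

/-- Exponent vectors with entries at most `D`. -/
abbrev Expo (n D : ℕ) := Fin n → Fin (D + 1)

/-- The exponent of an index. -/
def ex {D : ℕ} (μ : Expo n D) : Fin n → ℕ := fun i => (μ i : ℕ)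

theorem ex_injective {D : ℕ} : Function.Injective (ex : Expo n D → Fin n → ℕ) := fun μ ν h =>
  funext fun i => Fin.ext (congrFun h i)

/-- Coefficients are bounded by the values on the box. -/
theorem coef_bound (n D : ℕ) : ∃ C, 0 ≤ C ∧ ∀ (c : Expo n D → ℝ) (s : Fin n → ℝ) (B : ℝ), 0 ≤ B →
    (∀ w : Fin n → ℝ, (∀ i, |w i| ≤ 1) → |∑ μ, c μ * mono (ex μ) (fun i => s i * w i)| ≤ B) →
      ∀ μ, |c μ * mono (ex μ) s| ≤ C * B := by
  classical
  let nd : Fin (D + 1) → ℝ := fun k => (k : ℕ) / (D + 1 : ℝ)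
  let Φ : (Expo n D → ℝ) →ₗ[ℝ] ((Fin n → Fin (D + 1)) → ℝ) :=
    { toFun := fun c q => ∑ μ, c μ * mono (ex μ) (nd ∘ q)
      map_add' := fun a b => funext fun q => by
        simp [add_mul, Finset.sum_add_distrib]
      map_smul' := fun r a => funext fun q => by
        simp [Finset.mul_sum, mul_assoc] }
  have hker : LinearMap.ker Φ = ⊥ := by
    rw [LinearMap.ker_eq_bot']
    intro c hc
    let hat : Expo n D → (Fin n →₀ ℕ) := fun μ => Finsupp.equivFunOnFinite.symm (ex μ)
    have hat_inj : Function.Injective hat := fun μ ν h =>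
      ex_injective (Finsupp.equivFunOnFinite.symm.injective h)
    set P : MvPolynomial (Fin n) ℝ := ∑ μ, monomial (hat μ) (c μ) with hP
    have hco : ∀ μ, coeff (hat μ) P = c μ := fun μ => by
      simp [hP, coeff_sum, coeff_monomial, hat_inj.eq_iff]
    have hP0 : P = 0 := by
      refine MvPolynomial.eq_zero_of_eval_zero_at_prod_finset P
        (fun _ => Finset.univ.image nd) (fun i => ?_) fun x hx => ?_
      · have hinj : Function.Injective nd := fun a b h => by
          simp only [nd] at h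
          field_simp at h
          exact Fin.ext (by exact_mod_cast h)
        rw [Finset.card_image_of_injective _ hinj, Finset.card_univ, Fintype.card_fin,
          Nat.lt_succ_iff, degreeOf_le_iff]
        intro m hm
        by_contra hle
        refine mem_support_iff.mp hm ?_
        simp only [hP, coeff_sum, coeff_monomial]
        refine Finset.sum_eq_zero fun μ _ => if_neg fun h => hle ?_
        rw [← h]
        exact Nat.lt_succ_iff.mp (μ i).isLt
      · choose q hq using fun i => Finset.mem_image.mp (hx i)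
        rw [show x = nd ∘ q from funext fun i => (hq i).2.symm, hP, map_sum]
        have := congrFun hc q
        simp only [Φ, LinearMap.coe_mk, AddHom.coe_mk, Pi.zero_apply] at this
        rw [← this]
        refine Finset.sum_congr rfl fun μ _ => ?_
        rw [eval_monomial, Finsupp.prod_fintype _ _ (by simp)]
        rfl
    funext μ
    rw [← hco μ, hP0, coeff_zero, Pi.zero_apply]
  obtain ⟨Ψ, hΨ⟩ := LinearMap.exists_leftInverse_of_injective Φ hker
  refine ⟨∑ μ, ∑ q, |Ψ (Pi.single q 1) μ|, by positivity, fun c s B hB h μ => ?_⟩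
  set c' : Expo n D → ℝ := fun ν => c ν * mono (ex ν) s
  have hv : ∀ q, |Φ c' q| ≤ B := fun q => by
    have := h (nd ∘ q) fun i => by
      have h1 : ((q i : ℕ) : ℝ) ≤ (D + 1 : ℝ) := by exact_mod_cast (q i).isLt.le
      simp only [Function.comp_apply, nd]
      rw [abs_of_nonneg (by positivity), div_le_one (by positivity)]
      exact h1
    simpa [Φ, c', mono_mul, mul_assoc, Function.comp_def] using this
  have e1 : c' μ = ∑ q, Φ c' q * Ψ (Pi.single q 1) μ := by
    have h2 : Ψ (Φ c') = c' := congrArg (fun F : _ →ₗ[ℝ] _ => F c') hΨ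
    conv_lhs => rw [← h2, pi_eq_sum_univ' (Φ c')]
    simp [map_sum, Finset.sum_apply]
  show |c' μ| ≤ _
  rw [e1]
  refine (Finset.abs_sum_le_sum_abs _ _).trans ?_
  refine le_trans ?_ (mul_le_mul_of_nonneg_right (Finset.single_le_sum
    (f := fun ν => ∑ q, |Ψ (Pi.single q 1) ν|) (fun ν _ => by positivity) (Finset.mem_univ μ)) hB)
  rw [Finset.sum_mul]
  refine Finset.sum_le_sum fun q _ => ?_
  rw [abs_mul, mul_comm]
  exact mul_le_mul_of_nonneg_left (hv q) (abs_nonneg _)

/-- A polynomial dominated by a quadratic form has coefficients dominated by pairs of its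
eigenvalues. -/
theorem pair_bound (n D : ℕ) : ∃ C, 0 ≤ C ∧ ∀ (c : Expo n D → ℝ) (σ : Fin n → ℝ) (A : ℝ), 0 ≤ A →
    (∀ i, 0 ≤ σ i) →
    (∀ w : Fin n → ℝ, (∀ i, |w i| ≤ 1) → |∑ μ, c μ * mono (ex μ) w| ≤ A * ∑ i, σ i * w i ^ 2) →
      ∀ μ, 2 ≤ ∑ i, ex μ i → ∃ k l : Fin n, (Pi.single k 1 + Pi.single l 1 ≤ ex μ) ∧
        |c μ| ≤ C * A * √(σ k * σ l) := by
  classical
  obtain ⟨C, hC, hbd⟩ := coef_bound n D
  refine ⟨2 * C * n, by positivity, fun c σ A hA hσ h μ hμ => ?_⟩
  have key : ∀ s : Fin n → ℝ, (∀ i, |s i| ≤ 1) →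
      |c μ * mono (ex μ) s| ≤ C * (A * ∑ i, σ i * s i ^ 2) := fun s hs => by
    refine hbd c s _ (mul_nonneg hA (Finset.sum_nonneg fun i _ =>
      mul_nonneg (hσ i) (sq_nonneg _))) (fun w hw => ?_) μ
    refine (h _ fun i => ?_).trans (mul_le_mul_of_nonneg_left (Finset.sum_le_sum fun i _ => ?_) hA)
    · rw [abs_mul]; exact mul_le_one₀ (hs i) (abs_nonneg _) (hw i)
    · rw [mul_pow, ← mul_assoc]
      exact mul_le_of_le_one_right (mul_nonneg (hσ i) (sq_nonneg _))
        ((sq_le_one_iff_abs_le_one _).mpr (hw i))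
  obtain ⟨k, hk, hkmax⟩ : ∃ k, ex μ k ≠ 0 ∧ ∀ i, ex μ i ≠ 0 → σ i ≤ σ k := by
    obtain ⟨i0, hi0⟩ : ∃ i, ex μ i ≠ 0 := by
      by_contra hn
      push Not at hn
      simp [hn] at hμ
    obtain ⟨k, hk, hm⟩ := (Finset.univ.filter fun i => ex μ i ≠ 0).exists_max_image σ
      ⟨i0, by simp [hi0]⟩
    exact ⟨k, (Finset.mem_filter.mp hk).2, fun i hi => hm i (by simp [hi])⟩
  rcases le_or_gt 2 (ex μ k) with hk2 | hk1
  · refine ⟨k, k, fun i => ?_, ?_⟩
    · rcases eq_or_ne i k with rfl | hne
      · simpa using hk2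
      · simp [hne]
    · have := key (fun i => if ex μ i = 0 then 0 else 1) fun i => by split_ifs <;> simp
      rw [show mono (ex μ) (fun i => if ex μ i = 0 then (0:ℝ) else 1) = 1 from
        Finset.prod_eq_one fun i _ => by dsimp only; split_ifs with h0 <;> simp [h0], mul_one] at this
      rw [Real.sqrt_mul_self (hσ k)]
      refine this.trans ?_
      have hs : (∑ i, σ i * (if ex μ i = 0 then (0:ℝ) else 1) ^ 2) ≤ n * σ k := by
        refine (Finset.sum_le_sum fun i _ => (?_ : _ ≤ σ k)).trans_eq (by simp)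
        split_ifs with h0
        · simpa using hσ k
        · simpa using hkmax i h0
      have := mul_le_mul_of_nonneg_left hs (mul_nonneg hC hA)
      nlinarith [mul_nonneg (mul_nonneg hC hA) (mul_nonneg (Nat.cast_nonneg (α := ℝ) n) (hσ k))]
  · have hk' : ex μ k = 1 := by omega
    obtain ⟨l, hl, hlk, hlmax⟩ :
        ∃ l, ex μ l ≠ 0 ∧ l ≠ k ∧ ∀ i, ex μ i ≠ 0 → i ≠ k → σ i ≤ σ l := by
      obtain ⟨i0, hi0, hik⟩ : ∃ i, ex μ i ≠ 0 ∧ i ≠ k := by
        by_contra hn
        push Not at hn
        rw [Finset.sum_eq_single k (fun i _ hi => by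
          by_contra h0; exact hi (hn i h0)) (by simp), hk'] at hμ
        omega
      obtain ⟨l, hl, hm⟩ := (Finset.univ.filter fun i => ex μ i ≠ 0 ∧ i ≠ k).exists_max_image σ
        ⟨i0, by simp [hi0, hik]⟩
      exact ⟨l, (Finset.mem_filter.mp hl).2.1, (Finset.mem_filter.mp hl).2.2,
        fun i hi hik => hm i (by simp [hi, hik])⟩
    refine ⟨k, l, fun i => ?_, ?_⟩
    · rcases eq_or_ne i k with rfl | hne
      · simp [hlk.symm, hk']
      · rcases eq_or_ne i l with rfl | hne'
        · simpa [hne] using Nat.one_le_iff_ne_zero.mpr hl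
        · simp [hne, hne']
    · suffices ∀ δ : ℝ, 0 < δ → |c μ| ≤ 2 * C * n * A * √((σ k + δ) * (σ l + δ)) by
        have ht : Tendsto (fun δ : ℝ => 2 * C * n * A * √((σ k + δ) * (σ l + δ))) (𝓝[>] 0)
            (𝓝 (2 * C * n * A * √(σ k * σ l))) := by
          have hc : Continuous fun δ : ℝ => 2 * C * n * A * √((σ k + δ) * (σ l + δ)) := by
            fun_prop
          simpa using (hc.tendsto 0).mono_left (nhdsWithin_le_nhds (s := Set.Ioi (0:ℝ)))
        exact ge_of_tendsto ht (eventually_nhdsWithin_of_forall fun δ hδ => this δ hδ)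
      intro δ hδ
      set a := √(σ k + δ)
      set b := √(σ l + δ)
      have ha : 0 < a := Real.sqrt_pos.mpr (by linarith [hσ k])
      have hb : 0 < b := Real.sqrt_pos.mpr (by linarith [hσ l])
      have hab : b ≤ a := Real.sqrt_le_sqrt (by linarith [hkmax l hl])
      set lam := b / a
      have hlam : 0 < lam := div_pos hb ha
      have hlam1 : lam ≤ 1 := (div_le_one ha).mpr hab
      have := key (fun i => if i = k then lam else if ex μ i = 0 then 0 else 1) fun i => by
        split_ifs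
        · rwa [abs_of_pos hlam]
        · simp
        · simp
      rw [show mono (ex μ) (fun i => if i = k then lam else if ex μ i = 0 then (0:ℝ) else 1) = lam
        from by
          rw [mono, Finset.prod_eq_single k (fun i _ hi => by
            rw [if_neg hi]; split_ifs with h0 <;> simp [h0]) (by simp), if_pos rfl, hk', pow_one],
        abs_mul, abs_of_pos hlam] at this
      have hs : (∑ i, σ i * (if i = k then lam else if ex μ i = 0 then (0:ℝ) else 1) ^ 2)
          ≤ n * (2 * b ^ 2) := by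
        refine (Finset.sum_le_sum fun i _ => (?_ : _ ≤ 2 * b ^ 2)).trans_eq (by simp)
        have hb2 : b ^ 2 = σ l + δ := Real.sq_sqrt (by linarith [hσ l])
        have ha2 : a ^ 2 = σ k + δ := Real.sq_sqrt (by linarith [hσ k])
        split_ifs with h1 h0
        · subst h1
          have : lam ^ 2 * a ^ 2 = b ^ 2 := by
            rw [← mul_pow, div_mul_cancel₀ _ ha.ne']
          nlinarith [sq_nonneg lam, hσ i, sq_nonneg b]
        · simp; positivity
        · nlinarith [hlmax i h0 h1, sq_nonneg b]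
      have h3 := this.trans (mul_le_mul_of_nonneg_left (mul_le_mul_of_nonneg_left hs hA) hC)
      rw [← le_div_iff₀ hlam] at h3
      refine h3.trans (le_of_eq ?_)
      rw [Real.sqrt_mul (by linarith [hσ k])]
      show C * (A * (n * (2 * b ^ 2))) / (b / a) = 2 * C * n * A * (a * b)
      field_simp

/-- Evaluation as a sum over bounded exponents. -/
theorem eval_expo {D : ℕ} (P : MvPolynomial (Fin n) ℝ) (hD : P.totalDegree ≤ D) (w : Fin n → ℝ) :
    eval w P = ∑ μ : Expo n D, coeff (Finsupp.equivFunOnFinite.symm (ex μ)) P * mono (ex μ) w := by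
  classical
  let hat : Expo n D → (Fin n →₀ ℕ) := fun μ => Finsupp.equivFunOnFinite.symm (ex μ)
  have hat_inj : Function.Injective hat := fun μ ν h =>
    ex_injective (Finsupp.equivFunOnFinite.symm.injective h)
  have hsub : P.support ⊆ Finset.univ.image hat := fun m hm => by
    refine Finset.mem_image.mpr ⟨fun i => ⟨m i, ?_⟩, Finset.mem_univ _, ?_⟩
    · refine Nat.lt_succ_iff.mpr (le_trans ?_ ((le_totalDegree hm).trans hD))
      rcases eq_or_ne (m i) 0 with h | h
      · rw [h]; exact Nat.zero_le _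
      · exact Finset.single_le_sum (fun j _ => Nat.zero_le _) (Finsupp.mem_support_iff.mpr h)
    · exact Finsupp.equivFunOnFinite.symm_apply_apply m
  rw [eval_eq', Finset.sum_subset hsub fun m _ hm => by rw [notMem_support_iff.mp hm, zero_mul],
    Finset.sum_image fun μ _ ν _ h => hat_inj h]
  rfl

end Vale.Agent.P256
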