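import Vale.Agent.P256.Flat.Newton
import Vale.Agent.P256.Flat.Form

/-!
Factorisation of the slack near a smooth boundary point, whatever its curvature.
-/

namespace Vale.Agent.P256

open MvPolynomial Filter Topology Matrix

variable {n d : ℕ} {p : MvPolynomial (Fin n) ℝ} {e b : Fin n → ℝ}

/-- The boundary in the affine chart at `b`. -/
def Sset (p : MvPolynomial (Fin n) ℝ) (e b : Fin n → ℝ) : Set (Fin n → ℝ) :=
  {x | b ⬝ᵥ x = b ⬝ᵥ b ∧ x ∈ hypCone p e ∧ eval x p = 0}

theorem isClosed_Sset (hp : p.IsHomogeneous d) (he : Hyperbolic p e) :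
    IsClosed (Sset p e b) :=
  (isClosed_eq (continuous_dot b) continuous_const).inter
    ((isClosed_hypCone hp he).inter (isClosed_eq continuous_eval' continuous_const))

theorem continuous_grad (p : MvPolynomial (Fin n) ℝ) : Continuous (grad p) :=
  continuous_pi fun i => MvPolynomial.continuous_eval _

theorem continuous_grad_dot (p : MvPolynomial (Fin n) ℝ) (e : Fin n → ℝ) :
    Continuous fun y => grad p y ⬝ᵥ e :=
  continuous_finsetSum _ fun i _ =>
    ((continuous_apply i).comp (continuous_grad p)).mul continuous_const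

theorem lineR_coeff_hom (p : MvPolynomial (Fin n) ℝ) (y v : Fin n → ℝ) (j : ℕ) :
    (lineR p y v).coeff j = eval v (homogeneousComponent j (shift p y)) := by
  have key : lineR p y v = ∑ i ∈ Finset.range ((shift p y).totalDegree + 1),
      Polynomial.C (eval v (homogeneousComponent i (shift p y))) * Polynomial.X ^ i :=
    Polynomial.funext fun t => by
      rw [lineR_eval, Polynomial.eval_finsetSum]
      have h := aeval_shift p y (R := ℝ) (t • v)
      simp only [aeval_eq_eval, Algebra.algebraMap_self, RingHom.id_apply] at h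
      rw [show eval (y + t • v) p = eval (t • v) (shift p y) from h.symm]
      conv_lhs => rw [← sum_homogeneousComponent (shift p y), map_sum]
      refine Finset.sum_congr rfl fun i _ => ?_
      rw [eval_smul (homogeneousComponent_isHomogeneous i _), Polynomial.eval_mul,
        Polynomial.eval_C, Polynomial.eval_pow, Polynomial.eval_X, mul_comm]
  rw [key, Polynomial.finsetSum_coeff]
  simp only [Polynomial.coeff_C_mul_X_pow]
  rw [Finset.sum_ite_eq]
  split_ifs with h
  · rfl
  · rw [homogeneousComponent_eq_zero _ _ (by simpa [Nat.lt_succ_iff] using h), map_zero]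

theorem lineR_coeff_zero (p : MvPolynomial (Fin n) ℝ) (y v : Fin n → ℝ) :
    (lineR p y v).coeff 0 = eval y p := by
  rw [Polynomial.coeff_zero_eq_eval_zero, lineR_eval, zero_smul, add_zero]

theorem gcoef_zero (p : MvPolynomial (Fin n) ℝ) (e y v : Fin n → ℝ) :
    gcoef p e y v 0 = grad p y ⬝ᵥ e := by
  simp [gcoef, lineR_coeff_zero, grad, dotProduct, mul_comm]

/-- The projection to the tangent hyperplane along `e`. -/
noncomputable def proj (g e D : Fin n → ℝ) : Fin n → ℝ := D - ((g ⬝ᵥ D) / (g ⬝ᵥ e)) • e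

theorem proj_perp {g e : Fin n → ℝ} (h : g ⬝ᵥ e ≠ 0) (D : Fin n → ℝ) : g ⬝ᵥ proj g e D = 0 := by
  rw [proj, dotProduct_sub, dotProduct_smul, smul_eq_mul, div_mul_cancel₀ _ h, sub_self]

theorem proj_add (g e D D' : Fin n → ℝ) : proj g e (D + D') = proj g e D + proj g e D' := by
  simp only [proj, dotProduct_add, add_div, add_smul]
  abel

theorem proj_smul (g e D : Fin n → ℝ) (c : ℝ) : proj g e (c • D) = c • proj g e D := by
  simp only [proj, dotProduct_smul, smul_eq_mul, mul_div_assoc, smul_sub, smul_smul]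

theorem proj_sum {ι : Type*} (g e : Fin n → ℝ) (s : Finset ι) (w : ι → ℝ) (v : ι → Fin n → ℝ) :
    proj g e (∑ i ∈ s, w i • v i) = ∑ i ∈ s, w i • proj g e (v i) := by
  classical
  induction s using Finset.induction_on with
  | empty => simp [proj]
  | insert a s ha ih => simp [Finset.sum_insert ha, proj_add, proj_smul, ih]

theorem proj_single (g e D : Fin n → ℝ) :
    proj g e D = ∑ i, D i • proj g e (Pi.single i 1) := by
  conv_lhs => rw [pi_eq_sum_univ' D]
  rw [proj_sum]

/-- Diagonalisation of a nonnegative quadratic form. -/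
theorem quad_diag (A : Fin n → Fin n → ℝ) (h : ∀ v : Fin n → ℝ, 0 ≤ ∑ i, ∑ j, A i j * v i * v j) :
    ∃ (U : Fin n → Fin n → ℝ) (σ : Fin n → ℝ), (∀ k, 0 ≤ σ k) ∧ (∀ i k, |U i k| ≤ 1) ∧
      (∀ (v : Fin n → ℝ) i, ∑ k, U i k * (∑ j, U j k * v j) = v i) ∧
      (∀ (w : Fin n → ℝ) k, ∑ j, U j k * (∑ l, U j l * w l) = w k) ∧
      ∀ v : Fin n → ℝ, ∑ i, ∑ j, A i j * v i * v j = ∑ k, σ k * (∑ j, U j k * v j) ^ 2 := by
  classical
  set M : Matrix (Fin n) (Fin n) ℝ := Matrix.of fun i j => (A i j + A j i) / 2 with hM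
  have hsym : ∀ v : Fin n → ℝ, v ⬝ᵥ M *ᵥ v = ∑ i, ∑ j, A i j * v i * v j := fun v => by
    simp only [hM, dotProduct, Matrix.mulVec, Matrix.of_apply, Finset.mul_sum]
    have e1 : ∀ i j, v i * ((A i j + A j i) / 2 * v j)
        = 1 / 2 * (A i j * v i * v j) + 1 / 2 * (A j i * v j * v i) := fun i j => by ring
    simp only [e1, Finset.sum_add_distrib]
    rw [Finset.sum_comm (f := fun i j => 1 / 2 * (A j i * v j * v i))]
    simp only [← Finset.mul_sum]
    ring
  have hpsd : M.PosSemidef := PosSemidef.of_dotProduct_mulVec_nonneg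
    (Matrix.ext fun i j => by simp [hM, Matrix.conjTranspose_apply, add_comm]) fun v => by
      rw [star_trivial, hsym]; exact h v
  set U : Matrix (Fin n) (Fin n) ℝ := (hpsd.1.eigenvectorUnitary : Matrix (Fin n) (Fin n) ℝ)
  have h1 : Uᵀ * U = 1 := by
    have := Unitary.coe_star_mul_self hpsd.1.eigenvectorUnitary
    rwa [Matrix.star_eq_conjTranspose, Matrix.conjTranspose_eq_transpose_of_trivial] at this
  have h2 : U * Uᵀ = 1 := mul_eq_one_comm.mp h1
  refine ⟨fun i k => U i k, hpsd.1.eigenvalues, fun k => hpsd.eigenvalues_nonneg k, fun i k => ?_,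
    fun v i => ?_, fun w k => ?_, fun v => ?_⟩
  · have h3 := congrFun (congrFun h1 k) k
    rw [Matrix.mul_apply, Matrix.one_apply_eq] at h3
    have h4 := Finset.single_le_sum (f := fun j => Uᵀ k j * U j k)
      (fun j _ => mul_self_nonneg (U j k)) (Finset.mem_univ i)
    rw [h3, Matrix.transpose_apply, ← sq] at h4
    exact (sq_le_one_iff_abs_le_one _).mp h4
  · have h3 : U *ᵥ (Uᵀ *ᵥ v) = v := by rw [mulVec_mulVec, h2, one_mulVec]
    simpa [Matrix.mulVec, dotProduct] using congrFun h3 i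
  · have h3 : Uᵀ *ᵥ (U *ᵥ w) = w := by rw [mulVec_mulVec, h1, one_mulVec]
    simpa [Matrix.mulVec, dotProduct] using congrFun h3 k
  · rw [← hsym v]
    have h3 := hpsd.1.spectral_theorem
    rw [Unitary.conjStarAlgAut_apply, Matrix.star_eq_conjTranspose,
      Matrix.conjTranspose_eq_transpose_of_trivial] at h3
    conv_lhs => rw [h3]
    rw [show (v ⬝ᵥ (U * diagonal (RCLike.ofReal ∘ hpsd.1.eigenvalues) * Uᵀ) *ᵥ v)
      = (Uᵀ *ᵥ v) ⬝ᵥ (diagonal (RCLike.ofReal ∘ hpsd.1.eigenvalues) *ᵥ (Uᵀ *ᵥ v)) by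
      rw [← mulVec_mulVec, ← mulVec_mulVec, dotProduct_mulVec, mulVec_transpose]]
    simp only [dotProduct, Matrix.mulVec_diagonal]
    simp [Matrix.mulVec, dotProduct, sq, mul_left_comm]

variable (hp : p.IsHomogeneous d) (he : Hyperbolic p e)

include hp he in
/-- Factorisation near a smooth point. -/
theorem smooth_local (hb0 : b ≠ 0) (hb : b ∈ frontier (hypCone p e)) (hg : grad p b ≠ 0) :
    ∃ U ∈ 𝓝[Sset p e b] b, ∃ V ∈ 𝓝[Sset p e b] b, FacOn U V (slack p e) := by
  classical
  obtain ⟨hbK, hbp⟩ := (mem_frontier_hypCone hp he).mp hb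
  have hGb := (smooth_facts hp he hbK hbp hg).1
  obtain ⟨i₀, -⟩ := Function.ne_iff.mp hb0
  obtain ⟨ρ, hρ, hρpos⟩ : ∃ ρ > (0:ℝ), ∀ y ∈ Metric.closedBall b ρ, 0 < grad p y ⬝ᵥ e := by
    obtain ⟨ρ, hρ, h⟩ := Metric.nhds_basis_closedBall.mem_iff.mp
      ((continuous_grad_dot p e).continuousAt.eventually (lt_mem_nhds hGb))
    exact ⟨ρ, hρ, h⟩
  set Kc := Sset p e b ∩ Metric.closedBall b ρ
  have hKc : IsCompact Kc := (isCompact_closedBall b ρ).inter_left (isClosed_Sset hp he)
  have hge : ∀ y ∈ Kc, grad p y ⬝ᵥ e ≠ 0 := fun y hy => (hρpos y hy.2).ne'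
  obtain ⟨R, hR1, hR⟩ : ∃ R : ℝ, 1 ≤ R ∧ ∀ y ∈ Kc, ∀ D : Fin n → ℝ, ‖D‖ ≤ n →
      ‖proj (grad p y) e D‖ ≤ R := by
    obtain ⟨R, hR⟩ := (hKc.prod (isCompact_closedBall (0 : Fin n → ℝ) n)).exists_bound_of_continuousOn
      (f := fun q => proj (grad p q.1) e q.2) (by
        refine continuousOn_snd.sub (ContinuousOn.smul (ContinuousOn.div ?_ ?_ fun q hq => hge _ hq.1)
          continuousOn_const)
        · exact (continuous_finsetSum _ fun i _ => (((continuous_apply i).comp
            ((continuous_grad p).comp continuous_fst))).mul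
              ((continuous_apply i).comp continuous_snd)).continuousOn
        · exact ((continuous_grad_dot p e).comp continuous_fst).continuousOn)
    exact ⟨max R 1, le_max_right _ _, fun y hy D hD =>
      (hR (y, D) ⟨hy, by simpa using hD⟩).trans (le_max_left _ _)⟩
  -- coefficient bounds on tangent vectors
  let T : Set ((Fin n → ℝ) × (Fin n → ℝ)) :=
    (Kc ×ˢ Metric.closedBall (0 : Fin n → ℝ) R) ∩ {q | grad p q.1 ⬝ᵥ q.2 = 0}
  have hT : IsCompact T := (hKc.prod (isCompact_closedBall _ _)).inter_right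
    (isClosed_eq (continuous_finsetSum _ fun i _ => (((continuous_apply i).comp
      ((continuous_grad p).comp continuous_fst))).mul
        ((continuous_apply i).comp continuous_snd)) continuous_const)
  obtain ⟨C, hC, hcoef⟩ := coef_family hp he hT (x := Prod.fst) (v := Prod.snd) continuous_fst
    continuous_snd (fun q hq => hq.1.1.1.2.1) 0
    (fun q hq => by rw [lineR_coeff_zero]; exact hq.1.1.1.2.2)
    fun q hq => by rw [gcoef_zero]; exact hρpos _ hq.1.1.2
  have hone : ∀ q ∈ T, (lineR p q.1 q.2).coeff 1 = 0 := fun q hq => by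
    rw [lineR_coeff_one]; exact hq.2
  have hle : ∀ y ∈ Kc, ∀ v : Fin n → ℝ, grad p y ⬝ᵥ v = 0 → ‖v‖ ≤ R →
      (lineR p y v).coeff 2 ≤ 0 ∧ ∀ j, 1 ≤ j →
        |(lineR p y v).coeff j| ≤ C * -(lineR p y v).coeff 2 := fun y hy v hv hvR => by
    have hq : (y, v) ∈ T := ⟨⟨hy, by simpa using hvR⟩, hv⟩
    obtain ⟨h1, h2⟩ := hcoef (y, v) hq
    simp only [zero_add, hone _ hq, abs_zero, mul_zero] at h1 h2
    exact ⟨h1, fun j hj => (h2 j hj).trans_eq (by rw [abs_of_nonpos h1])⟩
  -- the eigenbasis of the curvature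
  let A : (Fin n → ℝ) → Fin n → Fin n → ℝ := fun y i j => -∑ k, ∑ l,
    eval (Sum.elim y y) (tay p k l) * proj (grad p y) e (Pi.single i 1) k *
      proj (grad p y) e (Pi.single j 1) l
  have hA : ∀ y v, ∑ i, ∑ j, A y i j * v i * v j
      = -(lineR p y (proj (grad p y) e v)).coeff 2 := fun y v => by
    set π : Fin n → Fin n → ℝ := fun i => proj (grad p y) e (Pi.single i 1)
    have hv : ∀ k, proj (grad p y) e v k = ∑ i, v i * π i k := fun k => by
      rw [proj_single, Finset.sum_apply]; simp [π]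
    rw [coeff_two]
    simp only [A, hv, neg_mul, Finset.sum_neg_distrib, neg_inj, Finset.sum_mul, Finset.mul_sum]
    calc ∑ i, ∑ j, ∑ k, ∑ l, eval (Sum.elim y y) (tay p k l) * π i k * π j l * v i * v j
        = ∑ i, ∑ k, ∑ j, ∑ l, eval (Sum.elim y y) (tay p k l) * π i k * π j l * v i * v j :=
          Finset.sum_congr rfl fun i _ => Finset.sum_comm
      _ = ∑ k, ∑ i, ∑ j, ∑ l, eval (Sum.elim y y) (tay p k l) * π i k * π j l * v i * v j :=
          Finset.sum_comm
      _ = ∑ k, ∑ i, ∑ l, ∑ j, eval (Sum.elim y y) (tay p k l) * π i k * π j l * v i * v j :=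
          Finset.sum_congr rfl fun k _ => Finset.sum_congr rfl fun i _ => Finset.sum_comm
      _ = ∑ k, ∑ l, ∑ i, ∑ j, eval (Sum.elim y y) (tay p k l) * π i k * π j l * v i * v j :=
          Finset.sum_congr rfl fun k _ => Finset.sum_comm
      _ = _ := by
        refine Finset.sum_congr rfl fun k _ => Finset.sum_congr rfl fun l _ => ?_
        rw [Finset.sum_comm]
        exact Finset.sum_congr rfl fun i _ => Finset.sum_congr rfl fun j _ => by ring
  have hApos : ∀ y ∈ Kc, ∀ v : Fin n → ℝ, 0 ≤ ∑ i, ∑ j, A y i j * v i * v j := fun y hy v => by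
    rw [hA, neg_nonneg]
    set u := proj (grad p y) e v
    set c := (‖u‖ + 1)⁻¹
    have hc : 0 < c := by positivity
    have h1 := (hle y hy (c • u)
      (by rw [dotProduct_smul, proj_perp (hge y hy), smul_zero]) (le_trans (by
        rw [norm_smul, Real.norm_eq_abs, abs_of_pos hc, inv_mul_le_iff₀ (by positivity)]
        linarith) hR1)).1
    rw [lineR_coeff_hom, eval_smul (homogeneousComponent_isHomogeneous 2 _)] at h1
    rw [lineR_coeff_hom]
    exact nonpos_of_mul_nonpos_right h1 (pow_pos hc 2)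
  have hex : ∀ y, ∃ (U : Fin n → Fin n → ℝ) (σ : Fin n → ℝ), y ∈ Kc →
      (∀ k, 0 ≤ σ k) ∧ (∀ i k, |U i k| ≤ 1) ∧
      (∀ (v : Fin n → ℝ) i, ∑ k, U i k * (∑ j, U j k * v j) = v i) ∧
      (∀ (w : Fin n → ℝ) k, ∑ j, U j k * (∑ l, U j l * w l) = w k) ∧
      ∀ v : Fin n → ℝ, ∑ i, ∑ j, A y i j * v i * v j = ∑ k, σ k * (∑ j, U j k * v j) ^ 2 := fun y => by
    by_cases hy : y ∈ Kc
    · obtain ⟨U, σ, h⟩ := quad_diag (A y) (hApos y hy)
      exact ⟨U, σ, fun _ => h⟩
    · exact ⟨0, 0, fun h => absurd h hy⟩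
  choose U σ hUσ using hex
  -- the cubic and higher terms in the eigenbasis
  set Dg := p.totalDegree
  let col : (Fin n → ℝ) → Fin n → Fin n → ℝ := fun y k =>
    proj (grad p y) e fun i => U y i k
  let P : (Fin n → ℝ) → MvPolynomial (Fin n) ℝ := fun y => ∑ j ∈ Finset.Icc 3 Dg,
    aeval (fun i => ∑ k, MvPolynomial.C (col y k i) * MvPolynomial.X k)
      (homogeneousComponent j (shift p y))
  have hPhom : ∀ y j, (aeval (fun i => ∑ k, MvPolynomial.C (col y k i) * MvPolynomial.X k)
      (homogeneousComponent j (shift p y))).IsHomogeneous j := fun y j => by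
    have := (homogeneousComponent_isHomogeneous j (shift p y)).aeval
      (fun i => ∑ k, MvPolynomial.C (col y k i) * MvPolynomial.X k) (n := 1)
      (fun i => IsHomogeneous.sum _ _ _ fun k _ => (isHomogeneous_X ℝ k).C_mul _)
    simpa using this
  have hPdeg : ∀ y, (P y).totalDegree ≤ Dg := fun y =>
    totalDegree_finsetSum_le fun j hj =>
      (hPhom y j).totalDegree_le.trans (Finset.mem_Icc.mp hj).2
  let c : (Fin n → ℝ) → Expo n Dg → ℝ := fun y μ =>
    coeff (Finsupp.equivFunOnFinite.symm (ex μ)) (P y)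
  have hc0 : ∀ y μ, ¬ 3 ≤ ∑ i, ex μ i → c y μ = 0 := fun y μ hμ => by
    simp only [c, P, coeff_sum]
    refine Finset.sum_eq_zero fun j hj => (hPhom y j).coeff_eq_zero ?_
    rw [Finsupp.degree_eq_sum]
    simp only [Finsupp.equivFunOnFinite_symm_apply_apply]
    have := (Finset.mem_Icc.mp hj).1
    omega
  have hPval : ∀ y w, eval w (P y) = ∑ j ∈ Finset.Icc 3 Dg,
      (lineR p y (proj (grad p y) e fun i => ∑ k, U y i k * w k)).coeff j := fun y w => by
    simp only [P, map_sum]
    refine Finset.sum_congr rfl fun j _ => ?_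
    rw [lineR_coeff_hom, MvPolynomial.aeval_def, eval_eval₂, MvPolynomial.eval_eq',
      MvPolynomial.eval₂_eq']
    refine Finset.sum_congr rfl fun m _ => ?_
    have hv : (fun i => ∑ k, U y i k * w k) = ∑ k, w k • fun i => U y i k := by
      funext i; simp [Finset.sum_apply, mul_comm]
    simp [hv, proj_sum, col, mul_comm]
  obtain ⟨Cp, hCp, hpair⟩ := pair_bound n Dg
  have hck : ∀ y μ, ∃ k l : Fin n, y ∈ Kc → 3 ≤ ∑ i, ex μ i →
      Pi.single k 1 + Pi.single l 1 ≤ ex μ ∧
        |c y μ| ≤ Cp * (Dg * C) * √(σ y k * σ y l) := fun y μ => by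
    by_cases hy : y ∈ Kc ∧ 3 ≤ ∑ i, ex μ i
    swap
    · exact ⟨i₀, i₀, fun h1 h2 => absurd ⟨h1, h2⟩ hy⟩
    obtain ⟨hσ, hU, h1, h2, h3⟩ := hUσ y hy.1
    obtain ⟨k, l, h⟩ := hpair (c y) (σ y) (Dg * C) (by positivity) hσ (fun w hw => by
      rw [← eval_expo (P y) (hPdeg y) w, hPval]
      set D : Fin n → ℝ := fun i => ∑ k, U y i k * w k with hD
      have hDn : ‖D‖ ≤ n := by
        refine (pi_norm_le_iff_of_nonneg (Nat.cast_nonneg n)).mpr fun i => ?_
        rw [Real.norm_eq_abs]
        refine (Finset.abs_sum_le_sum_abs _ _).trans ((Finset.sum_le_sum fun k _ => ?_).trans_eq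
          (by simp : ∑ _k : Fin n, (1:ℝ) = n))
        rw [abs_mul]; exact mul_le_one₀ (hU i k) (abs_nonneg _) (hw k)
      obtain ⟨h4, h5⟩ := hle y hy.1 _ (proj_perp (hge y hy.1) D) (hR y hy.1 D hDn)
      have h6 : -(lineR p y (proj (grad p y) e D)).coeff 2 = ∑ k, σ y k * w k ^ 2 := by
        rw [← hA, h3]
        exact Finset.sum_congr rfl fun k _ => by rw [h2]
      rw [← h6]
      refine (Finset.abs_sum_le_sum_abs _ _).trans ((Finset.sum_le_sum fun j hj =>
        h5 j (le_trans (by omega) (Finset.mem_Icc.mp hj).1)).trans ?_)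
      rw [Finset.sum_const, nsmul_eq_mul, Nat.card_Icc, mul_assoc]
      refine mul_le_mul_of_nonneg_right ?_ (mul_nonneg hC (neg_nonneg.mpr h4))
      exact_mod_cast (by omega : Dg + 1 - 3 ≤ Dg)) μ (by omega)
    exact ⟨k, l, fun _ _ => h⟩
  choose kk ll hkl using hck
  let E : (Fin n → ℝ) → Expo n Dg → Fin n → Fin n → ℝ := fun y μ i j =>
    if 3 ≤ ∑ i, ex μ i ∧ i = kk y μ ∧ j = ll y μ then c y μ / √(σ y i * σ y j) else 0
  have hE : ∀ y ∈ Kc, ∀ μ i j, |E y μ i j| ≤ Cp * (Dg * C) := fun y hy μ i j => by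
    simp only [E]
    split_ifs with h
    · obtain ⟨h0, rfl, rfl⟩ := h
      rcases eq_or_ne (√(σ y (kk y μ) * σ y (ll y μ))) 0 with hz | hz
      · rw [hz, div_zero, abs_zero]; positivity
      · rw [abs_div, abs_of_nonneg (Real.sqrt_nonneg _), div_le_iff₀ (lt_of_le_of_ne
          (Real.sqrt_nonneg _) (Ne.symm hz))]
        exact (hkl y μ hy h0).2
    · rw [abs_zero]; positivity
  set Fx := 𝓝[Sset p e b] b
  set Fy := 𝓝[Sset p e b] b
  have hev : ∀ᶠ y in Fy, y ∈ Kc := Filter.inter_mem self_mem_nhdsWithin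
    (mem_nhdsWithin_of_mem_nhds (Metric.closedBall_mem_nhds b hρ))
  let ι := (Fin n × Fin n) ⊕ (Expo n Dg × Fin n × Fin n)
  refine glue_bounded (ι := ι) (fun y => Sum.elim (fun q => U y q.1 q.2)
    fun q => E y q.1 q.2.1 q.2.2) (max 1 (Cp * (Dg * C))) (hev.mono fun y hy o => ?_) fun L => ?_
  · rcases o with q | q
    · exact ((hUσ y hy).2.1 _ _).trans (le_max_left _ _)
    · exact (hE y hy _ _ _).trans (le_max_right _ _)
  set Fy' := Fy ⊓ comap (fun y => (Sum.elim (fun q => U y q.1 q.2)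
    fun q => E y q.1 q.2.1 q.2.2 : ι → ℝ)) (𝓝 L)
  have hFy : Fy' ≤ 𝓝 b := inf_le_left.trans nhdsWithin_le_nhds
  have hL : ∀ o, Tendsto (fun y => (Sum.elim (fun q => U y q.1 q.2)
      (fun q => E y q.1 q.2.1 q.2.2) : ι → ℝ) o) Fy' (𝓝 (L o)) := fun o =>
    ((continuous_apply o).tendsto L).comp (tendsto_comap.mono_left inf_le_right)
  have hx : ∀ i, SepC Fx Fy' (fun (x _ : Fin n → ℝ) => x i) (b i) := fun i =>
    SepC.left (((continuous_apply i).tendsto b).mono_left nhdsWithin_le_nhds)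
  have hy : ∀ i, SepC Fx Fy' (fun (_ y : Fin n → ℝ) => y i) (b i) := fun i =>
    SepC.right (((continuous_apply i).tendsto b).mono_left hFy)
  -- the slack, the tilted point and the remainder
  let a : (Fin n → ℝ) → (Fin n → ℝ) → ℝ := fun x y =>
    ∑ i, (grad p y ⬝ᵥ e)⁻¹ * grad p y i * (x i - y i)
  let u : (Fin n → ℝ) → (Fin n → ℝ) → Fin n → ℝ := fun x y i => x i - a x y * e i
  let Tm : (Fin n → ℝ) → (Fin n → ℝ) → ℝ := fun x y =>
    ∑ i, ∑ j, eval (Sum.elim (u x y) x) (tay p i j) * (e i * e j)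
  have ha : SepC Fx Fy' a 0 :=
    (SepC.sum Finset.univ _ (fun i => (grad p b ⬝ᵥ e)⁻¹ * grad p b i * (b i - b i)) fun i _ =>
      (SepC.right ((((continuous_grad_dot p e).tendsto b).inv₀ hGb.ne').mul
        (((continuous_apply i).comp (continuous_grad p)).tendsto b) |>.mono_left hFy)).mul
          ((hx i).sub (hy i))).congr (fun x y => rfl) (by simp)
  have hTm : SepC Fx Fy' Tm (∑ i, ∑ j, eval (Sum.elim b b) (tay p i j) * (e i * e j)) := by
    refine SepC.sum _ _ _ fun i _ => SepC.sum _ _ _ fun j _ => SepC.mul ?_ (SepC.const _)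
    refine SepC.eval_poly (tay p i j) (v := fun o x y => Sum.elim (u x y) x o) fun o => ?_
    rcases o with k | k
    · exact ((hx k).sub (ha.mul (SepC.const (e k)))).congr (fun x y => rfl) (by simp)
    · exact hx k
  have hGx : Tendsto (fun x => (grad p x ⬝ᵥ e)⁻¹) Fx (𝓝 (grad p b ⬝ᵥ e)⁻¹) :=
    (((continuous_grad_dot p e).tendsto b).inv₀ hGb.ne').mono_left nhdsWithin_le_nhds
  set T0 := ∑ i, ∑ j, eval (Sum.elim b b) (tay p i j) * (e i * e j)
  set lc := 1 - T0 * (grad p b ⬝ᵥ e)⁻¹ with hlc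
  -- coordinates
  let w : (Fin n → ℝ) → (Fin n → ℝ) → Fin n → ℝ := fun x y k => ∑ i, U y i k * (x i - y i)
  have hw : ∀ k, SepC Fx Fy' (fun x y => w x y k) 0 := fun k =>
    (SepC.sum Finset.univ _ (fun i => L (Sum.inl (i, k)) * (b i - b i)) fun i _ =>
      (SepC.right (hL (Sum.inl (i, k)))).mul ((hx i).sub (hy i))).congr (fun x y => rfl) (by simp)
  let G : Fin n → Fin n → (Fin n → ℝ) → (Fin n → ℝ) → ℝ := fun i j x y =>
    ((1 - lc * a x y) * (grad p x ⬝ᵥ e)⁻¹) * ((if i = j then 1 else 0) -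
      ∑ μ, E y μ i j * mono (ex μ - Pi.single i 1 - Pi.single j 1) (w x y))
  let G0 : Fin n → Fin n → ℝ := fun i j => (grad p b ⬝ᵥ e)⁻¹ * (if i = j then 1 else 0)
  have hG : ∀ i j, SepC Fx Fy' (G i j) (G0 i j) := fun i j => by
    have hmono : ∀ μ, SepC Fx Fy' (fun x y => E y μ i j *
        mono (ex μ - Pi.single i 1 - Pi.single j 1) (w x y)) 0 := fun μ => by
      by_cases hμ : 3 ≤ ∑ i, ex μ i
      · set μ' := ex μ - Pi.single i 1 - Pi.single j 1
        obtain ⟨k, hk⟩ : ∃ k, μ' k ≠ 0 := by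
          by_contra hn
          push Not at hn
          have : ∑ k, ex μ k ≤ ∑ k, ((Pi.single i 1 : Fin n → ℕ) k + (Pi.single j 1 : Fin n → ℕ) k) :=
            Finset.sum_le_sum fun k _ => by
              have := hn k
              simp only [μ', Pi.sub_apply] at this
              omega
          simp [Finset.sum_add_distrib] at this
          omega
        have hm := SepC.eval_poly (Fx := Fx) (Fy := Fy') (∏ k, MvPolynomial.X k ^ μ' k)
          (v := fun k x y => w x y k) hw
        refine ((SepC.right (hL (Sum.inr (μ, i, j)))).mul hm).congr (fun x y => ?_) ?_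
        · simp [mono, map_prod]
        · simp only [map_prod, map_pow, eval_X]
          rw [Finset.prod_eq_zero (Finset.mem_univ k) (zero_pow hk), mul_zero]
      · exact (SepC.const 0).congr (fun x y => by simp [E, if_neg (fun h => hμ (And.left h))]) rfl
    exact (((SepC.const 1).sub ((SepC.const lc).mul ha)).mul (SepC.left hGx)).mul
      ((SepC.const _).sub ((SepC.sum Finset.univ _ _ fun μ _ => hmono μ))) |>.congr
        (fun x y => rfl) (by simp [G0])
  obtain ⟨U₁, hU₁, V₁, hV₁, hfac₁⟩ := facOn_form G G0 hG (inv_pos.mpr hGb) fun v => le_of_eq (by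
    simp [G0, Finset.mul_sum, ite_mul, sq, mul_assoc])
  obtain ⟨U₂, hU₂, V₂, hV₂, hfac₂⟩ := facOn_form (N := 1)
    (fun _ _ x y => Tm x y * (grad p x ⬝ᵥ e)⁻¹ + lc - lc * (Tm x y * (grad p x ⬝ᵥ e)⁻¹) * a x y)
    (fun _ _ => 1)
    (fun _ _ => (((hTm.mul (SepC.left hGx)).add (SepC.const lc)).sub
      (((SepC.const lc).mul (hTm.mul (SepC.left hGx))).mul ha)).congr (fun x y => rfl)
        (by rw [hlc]; ring)) one_pos fun v => le_of_eq (by simp [sq])
  refine ⟨(U₁ ∩ U₂) ∩ Kc, inter_mem (inter_mem hU₁ hU₂) (Filter.inter_mem self_mem_nhdsWithin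
    (mem_nhdsWithin_of_mem_nhds (Metric.closedBall_mem_nhds b hρ))),
    (V₁ ∩ V₂) ∩ Kc, inter_mem (inter_mem hV₁ hV₂) (hev.filter_mono inf_le_left), ?_⟩
  have hsepw : ∀ k, Sep fun x y => w x y k := fun k => (hw k).sep
  refine (((hfac₁ (fun k x y => √(σ y k) * w x y k) fun k =>
    ((hsepw k).mul_fun (fun _ => 1) fun y => √(σ y k)).congr fun x y => by ring).mono
      (fun x hx => hx.1.1) (fun y hy => hy.1.1)).add
    ((hfac₂ (fun _ => a) fun _ => ha.sep).mono
      (fun x hx => hx.1.2) (fun y hy => hy.1.2))).congr fun x hx y hy' => ?_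
  obtain ⟨-, hxK⟩ := hx
  obtain ⟨-, hyK⟩ := hy'
  obtain ⟨hσ, -, h1, -, h3⟩ := hUσ y hyK
  have hgy := hge y hyK
  have hgx := hge x hxK
  set D : Fin n → ℝ := x - y
  have hself := grad_self hp hyK.1.2.2
  have haD : a x y = (grad p y ⬝ᵥ D) / (grad p y ⬝ᵥ e) := by
    rw [div_eq_inv_mul]
    simp [a, D, dotProduct, Finset.mul_sum, mul_assoc]
  have hslack : slack p e x y = a x y := by
    rw [haD, div_eq_inv_mul, slack, nu, smul_dotProduct, smul_eq_mul]
    show _ = _ * (grad p y ⬝ᵥ (x - y))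
    rw [dotProduct_sub, hself, sub_zero]
  have hpt : u x y = y + proj (grad p y) e D := by
    funext i
    simp only [u, proj, ← haD, D, Pi.add_apply, Pi.sub_apply, Pi.smul_apply, smul_eq_mul]
    ring
  have htay := tay_spec' p (u x y) x
  rw [hxK.1.2.2, zero_add] at htay
  have hd : ∀ i, u x y i - x i = -(a x y * e i) := fun i => by simp [u]
  have htay' : eval (u x y) p = -(a x y * (grad p x ⬝ᵥ e)) + a x y ^ 2 * Tm x y := by
    rw [htay]
    congr 1
    · simp only [hd, dotProduct, Finset.mul_sum, ← Finset.sum_neg_distrib, grad]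
      exact Finset.sum_congr rfl fun i _ => by ring
    · simp only [hd, Tm, Finset.mul_sum]
      exact Finset.sum_congr rfl fun i _ => Finset.sum_congr rfl fun j _ => by ring
  have hwD : (fun i => ∑ k, U y i k * w x y k) = D := funext fun i => h1 D i
  have hexp : eval (u x y) p = (lineR p y (proj (grad p y) e D)).coeff 2 + eval (w x y) (P y) := by
    rw [hPval, hwD, hpt]
    set v := proj (grad p y) e D
    have h0 : (lineR p y v).eval 1 = eval (y + v) p := by rw [lineR_eval, one_smul]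
    rw [← h0, Polynomial.eval_eq_sum_range' (n := Dg + 3)
      ((lineR_degree p y v).trans_lt (by omega : Dg < Dg + 3))]
    simp only [one_pow, mul_one]
    rw [← Finset.sum_range_add_sum_Ico _ (by omega : 3 ≤ Dg + 3)]
    congr 1
    · simp [Finset.sum_range_succ, lineR_coeff_zero, lineR_coeff_one, hyK.1.2.2,
        show ∑ i, eval y (pderiv i p) * v i = 0 from proj_perp hgy D]
    · refine (Finset.sum_subset (fun j hj => ?_) fun j hj hjn => ?_).symm
      · simp only [Finset.mem_Icc, Finset.mem_Ico] at hj ⊢; omega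
      · simp only [Finset.mem_Icc, Finset.mem_Ico] at hj hjn
        exact Polynomial.coeff_eq_zero_of_natDegree_lt
          ((lineR_degree p y v).trans_lt (by omega : Dg < j))
  have hsum : ∑ i, ∑ j, ((if i = j then (1:ℝ) else 0) -
        ∑ μ, E y μ i j * mono (ex μ - Pi.single i 1 - Pi.single j 1) (w x y)) *
          (√(σ y i) * w x y i) * (√(σ y j) * w x y j)
      = -eval (u x y) p := by
    rw [hexp, neg_add, ← hA, h3, eval_expo (P y) (hPdeg y)]
    simp only [sub_mul, Finset.sum_sub_distrib, ite_mul, one_mul, zero_mul, Finset.sum_ite_eq,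
      Finset.mem_univ, if_true]
    rw [sub_eq_add_neg]
    congr 1
    · refine Finset.sum_congr rfl fun k _ => ?_
      have := Real.mul_self_sqrt (hσ k)
      show _ = σ y k * w x y k ^ 2
      linear_combination w x y k ^ 2 * this
    · rw [neg_inj]
      calc _ = ∑ i, ∑ μ, ∑ j, E y μ i j * mono (ex μ - Pi.single i 1 - Pi.single j 1) (w x y) *
            (√(σ y i) * w x y i) * (√(σ y j) * w x y j) := by
            refine Finset.sum_congr rfl fun i _ => ?_
            simp only [Finset.sum_mul]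
            exact Finset.sum_comm
        _ = ∑ μ, ∑ i, ∑ j, E y μ i j * mono (ex μ - Pi.single i 1 - Pi.single j 1) (w x y) *
            (√(σ y i) * w x y i) * (√(σ y j) * w x y j) := Finset.sum_comm
        _ = _ := Finset.sum_congr rfl fun μ _ => by
          show _ = c y μ * mono (ex μ) (w x y)
          by_cases hμ : 3 ≤ ∑ i, ex μ i
          swap
          · simp [hc0 y μ hμ, E, if_neg (fun h => hμ (And.left h))]
          set k := kk y μ
          set l := ll y μ
          rw [Finset.sum_eq_single k (fun i _ hi => Finset.sum_eq_zero fun j _ => by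
              rw [show E y μ i j = 0 from if_neg fun h => hi h.2.1]; ring) (by simp),
            Finset.sum_eq_single l (fun j _ hj => by
              rw [show E y μ k j = 0 from if_neg fun h => hj h.2.2]; ring) (by simp)]
          obtain ⟨hk, hb'⟩ := hkl y μ hyK hμ
          have hsp : ex μ = ex μ - Pi.single k 1 - Pi.single l 1 + (Pi.single k 1 + Pi.single l 1) := by
            funext i
            have := hk i
            simp only [Pi.add_apply, Pi.sub_apply, Pi.single_apply] at this ⊢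
            split_ifs at this ⊢ <;> omega
          conv_rhs => rw [hsp, mono_add, mono_add (Pi.single k 1), mono_single, mono_single]
          have hck : E y μ k l * √(σ y k * σ y l) = c y μ := by
            simp only [E]
            rw [if_pos ⟨hμ, rfl, rfl⟩]
            rcases eq_or_ne (√(σ y k * σ y l)) 0 with hz | hz
            · rw [hz, mul_zero] at hb' ⊢
              exact (abs_nonpos_iff.mp hb').symm
            · exact div_mul_cancel₀ _ hz
          rw [← hck, Real.sqrt_mul (hσ k)]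
          ring
  have hsum' : ∑ i, ∑ j, G i j x y * (√(σ y i) * w x y i) * (√(σ y j) * w x y j)
      = (1 - lc * a x y) * (grad p x ⬝ᵥ e)⁻¹ * -eval (u x y) p := by
    rw [← hsum]
    simp only [G, mul_assoc, ← Finset.mul_sum]
  show (∑ i, ∑ j, G i j x y * (√(σ y i) * w x y i) * (√(σ y j) * w x y j)) + _ = slack p e x y
  rw [hsum', htay', hslack]
  simp only [Finset.univ_unique, Finset.sum_singleton]
  field_simp
  ring

end Vale.Agent.P256
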