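import Vale.Agent.P256.Node
import Vale.Agent.P256.Flat.Smooth

/-!
Expansion of the blow-up at a singular point, parameters of nearby boundary points, and the bounds
on the expansion coefficients along the boundary.
-/

namespace Vale.Agent.P256

open MvPolynomial Filter Topology Matrix

variable {n d : ℕ} {p : MvPolynomial (Fin n) ℝ} {e b : Fin n → ℝ}

theorem fset_ne {b : Fin n → ℝ} (hb : b ∈ Fset p e) : b ≠ 0 := fun h => by
  have := hb.2
  simp [h] at this

/-- The homogeneous components at `b` above the tangent form. -/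
noncomputable def qp (p : MvPolynomial (Fin n) ℝ) (b : Fin n → ℝ) (j : ℕ) :
    MvPolynomial (Fin n) ℝ :=
  homogeneousComponent (mult p b + j) (shift p b)

/-- A bound on the number of components. -/
noncomputable def len (p : MvPolynomial (Fin n) ℝ) (b : Fin n → ℝ) : ℕ :=
  (blow p b).totalDegree + 2

theorem qp_zero : qp p b 0 = tangentForm p b := rfl

theorem slab_pos {γ : Type*} [TopologicalSpace γ] {T : Set γ} (hT : IsCompact T) {A : Set (ℝ × γ)}
    (hA : IsClosed A) {f : ℝ × γ → ℝ} (hf : Continuous f)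
    (h : ∀ Y ∈ T, ((0:ℝ), Y) ∈ A → 0 < f (0, Y)) :
    ∃ δ > (0:ℝ), ∀ y ∈ A, |y.1| ≤ δ → y.2 ∈ T → 0 < f y := by
  have hev := hT.eventually_forall_of_forall_eventually (x₀ := (0:ℝ))
    (P := fun s Y => (s, Y) ∈ A → 0 < f (s, Y)) fun Y hY => by
      by_cases hmem : ((0:ℝ), Y) ∈ A
      · exact (hf.continuousAt.eventually (lt_mem_nhds (h Y hY hmem))).mono fun q hq _ => hq
      · filter_upwards [hA.isOpen_compl.mem_nhds hmem] with q hq h'
        exact absurd h' hq
  obtain ⟨δ, hδ, h'⟩ := Metric.nhds_basis_closedBall.mem_iff.mp hev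
  refine ⟨δ, hδ, fun y hy hys hyT => h' ?_ y.2 hyT hy⟩
  rw [Metric.mem_closedBall, Real.dist_eq, sub_zero]
  exact hys

theorem lineR_blow (p : MvPolynomial (Fin n) ℝ) (b Y : Fin n → ℝ) :
    lineR p b Y = Polynomial.X ^ mult p b * lineR (blow p b) (pt 0 Y) (pt 1 0) :=
  Polynomial.funext fun s => by
    rw [lineR_eval, Polynomial.eval_mul, Polynomial.eval_pow, Polynomial.eval_X, lineR_eval,
      pt_add_smul, mul_one, zero_add, smul_zero, add_zero, blow_spec']

theorem bline_coeff (p : MvPolynomial (Fin n) ℝ) (b Y : Fin n → ℝ) (j : ℕ) :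
    (lineR (blow p b) (pt 0 Y) (pt 1 0)).coeff j = eval Y (qp p b j) := by
  rw [qp, ← lineR_coeff_hom, lineR_blow, Polynomial.coeff_X_pow_mul', if_pos (by omega),
    Nat.add_sub_cancel_left]

theorem bline_eval (p : MvPolynomial (Fin n) ℝ) (b Y : Fin n → ℝ) (s : ℝ) :
    (lineR (blow p b) (pt 0 Y) (pt 1 0)).eval s = eval (pt s Y) (blow p b) := by
  rw [lineR_eval, pt_add_smul]; simp

theorem bline_degree (p : MvPolynomial (Fin n) ℝ) (b Y : Fin n → ℝ) :
    (lineR (blow p b) (pt 0 Y) (pt 1 0)).natDegree < len p b :=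
  (lineR_degree _ _ _).trans_lt (Nat.lt_add_of_pos_right two_pos)

theorem blow_sum (p : MvPolynomial (Fin n) ℝ) (b Y : Fin n → ℝ) (s : ℝ) :
    eval (pt s Y) (blow p b) = ∑ j ∈ Finset.range (len p b), s ^ j * eval Y (qp p b j) := by
  rw [← bline_eval, Polynomial.eval_eq_sum_range' (bline_degree p b Y)]
  exact Finset.sum_congr rfl fun j _ => by rw [bline_coeff]; ring

theorem brad_sum (p : MvPolynomial (Fin n) ℝ) (b Y : Fin n → ℝ) (s : ℝ) :
    brad p b s Y = ∑ j ∈ Finset.range (len p b), j * s ^ (j - 1) * eval Y (qp p b j) := by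
  set L := lineR (blow p b) (pt 0 Y) (pt 1 0)
  have h1 : (lineR (blow p b) (pt s Y) (pt 1 0)).coeff 1 = brad p b s Y := by
    rw [lineR_coeff_one, Fintype.sum_option]; simp [brad]
  have h2 : lineR (blow p b) (pt s Y) (pt 1 0) = Polynomial.taylor s L :=
    Polynomial.funext fun t => by
      rw [Polynomial.taylor_apply, Polynomial.eval_comp, bline_eval, lineR_eval, pt_add_smul]
      simp [add_comm]
  rw [← h1, h2, Polynomial.taylor_coeff_one]
  conv_lhs => rw [L.as_sum_range' (len p b) (bline_degree p b Y)]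
  simp only [Polynomial.derivative_sum, Polynomial.derivative_monomial, Polynomial.eval_finsetSum,
    Polynomial.eval_monomial]
  exact Finset.sum_congr rfl fun j _ => by rw [bline_coeff]; ring

theorem bgrad_sum (p : MvPolynomial (Fin n) ℝ) (b Y v : Fin n → ℝ) (s : ℝ) :
    bgrad p b s Y ⬝ᵥ v = ∑ j ∈ Finset.range (len p b), s ^ j * (grad (qp p b j) Y ⬝ᵥ v) := by
  have h := dirderiv_congr (P := blow p b)
    (Q := ∑ j ∈ Finset.range (len p b), MvPolynomial.C (s ^ j) * qp p b j)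
    (Y := pt s Y) (V := pt 0 v) (y := Y) (v := v) fun t => by
      rw [pt_add_smul, mul_zero, add_zero, blow_sum, map_sum]
      simp
  simp only [Fintype.sum_option, pt_none, pt_some, mul_zero, zero_add, map_sum, pderiv_C_mul,
    map_mul, eval_C, Finset.sum_mul, dotProduct, bgrad, grad] at h ⊢
  rw [h, Finset.sum_comm]
  simp [Finset.mul_sum, mul_assoc]

theorem bgrad_zero (p : MvPolynomial (Fin n) ℝ) (b Y : Fin n → ℝ) :
    bgrad p b 0 Y = grad (tangentForm p b) Y :=
  funext fun i => by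
    simp only [bgrad]
    exact blow_grad_one p b Y i

theorem blow_deriv (p : MvPolynomial (Fin n) ℝ) (b Y : Fin n → ℝ) (i : Fin n) (t : ℝ) :
    t ^ mult p b * eval (pt t Y) (pderiv (some i) (blow p b))
      = t * eval (b + t • Y) (pderiv i p) := by
  have h := dirderiv_congr (P := MvPolynomial.C (t ^ mult p b) * blow p b) (Q := p)
    (Y := pt t Y) (V := pt 0 (Pi.single i 1)) (y := b + t • Y) (v := t • Pi.single i 1)
    fun s => by
      rw [pt_add_smul, mul_zero, add_zero, map_mul, eval_C, ← blow_spec', smul_add,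
        smul_comm s t, add_assoc]
  simp only [Fintype.sum_option, pt_none, pt_some, mul_zero, zero_add, pderiv_C_mul, map_mul,
    eval_C, Pi.smul_apply, smul_eq_mul, Pi.single_apply, mul_ite, mul_one, mul_zero,
    Finset.sum_ite_eq', Finset.mem_univ, if_true] at h
  rw [h, mul_comm]

theorem gcoef_mult (hm : 1 ≤ mult p b) (Y : Fin n → ℝ) :
    gcoef p e b Y (mult p b - 1) = grad (tangentForm p b) Y ⬝ᵥ e := by
  have key : ∀ i, Polynomial.X ^ mult p b * lineR (pderiv (some i) (blow p b)) (pt 0 Y) (pt 1 0)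
      = Polynomial.X * lineR (pderiv i p) b Y := fun i => Polynomial.funext fun t => by
    rw [Polynomial.eval_mul, Polynomial.eval_mul, Polynomial.eval_pow, Polynomial.eval_X,
      lineR_eval, lineR_eval, pt_add_smul, mul_one, zero_add, smul_zero, add_zero]
    exact blow_deriv p b Y i t
  rw [gcoef, dotProduct_comm]
  refine Finset.sum_congr rfl fun i _ => congrArg (e i * ·) ?_
  have h := congrArg (fun P : Polynomial ℝ => P.coeff (mult p b - 1 + 1)) (key i)
  rw [Polynomial.coeff_X_mul, Nat.sub_add_cancel hm, Polynomial.coeff_X_pow_mul', if_pos le_rfl,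
    Nat.sub_self, Polynomial.coeff_zero_eq_eval_zero, lineR_eval, zero_smul, add_zero,
    blow_grad_one] at h
  exact h.symm

/-- The functional separating the tangent cone from its lineality. -/
noncomputable def th (p : MvPolynomial (Fin n) ℝ) (e b : Fin n → ℝ) : Fin n → ℝ :=
  grad (tangentForm p b) e

/-- The slice of the tangent cone. -/
def slice (p : MvPolynomial (Fin n) ℝ) (e b : Fin n → ℝ) : Set (Fin n → ℝ) :=
  {Y | b ⬝ᵥ Y = 0 ∧ th p e b ⬝ᵥ Y = 1 ∧ Y ∈ hypCone (tangentForm p b) e}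

/-- Parameters of boundary points near `b`, including the limiting ones. -/
def Par (p : MvPolynomial (Fin n) ℝ) (e b : Fin n → ℝ) : Set (ℝ × (Fin n → ℝ)) :=
  {y | 0 ≤ y.1 ∧ y.2 ∈ slice p e b ∧ eval (pt y.1 y.2) (blow p b) = 0}

/-- The supporting functional at a parameter. -/
noncomputable def Sn (p : MvPolynomial (Fin n) ℝ) (e b : Fin n → ℝ) (x : Fin n → ℝ)
    (y : ℝ × (Fin n → ℝ)) : ℝ :=
  (bgrad p b y.1 y.2 ⬝ᵥ e)⁻¹ * (bgrad p b y.1 y.2 ⬝ᵥ (x - b) - y.1 ^ 2 * brad p b y.1 y.2)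

/-- The parameter of a point. -/
noncomputable def xpar (p : MvPolynomial (Fin n) ℝ) (e b x : Fin n → ℝ) : ℝ × (Fin n → ℝ) :=
  (th p e b ⬝ᵥ (x - b), (th p e b ⬝ᵥ (x - b))⁻¹ • (x - b))

theorem continuous_eval_pair (P : MvPolynomial (Option (Fin n)) ℝ) :
    Continuous fun q : ℝ × (Fin n → ℝ) => eval (pt q.1 q.2) P := by
  have := continuous_aeval_pt (T := ℝ × (Fin n → ℝ)) P continuous_fst continuous_snd
  simpa [aeval_eq_eval] using this

theorem continuous_bgrad_dot (p : MvPolynomial (Fin n) ℝ) (b v : Fin n → ℝ) :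
    Continuous fun q : ℝ × (Fin n → ℝ) => bgrad p b q.1 q.2 ⬝ᵥ v :=
  continuous_finsetSum _ fun i _ => (continuous_eval_pair _).mul continuous_const

variable (hp : p.IsHomogeneous d) (he : Hyperbolic p e) (hb : b ∈ Fset p e)
  (hg : grad p b = 0) (hO : Ordinary p e b)

include hp he hb hg hO in
theorem th_pos {v : Fin n → ℝ} (hv : v ∈ hypCone (tangentForm p b) e) (hbv : b ⬝ᵥ v = 0)
    (hv0 : v ≠ 0) : 0 < th p e b ⬝ᵥ v := by
  have hb0 := fset_ne hb
  obtain ⟨hbK, -⟩ := (mem_frontier_hypCone hp he).mp hb.1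
  have hq := tangent_hyperbolic hp he hbK
  have hqh := tangentForm_homogeneous p b
  set q := tangentForm p b
  set f := lineR q e v
  have hf : f.Splits := lineR_splits hqh hq (self_mem_Lam hqh hq) v
  have h0 : f.eval 0 = eval e q := by rw [lineR_eval, zero_smul, add_zero]
  have h1 : f.derivative.eval 0 = th p e b ⬝ᵥ v := by
    rw [← Polynomial.coeff_zero_eq_eval_zero, Polynomial.coeff_derivative, zero_add,
      lineR_coeff_one]
    simp [th, grad, dotProduct, q]
  have hroot : ∀ r ∈ f.roots, r < 0 := fun r hr => by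
    have hz := (Polynomial.mem_roots'.mp hr).2
    rw [Polynomial.IsRoot, lineR_eval] at hz
    rcases lt_trichotomy r 0 with h | rfl | h
    · exact h
    · rw [zero_smul, add_zero] at hz; exact absurd hz hq.1.ne'
    · rw [show e + r • v = r • (v + r⁻¹ • e) by
        rw [smul_add, smul_smul, mul_inv_cancel₀ h.ne', one_smul, add_comm], eval_smul hqh] at hz
      exact absurd ((mul_eq_zero.mp hz).resolve_left (pow_ne_zero _ h.ne'))
        ((mem_hypCone hqh).mp hv _ (inv_pos.mpr h))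
  have hsum := hf.eval_derivative_div_eval_of_ne_zero (x := 0) (by rw [h0]; exact hq.1.ne')
  rw [h0, h1] at hsum
  rcases eq_or_ne f.roots 0 with hnil | hne
  · exfalso
    have hconst : ∀ t, f.eval t = eval e q := fun t => by
      rw [← h0, Polynomial.eq_C_of_natDegree_eq_zero
        (show f.natDegree = 0 by rw [hf.natDegree_eq_card_roots, hnil, Multiset.card_zero])]
      simp
    have hneg : -v ∈ hypCone q e := (mem_hypCone hqh).mpr fun s hs hz => by
      have := hconst (-s⁻¹)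
      rw [lineR_eval, show e + -s⁻¹ • v = s⁻¹ • (-v + s • e) by
        rw [smul_add, smul_smul, inv_mul_cancel₀ hs.ne', one_smul, smul_neg, neg_smul, add_comm],
        eval_smul hqh, hz, mul_zero] at this
      exact hq.1.ne this
    obtain ⟨c, hc⟩ := Submodule.mem_span_singleton.mp
      (tangent_lineality hp he hbK (two_le_mult hp he hb.1 hg) hO hv hneg)
    rw [← hc, dotProduct_smul, smul_eq_mul, mul_eq_zero, or_iff_left (dot_self_pos hb0).ne'] at hbv
    exact hv0 (by rw [← hc, hbv, zero_smul])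
  · have hpos : 0 < (f.roots.map fun z => 1 / ((0:ℝ) - z)).sum := by
      obtain ⟨r, hr⟩ := Multiset.exists_mem_of_ne_zero hne
      obtain ⟨M, hM⟩ := Multiset.exists_cons_of_mem hr
      rw [hM] at hroot ⊢
      simp only [Multiset.map_cons, Multiset.sum_cons]
      refine add_pos_of_pos_of_nonneg ?_ (Multiset.sum_nonneg fun a ha => ?_)
      · have := hroot r (Multiset.mem_cons_self _ _)
        exact one_div_pos.mpr (by linarith)
      · obtain ⟨z, hz, rfl⟩ := Multiset.mem_map.mp ha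
        have := hroot z (Multiset.mem_cons_of_mem hz)
        exact one_div_nonneg.mpr (by linarith)
    rw [← hsum, div_pos_iff_of_pos_right hq.1] at hpos
    exact hpos

include hp he hb in
theorem isClosed_tangentCone : IsClosed (hypCone (tangentForm p b) e) :=
  isClosed_hypCone (tangentForm_homogeneous p b)
    (tangent_hyperbolic hp he ((mem_frontier_hypCone hp he).mp hb.1).1)

include hp he hb in
theorem isClosed_Par : IsClosed (Par p e b) :=
  (isClosed_le continuous_const continuous_fst).inter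
    ((((isClosed_eq (continuous_dot b) continuous_const).inter
      ((isClosed_eq (continuous_dot _) continuous_const).inter
        (isClosed_tangentCone hp he hb))).preimage continuous_snd).inter
      (isClosed_eq (continuous_eval_pair _) continuous_const))

include hp he hb hg hO in
theorem isCompact_slice : IsCompact (slice p e b) := by
  have hcl : IsClosed (slice p e b) := (isClosed_eq (continuous_dot b) continuous_const).inter
    ((isClosed_eq (continuous_dot _) continuous_const).inter (isClosed_tangentCone hp he hb))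
  let S : Set (Fin n → ℝ) :=
    Metric.sphere 0 1 ∩ ({Y | b ⬝ᵥ Y = 0} ∩ hypCone (tangentForm p b) e)
  have hS : IsCompact S := (isCompact_sphere _ _).inter_right
    ((isClosed_eq (continuous_dot b) continuous_const).inter (isClosed_tangentCone hp he hb))
  obtain ⟨c, hc, hcS⟩ : ∃ c > (0:ℝ), ∀ Y ∈ S, c ≤ th p e b ⬝ᵥ Y := by
    rcases S.eq_empty_or_nonempty with h | h
    · exact ⟨1, one_pos, by simp [h]⟩
    · obtain ⟨Y, hY, hm⟩ := hS.exists_isMinOn h (continuous_dot _).continuousOn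
      refine ⟨_, th_pos hp he hb hg hO hY.2.2 hY.2.1 ?_, fun u hu => hm hu⟩
      intro h0
      have := hY.1
      simp [h0] at this
  refine (isCompact_closedBall (0 : Fin n → ℝ) c⁻¹).of_isClosed_subset hcl fun Y hY => ?_
  rw [Metric.mem_closedBall, dist_zero_right]
  rcases eq_or_ne Y 0 with rfl | h0
  · simp [hc.le]
  · have hn : 0 < ‖Y‖ := norm_pos_iff.mpr h0
    have hmem : ‖Y‖⁻¹ • Y ∈ S := ⟨by rw [mem_sphere_zero_iff_norm]; exact norm_smul_inv_norm h0,
      by show b ⬝ᵥ _ = 0; rw [dotProduct_smul, hY.1, smul_zero],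
      smul_mem_cone (tangentForm_homogeneous p b) hY.2.2 (inv_pos.mpr hn)⟩
    have := hcS _ hmem
    rw [dotProduct_smul, hY.2.1, smul_eq_mul, mul_one] at this
    exact (le_inv_comm₀ hc hn).mp this

include hp he hb hg hO in
theorem Par_limit {Z : Fin n → ℝ} (h : ((0:ℝ), Z) ∈ Par p e b) :
    Z ∈ frontier (hypCone (tangentForm p b) e) ∧ eval Z (tangentForm p b) = 0 ∧
      Z ∉ Submodule.span ℝ ({b} : Set (Fin n → ℝ)) ∧ 0 < grad (tangentForm p b) Z ⬝ᵥ e := by
  obtain ⟨-, ⟨hbZ, hth, hZK⟩, hB⟩ := h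
  obtain ⟨hbK, -⟩ := (mem_frontier_hypCone hp he).mp hb.1
  have hq := tangent_hyperbolic hp he hbK
  have hqh := tangentForm_homogeneous p b
  rw [blow_zero'] at hB
  have hF := (mem_frontier_hypCone hqh hq).mpr ⟨hZK, hB⟩
  have hs : Z ∉ Submodule.span ℝ ({b} : Set (Fin n → ℝ)) := fun hm => by
    obtain ⟨c, rfl⟩ := Submodule.mem_span_singleton.mp hm
    rw [dotProduct_smul, smul_eq_mul, mul_eq_zero,
      or_iff_left (dot_self_pos (fset_ne hb)).ne'] at hbZ
    simp [hbZ] at hth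
  exact ⟨hF, hB, hs, (smooth_facts hqh hq hZK hB (hO Z hF hs)).1⟩

include hp he hb hg hO in
theorem xpar_mem {x : Fin n → ℝ} (hx : x ∈ Sset p e b) (hne : x ≠ b) :
    xpar p e b x ∈ Par p e b ∧ 0 < (xpar p e b x).1 ∧
      (xpar p e b x).1 • (xpar p e b x).2 = x - b := by
  obtain ⟨hbK, -⟩ := (mem_frontier_hypCone hp he).mp hb.1
  have hv : x - b ∈ hypCone (tangentForm p b) e := by
    refine mem_tangentCone hp he hbK ?_
    filter_upwards [Ioo_mem_nhdsGT one_pos] with h hh
    rw [show b + h • (x - b) = (1 - h) • b + h • x by rw [smul_sub, sub_smul, one_smul]; abel]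
    exact add_mem_cone hp he (smul_mem_cone hp hbK (by linarith [hh.2]))
      (smul_mem_cone hp hx.2.1 hh.1)
  have hbv : b ⬝ᵥ (x - b) = 0 := by rw [dotProduct_sub, hx.1, sub_self]
  have hr := th_pos hp he hb hg hO hv hbv (sub_ne_zero.mpr hne)
  have hdec : (xpar p e b x).1 • (xpar p e b x).2 = x - b := by
    simp only [xpar]
    rw [smul_smul, mul_inv_cancel₀ hr.ne', one_smul]
  refine ⟨⟨hr.le, ⟨?_, ?_, ?_⟩, ?_⟩, hr, hdec⟩
  · show b ⬝ᵥ _ = 0
    simp only [xpar]
    rw [dotProduct_smul, hbv, smul_zero]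
  · show th p e b ⬝ᵥ _ = 1
    simp only [xpar]
    rw [dotProduct_smul, smul_eq_mul, inv_mul_cancel₀ hr.ne']
  · exact smul_mem_cone (tangentForm_homogeneous p b) hv (inv_pos.mpr hr)
  · have h := blow_spec' p b (xpar p e b x).2 (xpar p e b x).1
    rw [hdec, add_sub_cancel, hx.2.2] at h
    exact (mul_eq_zero.mp h.symm).resolve_left (pow_ne_zero _ hr.ne')

omit hp he hb hg hO in
/-- A parameter with `s > 0` is a boundary point, with the expected supporting functional. -/
theorem Sn_eq (hp : p.IsHomogeneous d) {s : ℝ} {Y : Fin n → ℝ} (hs : 0 < s)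
    (hB : eval (pt s Y) (blow p b) = 0) (hge : 0 < bgrad p b s Y ⬝ᵥ e) :
    eval (b + s • Y) p = 0 ∧ grad p (b + s • Y) ≠ 0 ∧
      ∀ x, slack p e x (b + s • Y) = Sn p e b x (s, Y) := by
  have h0 : eval (b + s • Y) p = 0 := by rw [blow_spec', hB, mul_zero]
  obtain ⟨-, hgv, hgY⟩ := blow_point hs.ne' h0
  set k := s ^ mult p b / s
  have hk : 0 < k := div_pos (pow_pos hs _) hs
  have hG : ∀ v, grad p (b + s • Y) ⬝ᵥ v = k * (bgrad p b s Y ⬝ᵥ v) := fun v => by
    rw [show k = s ^ mult p b / s from rfl, div_mul_eq_mul_div, hgv, mul_div_cancel_left₀ _ hs.ne']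
  refine ⟨h0, fun hz => ?_, fun x => ?_⟩
  · have := hG e
    rw [hz, zero_dotProduct] at this
    exact (mul_pos hk hge).ne this
  · have hself := grad_self hp h0
    have e1 : grad p (b + s • Y) ⬝ᵥ x
        = k * (bgrad p b s Y ⬝ᵥ (x - b) - s ^ 2 * brad p b s Y) := by
      conv_lhs => rw [show x = (b + s • Y) + ((x - b) - s • Y) by abel]
      rw [dotProduct_add, hself, zero_add, hG, dotProduct_sub, dotProduct_smul, hgY, smul_eq_mul]
      ring
    rw [slack, nu, smul_dotProduct, smul_eq_mul, e1, hG e, Sn, mul_inv, mul_assoc,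
      mul_left_comm (bgrad p b s Y ⬝ᵥ e)⁻¹, ← mul_assoc, inv_mul_cancel₀ hk.ne', one_mul]

include hp he hb hg hO in
/-- Near `b` the blown-up gradient is transversal to the boundary. -/
theorem Par_transversal :
    ∃ δ > (0:ℝ), ∀ y ∈ Par p e b, y.1 ≤ δ → 0 < bgrad p b y.1 y.2 ⬝ᵥ e := by
  obtain ⟨δ, hδ, h⟩ := slab_pos (isCompact_slice hp he hb hg hO) (isClosed_Par hp he hb)
    (continuous_bgrad_dot p b e) fun Y _ hY => by
      rw [bgrad_zero]
      exact (Par_limit hp he hb hg hO hY).2.2.2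
  exact ⟨δ, hδ, fun y hy hys => h y hy ((abs_of_nonneg hy.1).le.trans hys) hy.2.1⟩

omit hp he hb hg hO in
/-- A nonnegative polynomial on the domain `q ≥ 0` has small tangential derivative. -/
theorem tangential_bound (q F : MvPolynomial (Fin n) ℝ) {Z : Fin n → ℝ} {ε : ℝ} (hε : 0 < ε)
    (hpos : ∀ W ∈ Metric.closedBall Z ε, 0 < grad q W ⬝ᵥ e)
    (hF : ∀ W ∈ Metric.closedBall Z ε, 0 ≤ eval W q → 0 ≤ eval W F) :
    ∃ C, 0 ≤ C ∧ ∀ Y ∈ Metric.closedBall Z (ε / 2), 0 ≤ eval Y q → ∀ i,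
      |grad F Y ⬝ᵥ proj (grad q Y) e (Pi.single i 1)| ≤ C * √(eval Y F) := by
  set B := Metric.closedBall Z ε
  set B' := Metric.closedBall Z (ε / 2)
  have hB : IsCompact B := isCompact_closedBall _ _
  have hB' : IsCompact B' := isCompact_closedBall _ _
  have hsub : B' ⊆ B := Metric.closedBall_subset_closedBall (by linarith)
  obtain ⟨γ, hγ, hγle⟩ : ∃ γ > (0:ℝ), ∀ W ∈ B, γ ≤ grad q W ⬝ᵥ e := by
    obtain ⟨W, hW, hm⟩ := hB.exists_isMinOn ⟨Z, Metric.mem_closedBall_self hε.le⟩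
      (continuous_grad_dot q e).continuousOn
    exact ⟨_, hpos W hW, fun u hu => hm hu⟩
  obtain ⟨W0, hW0, hW⟩ : ∃ W0, 0 ≤ W0 ∧ ∀ Y ∈ B', ∀ i,
      ‖proj (grad q Y) e (Pi.single i 1)‖ ≤ W0 := by
    choose w hw using fun i : Fin n => hB'.exists_bound_of_continuousOn
      (f := fun Y => proj (grad q Y) e (Pi.single i 1)) (continuousOn_const.sub
        (ContinuousOn.smul (ContinuousOn.div
          (continuous_grad_dot q (Pi.single i 1)).continuousOn
          (continuous_grad_dot q e).continuousOn fun Y hY => (hpos Y (hsub hY)).ne')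
          continuousOn_const))
    exact ⟨∑ i, |w i|, by positivity, fun Y hY i => ((hw i Y hY).trans (le_abs_self _)).trans
      (Finset.single_le_sum (f := fun i => |w i|) (fun i _ => abs_nonneg _) (Finset.mem_univ i))⟩
  have htay : ∀ P : MvPolynomial (Fin n) ℝ, ∃ L, 0 ≤ L ∧ ∀ Y ∈ B, ∀ h : Fin n → ℝ, Y + h ∈ B →
      |eval (Y + h) P - eval Y P - grad P Y ⬝ᵥ h| ≤ L * ‖h‖ ^ 2 := fun P => by
    choose L hL using fun i j => (hB.prod hB).exists_bound_of_continuousOn
      (f := fun u : (Fin n → ℝ) × (Fin n → ℝ) => eval (Sum.elim u.1 u.2) (tay P i j))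
      ((MvPolynomial.continuous_eval _).comp (continuous_pi fun o => by
        rcases o with o | o
        · exact (continuous_apply o).comp continuous_fst
        · exact (continuous_apply o).comp continuous_snd)).continuousOn
    refine ⟨∑ i, ∑ j, |L i j|, by positivity, fun Y hY h hh => ?_⟩
    rw [tay_spec' P (Y + h) Y]
    simp only [Pi.add_apply, add_sub_cancel_left, grad, dotProduct]
    rw [show ∀ u v w : ℝ, u + v + w - u - v = w from fun u v w => by ring, Finset.sum_mul]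
    refine (Finset.abs_sum_le_sum_abs _ _).trans (Finset.sum_le_sum fun i _ => ?_)
    rw [Finset.sum_mul]
    refine (Finset.abs_sum_le_sum_abs _ _).trans (Finset.sum_le_sum fun j _ => ?_)
    rw [abs_mul, abs_mul, mul_assoc, sq]
    have h1 := (hL i j (Y + h, Y) ⟨hh, hY⟩).trans (le_abs_self _)
    rw [Real.norm_eq_abs] at h1
    have hn : ∀ k, |h k| ≤ ‖h‖ := fun k => by rw [← Real.norm_eq_abs]; exact norm_le_pi_norm h k
    exact mul_le_mul h1 (mul_le_mul (hn i) (hn j) (abs_nonneg _)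
      (norm_nonneg _)) (mul_nonneg (abs_nonneg _) (abs_nonneg _)) (abs_nonneg _)
  obtain ⟨Lq, hLq, hq2⟩ := htay q
  obtain ⟨LF, hLF, hF2⟩ := htay F
  obtain ⟨M, hM⟩ := hB'.exists_bound_of_continuousOn (f := fun Y => (eval Y F, grad F Y ⬝ᵥ e))
    ((MvPolynomial.continuous_eval F).prodMk (continuous_grad_dot F e)).continuousOn
  set H := W0 + ‖e‖ + 1
  have hH : 0 < H := by positivity
  set κ := Lq * H ^ 2 / γ
  have hκ : 0 ≤ κ := by positivity
  set η0 := min (κ + 1)⁻¹ (ε / (2 * H))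
  have hη0 : 0 < η0 := lt_min (by positivity) (by positivity)
  set M' := |M| + 1
  set C2 := κ * M' + LF * H ^ 2
  have hC2 : 0 ≤ C2 := by positivity
  refine ⟨√M' / η0 + C2 * η0, by positivity, fun Y hY hqY i => ?_⟩
  have hMY := (hM Y hY).trans (le_abs_self M)
  rw [Prod.norm_def, max_le_iff, Real.norm_eq_abs, Real.norm_eq_abs] at hMY
  set w := proj (grad q Y) e (Pi.single i 1)
  have hFY : 0 ≤ eval Y F := hF Y (hsub hY) hqY
  have key : ∀ η, 0 < η → η ≤ η0 → |grad F Y ⬝ᵥ w| ≤ eval Y F / η + C2 * η := by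
    intro η hη hle
    have hκη : κ * η ≤ 1 := by
      refine (mul_le_mul_of_nonneg_left (hle.trans (min_le_left _ _)) hκ).trans ?_
      rw [← div_eq_mul_inv, div_le_one (by positivity)]
      linarith
    have hstep : ∀ σ : ℝ, |σ| = 1 →
        0 ≤ eval Y F + σ * η * (grad F Y ⬝ᵥ w) + C2 * η ^ 2 := by
      intro σ hσ
      set h := (σ * η) • w + (κ * η ^ 2) • e
      have hnorm : ‖h‖ ≤ η * H := by
        refine (norm_add_le _ _).trans ?_
        rw [norm_smul, norm_smul, Real.norm_eq_abs, Real.norm_eq_abs, abs_mul, hσ, one_mul,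
          abs_of_pos hη, abs_of_nonneg (by positivity)]
        have h1 := mul_le_mul_of_nonneg_left (hW Y hY i) hη.le
        have h2 := mul_le_mul_of_nonneg_right hκη (mul_nonneg hη.le (norm_nonneg e))
        calc η * ‖w‖ + κ * η ^ 2 * ‖e‖ ≤ η * W0 + 1 * (η * ‖e‖) :=
              add_le_add h1 ((by ring : κ * η ^ 2 * ‖e‖ = κ * η * (η * ‖e‖)).le.trans h2)
          _ ≤ η * H := by simp only [H]; nlinarith
      have hmem : Y + h ∈ B := by
        rw [Metric.mem_closedBall, dist_eq_norm, add_sub_right_comm]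
        refine (norm_add_le _ _).trans ?_
        have h1 : ‖Y - Z‖ ≤ ε / 2 := by
          rw [← dist_eq_norm]; exact Metric.mem_closedBall.mp hY
        have h2 : η * H ≤ ε / 2 := by
          refine (mul_le_mul_of_nonneg_right (hle.trans (min_le_right _ _)) hH.le).trans_eq ?_
          field_simp
        linarith
      have hgw : grad q Y ⬝ᵥ w = 0 := proj_perp (hpos Y (hsub hY)).ne' _
      have hdot : ∀ P : MvPolynomial (Fin n) ℝ, grad P Y ⬝ᵥ h
          = σ * η * (grad P Y ⬝ᵥ w) + κ * η ^ 2 * (grad P Y ⬝ᵥ e) := fun P => by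
        simp [h, dotProduct_add, dotProduct_smul]
      have hsq : ‖h‖ ^ 2 ≤ η ^ 2 * H ^ 2 := by
        rw [← mul_pow]; exact pow_le_pow_left₀ (norm_nonneg _) hnorm 2
      have hqh : 0 ≤ eval (Y + h) q := by
        have := (abs_le.mp (hq2 Y (hsub hY) h hmem)).1
        rw [hdot, hgw, mul_zero, zero_add] at this
        have h3 : Lq * (η ^ 2 * H ^ 2) ≤ κ * η ^ 2 * (grad q Y ⬝ᵥ e) := by
          refine le_trans (le_of_eq ?_) (mul_le_mul_of_nonneg_left (hγle Y (hsub hY)) (by positivity))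
          simp only [κ]
          field_simp
        nlinarith [mul_le_mul_of_nonneg_left hsq hLq]
      have h4 := hF _ hmem hqh
      have h5 := (abs_le.mp (hF2 Y (hsub hY) h hmem)).2
      rw [hdot] at h5
      have h6 : grad F Y ⬝ᵥ e ≤ M' := (le_abs_self _).trans (hMY.2.trans (by simp [M']))
      have h7 := mul_le_mul_of_nonneg_left h6 (mul_nonneg hκ (sq_nonneg η))
      have h8 := mul_le_mul_of_nonneg_left hsq hLF
      show 0 ≤ eval Y F + σ * η * (grad F Y ⬝ᵥ w) + (κ * M' + LF * H ^ 2) * η ^ 2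
      linarith
    have h1 := hstep 1 abs_one
    have h2 := hstep (-1) (by simp)
    rw [abs_le]
    constructor
    · rw [← sub_nonneg]
      have : 0 ≤ (eval Y F + η * (grad F Y ⬝ᵥ w) + C2 * η ^ 2) / η :=
        div_nonneg (by linarith) hη.le
      field_simp at this ⊢
      linarith
    · rw [← sub_nonneg]
      have : 0 ≤ (eval Y F - η * (grad F Y ⬝ᵥ w) + C2 * η ^ 2) / η :=
        div_nonneg (by linarith) hη.le
      field_simp at this ⊢
      linarith
  suffices ∀ δ : ℝ, 0 < δ → δ ≤ 1 →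
      |grad F Y ⬝ᵥ w| ≤ (√M' / η0 + C2 * η0) * √(eval Y F + δ) by
    have ht : Tendsto (fun δ : ℝ => (√M' / η0 + C2 * η0) * √(eval Y F + δ)) (𝓝[>] 0)
        (𝓝 ((√M' / η0 + C2 * η0) * √(eval Y F))) := by
      have hc : Continuous fun δ : ℝ => (√M' / η0 + C2 * η0) * √(eval Y F + δ) := by fun_prop
      simpa using (hc.tendsto 0).mono_left (nhdsWithin_le_nhds (s := Set.Ioi (0:ℝ)))
    refine ge_of_tendsto ht ?_
    filter_upwards [Ioc_mem_nhdsGT one_pos] with δ hδ using this δ hδ.1 hδ.2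
  intro δ hδ hδ1
  set S := √(eval Y F + δ)
  have hS : 0 < S := Real.sqrt_pos.mpr (by linarith)
  have hR : 0 < √M' := Real.sqrt_pos.mpr (by positivity)
  have hR1 : 1 ≤ √M' := Real.one_le_sqrt.mpr (le_add_of_nonneg_left (abs_nonneg M))
  have hSR : S ≤ √M' := Real.sqrt_le_sqrt (by
    have := (le_abs_self _).trans hMY.1
    simp only [M']
    linarith)
  refine (key (η0 * S / √M') (by positivity) ?_).trans ?_
  · rw [mul_div_assoc]
    exact mul_le_of_le_one_right hη0.le ((div_le_one hR).mpr hSR)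
  · have h3 : eval Y F ≤ S * S := by
      rw [Real.mul_self_sqrt (by linarith)]; linarith
    rw [add_mul (√M' / η0) (C2 * η0) S]
    refine add_le_add ?_ ?_
    · rw [div_le_iff₀ (by positivity)]
      calc eval Y F ≤ S * S := h3
        _ = _ := by field_simp
    · rw [mul_assoc]
      refine mul_le_mul_of_nonneg_left ?_ hC2
      rw [div_le_iff₀ hR, mul_assoc]
      exact mul_le_mul_of_nonneg_left (le_mul_of_one_le_right hS.le hR1) hη0.le

include hp he hb hg hO in
/-- The Newton bounds at the singular point. -/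
theorem node_coef {Z : Fin n → ℝ} (hZ : ((0:ℝ), Z) ∈ Par p e b) :
    ∃ ε C : ℝ, 0 < ε ∧ 0 ≤ C ∧ ∀ W ∈ Metric.closedBall Z ε,
      0 < grad (tangentForm p b) W ⬝ᵥ e ∧
      eval W (qp p b 1) ≤ C * |eval W (qp p b 0)| ∧
      ∀ j, |eval W (qp p b j)| ≤ C * (|eval W (qp p b 0)| + |eval W (qp p b 1)|) := by
  obtain ⟨-, -, -, hge⟩ := Par_limit hp he hb hg hO hZ
  obtain ⟨hbK, -⟩ := (mem_frontier_hypCone hp he).mp hb.1
  have hm : 1 ≤ mult p b := le_trans one_le_two (two_le_mult hp he hb.1 hg)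
  obtain ⟨ε, hε, hpos⟩ : ∃ ε > (0:ℝ), ∀ W ∈ Metric.closedBall Z ε,
      0 < grad (tangentForm p b) W ⬝ᵥ e := by
    obtain ⟨ε, hε, h⟩ := Metric.nhds_basis_closedBall.mem_iff.mp
      ((continuous_grad_dot _ e).continuousAt.eventually (lt_mem_nhds hge))
    exact ⟨ε, hε, h⟩
  obtain ⟨C, hC, hcf⟩ := coef_family hp he (isCompact_closedBall Z ε) (x := fun _ => b) (v := id)
    continuous_const continuous_id (fun _ _ => hbK) (mult p b - 1)
    (fun W _ => by rw [lineR_coeff_hom, homComp_lt (by omega), map_zero])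
    (fun W hW => by rw [gcoef_mult hm]; exact hpos W hW)
  have hco : ∀ W j, (lineR p b W).coeff (mult p b - 1 + (j + 1)) = eval W (qp p b j) := fun W j => by
    rw [lineR_coeff_hom, qp, show mult p b - 1 + (j + 1) = mult p b + j by omega]
  refine ⟨ε, C, hε, hC, fun W hW => ?_⟩
  obtain ⟨h1, h2⟩ := hcf W hW
  have e0 : (lineR p b W).coeff (mult p b - 1 + 1) = eval W (qp p b 0) := hco W 0
  have e1 : (lineR p b W).coeff (mult p b - 1 + 2) = eval W (qp p b 1) := hco W 1
  simp only [id, e0, e1] at h1 h2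
  refine ⟨hpos W hW, h1, fun j => ?_⟩
  have := h2 (j + 1) (by omega)
  rwa [hco] at this

omit hp he hb hg hO in
/-- The elementary estimate along the boundary. -/
theorem boundary_ineq {N : ℕ} (hN : 2 ≤ N) {C s : ℝ} (hC : 0 ≤ C) (hs0 : 0 ≤ s) (hs1 : s ≤ 1)
    (hs : s * (N * N * (C + 1)) < 1 / (4 * (C + 2))) (a : ℕ → ℝ) (h0 : 0 ≤ a 0)
    (h1 : a 1 ≤ C * a 0) (h2 : ∀ j, |a j| ≤ C * (a 0 + |a 1|))
    (hB : ∑ j ∈ Finset.range N, s ^ j * a j = 0) :
    (∑ j ∈ Finset.range N, (j:ℝ) * s ^ (j - 1) * a j) ≤ 0 ∧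
      a 0 + |a 1| ≤ 4 * -∑ j ∈ Finset.range N, (j:ℝ) * s ^ (j - 1) * a j := by
  set A := a 0 + |a 1| with hAdef
  have hA : 0 ≤ A := by positivity
  set δ := s * (N * N * (C + 1)) with hδdef
  have hδ : 0 ≤ δ := by positivity
  have hpow : ∀ k : ℕ, 1 ≤ k → s ^ k ≤ s := fun k hk => by
    simpa using pow_le_pow_of_le_one hs0 hs1 hk
  have hsum : ∀ (T : Finset ℕ) (c : ℕ → ℝ), (∀ j ∈ T, |c j| ≤ N * s * (C * A)) → T.card ≤ N →
      |∑ j ∈ T, c j| ≤ δ * A := fun T c hc hT => by
    refine (Finset.abs_sum_le_sum_abs _ _).trans ((Finset.sum_le_sum hc).trans ?_)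
    rw [Finset.sum_const, nsmul_eq_mul]
    have : (T.card : ℝ) ≤ N := Nat.cast_le.mpr hT
    calc (T.card : ℝ) * (N * s * (C * A)) ≤ N * (N * s * (C * A)) :=
          mul_le_mul_of_nonneg_right this (by positivity)
      _ ≤ δ * A := by
          rw [hδdef]
          nlinarith [mul_nonneg (mul_nonneg hs0 hA) (mul_self_nonneg (N:ℝ))]
  have e0 : a 0 ≤ δ * A := by
    rw [Finset.range_eq_Ico, Finset.sum_eq_sum_Ico_succ_bot (by omega : 0 < N), pow_zero,
      one_mul] at hB
    have h3 := hsum (Finset.Ico 1 N) (fun j => s ^ j * a j) (fun j hj => by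
      rw [abs_mul, abs_of_nonneg (pow_nonneg hs0 j)]
      refine mul_le_mul ?_ (h2 j) (abs_nonneg _) (by positivity)
      exact (hpow j (Finset.mem_Ico.mp hj).1).trans
        (le_mul_of_one_le_left hs0 (Nat.one_le_cast.mpr (by omega)))) (by simp)
    linarith [(abs_le.mp h3).1]
  set β := ∑ j ∈ Finset.range N, (j:ℝ) * s ^ (j - 1) * a j with hβdef
  have e1 : |β - a 1| ≤ δ * A := by
    rw [hβdef, Finset.range_eq_Ico, Finset.sum_eq_sum_Ico_succ_bot (by omega : 0 < N),
      Finset.sum_eq_sum_Ico_succ_bot (by omega : 0 + 1 < N)]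
    simp only [Nat.cast_zero, zero_mul, zero_add, Nat.cast_one, one_mul, Nat.sub_self, pow_zero,
      add_sub_cancel_left]
    exact hsum _ _ (fun j hj => by
      rw [abs_mul, abs_of_nonneg (by positivity)]
      refine mul_le_mul ?_ (h2 j) (abs_nonneg _) (by positivity)
      have hj' := Finset.mem_Ico.mp hj
      exact mul_le_mul (Nat.cast_le.mpr hj'.2.le) (hpow _ (by omega)) (pow_nonneg hs0 _)
        (Nat.cast_nonneg _)) (by simp)
  have hδC : δ * (4 * (C + 2)) < 1 := by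
    rw [← lt_div_iff₀ (by positivity)]; exact hs
  have hδC' : δ * C ≤ 1 / 4 := by nlinarith
  have hδ4 : δ ≤ 1 / 4 := by nlinarith
  have ea : a 0 ≤ 2 * δ * |a 1| := by
    nlinarith [mul_le_mul_of_nonneg_right hδ4 h0, abs_nonneg (a 1),
      mul_nonneg hδ (abs_nonneg (a 1))]
  have ha1 : a 1 ≤ 0 := by
    by_contra hn
    rw [abs_of_pos (not_le.mp hn)] at ea
    nlinarith [mul_le_mul_of_nonneg_left ea hC,
      mul_le_mul_of_nonneg_right hδC' (not_le.mp hn).le]
  have hA1 : A ≤ 2 * |a 1| := by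
    nlinarith [mul_le_mul_of_nonneg_right hδ4 (abs_nonneg (a 1)), abs_nonneg (a 1)]
  have eb : A ≤ 4 * -β := by
    rw [abs_of_nonpos ha1] at hA1
    nlinarith [(abs_le.mp e1).2, mul_le_mul_of_nonneg_right hδ4 hA]
  exact ⟨by linarith, eb⟩

omit hp he hb hg hO in
/-- Tangential derivatives of the components are of the order of a square root. -/
theorem node_tan {Z : Fin n → ℝ} {ε C : ℝ} (hε : 0 < ε) (hC : 0 ≤ C)
    (h : ∀ W ∈ Metric.closedBall Z ε, 0 < grad (tangentForm p b) W ⬝ᵥ e ∧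
      eval W (qp p b 1) ≤ C * |eval W (qp p b 0)| ∧
      ∀ j, |eval W (qp p b j)| ≤ C * (|eval W (qp p b 0)| + |eval W (qp p b 1)|)) :
    ∃ Ct, 0 ≤ Ct ∧ ∀ Y ∈ Metric.closedBall Z (ε / 2), 0 ≤ eval Y (tangentForm p b) →
      ∀ j, j < len p b → ∀ i,
        |grad (qp p b j) Y ⬝ᵥ proj (grad (tangentForm p b) Y) e (Pi.single i 1)| ≤
          Ct * √(eval Y (tangentForm p b) + |eval Y (qp p b 1)|) := by
  obtain ⟨C', hC'def⟩ : ∃ C', C' = C * (C + 1) := ⟨_, rfl⟩
  have hC' : 0 ≤ C' := by rw [hC'def]; positivity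
  obtain ⟨F, hFdef⟩ : ∃ F : ℝ → ℕ → MvPolynomial (Fin n) ℝ, F = fun σ j =>
      MvPolynomial.C C' * (MvPolynomial.C (C + 1) * qp p b 0 - qp p b 1) +
        MvPolynomial.C σ * qp p b j := ⟨_, rfl⟩
  have hFv : ∀ σ j W, eval W (F σ j) = C' * ((C + 1) * eval W (tangentForm p b) -
      eval W (qp p b 1)) + σ * eval W (qp p b j) := fun σ j W => by
    simp only [hFdef, map_add, map_sub, map_mul, eval_C, qp_zero]
  have hF : ∀ σ, |σ| = 1 → ∀ j, ∀ W ∈ Metric.closedBall Z ε, 0 ≤ eval W (tangentForm p b) →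
      0 ≤ eval W (F σ j) ∧ eval W (F σ j) ≤
        (C' * (C + 2) + C) * (eval W (tangentForm p b) + |eval W (qp p b 1)|) := by
    intro σ hσ j W hW h0
    obtain ⟨-, h1, h2⟩ := h W hW
    rw [qp_zero, abs_of_nonneg h0] at h1 h2
    rw [hFv]
    generalize eval W (tangentForm p b) = a0 at h0 h1 h2 ⊢
    have h2' := h2 j
    generalize eval W (qp p b j) = c at h2' ⊢
    generalize eval W (qp p b 1) = a1 at h1 h2' ⊢
    have h3 : |a1| ≤ (C * a0 - a1) + C * a0 := by
      rw [abs_le]; constructor <;> nlinarith [mul_nonneg hC h0]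
    have h4 : a0 + |a1| ≤ (C + 1) * ((C + 1) * a0 - a1) := by
      nlinarith [mul_nonneg hC (sub_nonneg.mpr h1), mul_nonneg hC h0]
    have h5 : |σ * c| ≤ C * (a0 + |a1|) := by rw [abs_mul, hσ, one_mul]; exact h2'
    have h6 : C * (a0 + |a1|) ≤ C' * ((C + 1) * a0 - a1) :=
      (mul_le_mul_of_nonneg_left h4 hC).trans_eq (by rw [hC'def]; ring)
    have h7 : (C + 1) * a0 - a1 ≤ (C + 2) * (a0 + |a1|) := by
      nlinarith [abs_nonneg a1, neg_abs_le a1, mul_nonneg hC (abs_nonneg a1)]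
    constructor
    · linarith [(abs_le.mp h5).1]
    · nlinarith [(abs_le.mp h5).2, mul_le_mul_of_nonneg_left h7 hC']
  choose Cp hCp hp' using fun j => tangential_bound (e := e) (tangentForm p b) (F 1 j) hε
    (fun W hW => (h W hW).1) (fun W hW h0 => (hF 1 abs_one j W hW h0).1)
  choose Cn hCn hn' using fun j => tangential_bound (e := e) (tangentForm p b) (F (-1) j) hε
    (fun W hW => (h W hW).1) (fun W hW h0 => (hF (-1) (by simp) j W hW h0).1)
  set Cd := ∑ j ∈ Finset.range (len p b), (Cp j + Cn j) with hCd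
  have hCd0 : 0 ≤ Cd := Finset.sum_nonneg fun j _ => add_nonneg (hCp j) (hCn j)
  refine ⟨Cd * √(C' * (C + 2) + C), by positivity, fun Y hY h0 j hj i => ?_⟩
  have hY' : Y ∈ Metric.closedBall Z ε := Metric.closedBall_subset_closedBall (by linarith) hY
  set A := eval Y (tangentForm p b) + |eval Y (qp p b 1)|
  set w := proj (grad (tangentForm p b) Y) e (Pi.single i 1)
  have hsq : ∀ σ, |σ| = 1 → √(eval Y (F σ j)) ≤ √(C' * (C + 2) + C) * √A := fun σ hσ => by
    exact (Real.sqrt_le_sqrt (hF σ hσ j Y hY' h0).2).trans_eq (Real.sqrt_mul (by positivity) _)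
  have h3 := (hp' j Y hY h0 i).trans (mul_le_mul_of_nonneg_left (hsq 1 abs_one) (hCp j))
  have h4 := (hn' j Y hY h0 i).trans (mul_le_mul_of_nonneg_left (hsq (-1) (by simp)) (hCn j))
  have e2 : grad (F 1 j) Y ⬝ᵥ w - grad (F (-1) j) Y ⬝ᵥ w = 2 * (grad (qp p b j) Y ⬝ᵥ w) := by
    simp only [hFdef, grad, dotProduct, map_add, map_sub, pderiv_C_mul, map_mul, eval_C,
      Finset.mul_sum, ← Finset.sum_sub_distrib]
    exact Finset.sum_congr rfl fun k _ => by ring
  have hjs : Cp j + Cn j ≤ Cd := Finset.single_le_sum (f := fun j => Cp j + Cn j)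
    (fun k _ => add_nonneg (hCp k) (hCn k)) (Finset.mem_range.mpr hj)
  have h5 : 0 ≤ √(C' * (C + 2) + C) * √A := mul_nonneg (Real.sqrt_nonneg _) (Real.sqrt_nonneg _)
  have h6 := mul_le_mul_of_nonneg_right hjs h5
  have h7 := abs_sub (grad (F 1 j) Y ⬝ᵥ w) (grad (F (-1) j) Y ⬝ᵥ w)
  rw [e2, abs_mul, abs_two] at h7
  nlinarith

include hp he hb hg hO in
/-- Along the boundary the coefficients are dominated by the radial derivative. -/
theorem node_bounds {Z : Fin n → ℝ} (hZ : ((0:ℝ), Z) ∈ Par p e b) :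
    ∃ C, 0 ≤ C ∧ ∀ᶠ y in 𝓝[Par p e b] ((0:ℝ), Z), brad p b y.1 y.2 ≤ 0 ∧
      ∀ j, 1 ≤ j → j < len p b → |eval y.2 (qp p b j)| ≤ C * -brad p b y.1 y.2 ∧
        ∀ i, |grad (qp p b j) y.2 ⬝ᵥ proj (bgrad p b y.1 y.2) e (Pi.single i 1)| ≤
          C * √(-brad p b y.1 y.2) := by
  obtain ⟨-, -, -, hge⟩ := Par_limit hp he hb hg hO hZ
  obtain ⟨hbK, -⟩ := (mem_frontier_hypCone hp he).mp hb.1
  have hq := tangent_hyperbolic hp he hbK
  have hqh := tangentForm_homogeneous p b
  obtain ⟨ε, C, hε, hC, hcoef⟩ := node_coef hp he hb hg hO hZ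
  obtain ⟨Ct, hCt, htan⟩ := node_tan hε hC hcoef
  choose B hB using fun j => (isCompact_closedBall Z ε).exists_bound_of_continuousOn
    (continuous_grad_dot (qp p b j) e).continuousOn (f := fun W => grad (qp p b j) W ⬝ᵥ e)
  obtain ⟨N, hN⟩ : ∃ N, N = len p b := ⟨_, rfl⟩
  obtain ⟨Be, hBedef⟩ : ∃ Be, Be = ∑ j ∈ Finset.range N, |B j| := ⟨_, rfl⟩
  have hge0 : 0 < bgrad p b (0:ℝ) Z ⬝ᵥ e := by rw [bgrad_zero]; exact hge
  obtain ⟨γ, hγ, hγlt⟩ : ∃ γ : ℝ, 0 < γ ∧ γ < bgrad p b (0:ℝ) Z ⬝ᵥ e :=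
    ⟨_, half_pos hge0, half_lt_self hge0⟩
  have hBe : 0 ≤ Be := hBedef ▸ Finset.sum_nonneg fun j _ => abs_nonneg _
  refine ⟨4 * C + 2 * Ct + (N * (2 * Ct) / γ) * Be, by positivity, ?_⟩
  have hs : ∀ᶠ y in 𝓝[Par p e b] ((0:ℝ), Z),
      y.1 * (N * N * (C + 1)) < 1 / (4 * (C + 2)) ∧ y.1 < 1 ∧
        y.2 ∈ Metric.closedBall Z (ε / 2) ∧ γ < bgrad p b y.1 y.2 ⬝ᵥ e := by
    refine nhdsWithin_le_nhds (Eventually.and ?_ (Eventually.and ?_ (Eventually.and ?_ ?_)))
    · exact ((continuous_fst.mul continuous_const).continuousAt).eventually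
        (gt_mem_nhds (by
          show (0:ℝ) * _ < _
          rw [zero_mul]
          exact div_pos one_pos (by linarith)))
    · exact continuous_fst.continuousAt.eventually (gt_mem_nhds zero_lt_one)
    · exact continuous_snd.continuousAt.eventually
        (Metric.closedBall_mem_nhds Z (half_pos hε))
    · exact (continuous_bgrad_dot p b e).continuousAt.eventually
        (lt_mem_nhds hγlt)
  filter_upwards [hs, self_mem_nhdsWithin] with y ⟨hy1, hy2, hy3, hy4⟩ hy
  obtain ⟨hy0, ⟨-, -, hYK⟩, hBy⟩ := hy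
  have hY : y.2 ∈ Metric.closedBall Z ε :=
    Metric.closedBall_subset_closedBall (by linarith) hy3
  obtain ⟨-, h1, h2⟩ := hcoef y.2 hY
  have h0 : 0 ≤ eval y.2 (tangentForm p b) := by
    rcases eq_or_ne (eval y.2 (tangentForm p b)) 0 with h | h
    · exact h.ge
    · exact (lam_pos hqh hq ((mem_Lam hqh).mpr ⟨hYK, h⟩)).le
  rw [qp_zero, abs_of_nonneg h0] at h1 h2
  rw [blow_sum] at hBy
  obtain ⟨hβ0, eb⟩ := boundary_ineq (N := len p b) (Nat.le_add_left 2 _) hC hy0 hy2.le (hN ▸ hy1)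
    (fun j => eval y.2 (qp p b j)) h0 h1 h2 hBy
  simp only [qp_zero, ← brad_sum] at hβ0 eb
  rw [hN] at hBedef
  have hβ : 0 ≤ -brad p b y.1 y.2 := neg_nonneg.mpr hβ0
  refine ⟨hβ0, fun j hj1 hjN => ?_⟩
  have hjN' : j < N := hN ▸ hjN
  set S := √(-brad p b y.1 y.2) with hS
  have hS0 : 0 ≤ S := Real.sqrt_nonneg _
  have hsA : √(eval y.2 (tangentForm p b) + |eval y.2 (qp p b 1)|) ≤ 2 * S := by
    refine (Real.sqrt_le_sqrt eb).trans_eq ?_
    rw [Real.sqrt_mul (by norm_num), show (4:ℝ) = 2 * 2 by norm_num,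
      Real.sqrt_mul_self (by norm_num)]
  have htan' : ∀ k, k < N → ∀ i, |grad (qp p b k) y.2 ⬝ᵥ
      proj (grad (tangentForm p b) y.2) e (Pi.single i 1)| ≤ 2 * Ct * S := fun k hk i =>
    (htan y.2 hy3 h0 k (hN ▸ hk) i).trans
      ((mul_le_mul_of_nonneg_left hsA hCt).trans_eq (by ring))
  have hP : 0 ≤ (N * (2 * Ct) / γ) * Be := by positivity
  refine ⟨(h2 j).trans ?_, fun i => ?_⟩
  · refine (mul_le_mul_of_nonneg_left eb hC).trans ?_
    rw [← mul_assoc]
    exact mul_le_mul_of_nonneg_right (by linarith) hβ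
  · set w' := proj (grad (tangentForm p b) y.2) e (Pi.single i 1) with hw'
    have hge' : bgrad p b y.1 y.2 ⬝ᵥ e ≠ 0 := (hγ.trans hy4).ne'
    have hproj : proj (bgrad p b y.1 y.2) e (Pi.single i 1)
        = w' - ((bgrad p b y.1 y.2 ⬝ᵥ w') / (bgrad p b y.1 y.2 ⬝ᵥ e)) • e := by
      simp only [hw', proj, dotProduct_sub, dotProduct_smul, smul_eq_mul, sub_div,
        mul_div_cancel_right₀ _ hge', sub_smul]
      abel
    rw [hproj, dotProduct_sub, dotProduct_smul, smul_eq_mul]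
    have hgw : |bgrad p b y.1 y.2 ⬝ᵥ w'| ≤ N * (2 * Ct * S) := by
      rw [bgrad_sum, ← hN]
      refine (Finset.abs_sum_le_sum_abs _ _).trans ((Finset.sum_le_sum fun k hk => ?_).trans
        (le_of_eq (by simp :
          (∑ _k ∈ Finset.range N, 2 * Ct * S) = N * (2 * Ct * S))))
      rw [abs_mul, abs_of_nonneg (pow_nonneg hy0 k)]
      exact (mul_le_of_le_one_left (abs_nonneg _) (pow_le_one₀ hy0 hy2.le)).trans
        (htan' k (Finset.mem_range.mp hk) i)
    have hBj : |grad (qp p b j) y.2 ⬝ᵥ e| ≤ Be := by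
      rw [← Real.norm_eq_abs]
      exact ((hB j y.2 hY).trans (le_abs_self _)).trans
        (Finset.single_le_sum (f := fun j => |B j|) (fun k _ => abs_nonneg _)
          (Finset.mem_range.mpr hjN)) |>.trans hBedef.ge
    refine (abs_sub _ _).trans ?_
    rw [abs_mul, abs_div, abs_of_pos (hγ.trans hy4)]
    have h8 := div_le_div₀ (mul_nonneg (Nat.cast_nonneg N)
      (mul_nonneg (mul_nonneg zero_le_two hCt) hS0)) hgw hγ hy4.le
    have h9 := mul_le_mul h8 hBj (abs_nonneg _) (div_nonneg (mul_nonneg (Nat.cast_nonneg N)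
      (mul_nonneg (mul_nonneg zero_le_two hCt) hS0)) hγ.le)
    have h10 := htan' j hjN' i
    have h11 : N * (2 * Ct * S) / γ * Be = N * (2 * Ct) / γ * Be * S := by ring
    have h12 := mul_nonneg (mul_nonneg (by norm_num : (0:ℝ) ≤ 4) hC) hS0
    rw [add_mul, add_mul]
    linarith

end Vale.Agent.P256
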