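import Vale.Agent.P256.Flat.Piece

/-!
The global factorisation and the lift, without any convexity hypothesis.
-/

namespace Vale.Agent.P256

open MvPolynomial Filter Topology Matrix
open scoped MatrixOrder

attribute [local irreducible] blow qp tangentForm tay

variable {n d : ℕ} {p : MvPolynomial (Fin n) ℝ} {e : Fin n → ℝ}

/-- The boundary part of a piece. -/
def bd (p : MvPolynomial (Fin n) ℝ) (e a : Fin n → ℝ) (r : ℝ) : Set (Fin n → ℝ) :=
  {x ∈ Sset p e a | (x - a) ⬝ᵥ (x - a) ≤ r ^ 2}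

theorem bd_of_nhds {a : Fin n → ℝ} {U : Set (Fin n → ℝ)} (hU : U ∈ 𝓝[Sset p e a] a) :
    ∃ δ > (0:ℝ), ∀ r, 0 ≤ r → r ≤ δ → bd p e a r ⊆ U := by
  obtain ⟨δ, hδ, h⟩ :=
    (mem_nhdsWithin_iff_exists_mem_nhds_inter.mp hU)
  obtain ⟨ε, hε, hε'⟩ := Metric.nhds_basis_closedBall.mem_iff.mp hδ
  refine ⟨ε, hε, fun r hr hre x hx => h ⟨hε' ?_, hx.1⟩⟩
  rw [Metric.mem_closedBall, dist_eq_norm]
  exact (norm_le_of_dist2 hr hx.2).trans hre

variable (hp : p.IsHomogeneous d) (he : Hyperbolic p e)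

include hp he in
/-- The factorisation on one piece, from the factorisation of its own supporting functionals. -/
theorem piece_fac {a : Fin n → ℝ} (ha : a ∈ Fset p e) {r : ℝ} (hr : 0 < r)
    (hO : Ordinary p e a) (hiso : ∀ x ∈ bd p e a r, grad p x = 0 → x = a)
    (hfac : FacOn (bd p e a r) {x ∈ bd p e a r | grad p x ≠ 0} (slack p e))
    (hnode : grad p a = 0 → FacOn (bd p e a r) {y ∈ Par p e a | y.1 = 0} (Sn p e a)) :
    FacOn (bd p e a r) (Wset p e) (slack p e) := by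
  classical
  have ha0 := fset_ne ha
  obtain ⟨haK, hap⟩ := (mem_frontier_hypCone hp he).mp ha.1
  have hPne : (piece p e a r).Nonempty :=
    ⟨a, rfl, haK, by rw [sub_self, zero_dotProduct]; positivity⟩
  choose x₀ hx₀ hmin using fun y => (isCompact_piece hp he a hr.le).exists_isMinOn hPne
    (continuous_dot (nu p e y)).continuousOn
  have hnn : ∀ y ∈ Wset p e, ∀ x ∈ hypCone p e, 0 ≤ slack p e x y := fun y hy x hx => by
    obtain ⟨hyK, hy0⟩ := (mem_frontier_hypCone hp he).mp hy.1.1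
    rw [slack, nu, smul_dotProduct, smul_eq_mul]
    exact mul_nonneg (inv_nonneg.mpr (smooth_facts hp he hyK hy0 hy.2).1.le)
      (support_nonneg hp he hyK hy0 hy.2 hx)
  have hbdry : ∀ y, eval (x₀ y) p = 0 → x₀ y ∈ bd p e a r := fun y h =>
    ⟨⟨(hx₀ y).1, (hx₀ y).2.1, h⟩, (hx₀ y).2.2⟩
  -- centres with a multiplier rule
  set W₁ := {y ∈ Wset p e | eval (x₀ y) p = 0 → grad p (x₀ y) ≠ 0} with hW₁
  set W₂ := {y ∈ Wset p e | eval (x₀ y) p = 0 ∧ grad p (x₀ y) = 0} with hW₂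
  have hex : ∀ y, ∃ α μ : ℝ, y ∈ W₁ → 0 ≤ α ∧ 0 ≤ μ ∧ (eval (x₀ y) p ≠ 0 → α = 0) ∧
      ∀ x, a ⬝ᵥ x = a ⬝ᵥ a → slack p e x y = slack p e (x₀ y) y + α * slack p e x (x₀ y) +
        μ * ((r ^ 2 - (x - a) ⬝ᵥ (x - a)) + (x - x₀ y) ⬝ᵥ (x - x₀ y)) := fun y => by
    by_cases hy : y ∈ W₁
    · obtain ⟨α, μ, h⟩ := piece_kkt hp he ha hr (nu p e y) (hx₀ y) (fun x hx => hmin y hx) hy.2
      exact ⟨α, μ, fun _ => h⟩
    · exact ⟨0, 0, fun h => absurd h hy⟩
  choose α μ hαμ using hex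
  have h₁ : FacOn (bd p e a r) W₁ (slack p e) := by
    have hA : FacOn (bd p e a r) {y ∈ W₁ | eval (x₀ y) p = 0}
        fun x y => α y * slack p e x (x₀ y) :=
      (((hfac.comp id x₀ (fun x hx => hx) fun y hy => ⟨hbdry y hy.2, hy.1.2 hy.2⟩)).mul
        (fun _ => 1) α (fun _ _ => zero_le_one) fun y hy => (hαμ y hy.1).1).congr
        fun x _ y _ => by rw [one_mul]; rfl
    have hA' : FacOn (bd p e a r) W₁ fun x y => α y * slack p e x (x₀ y) := by
      refine (hA.union_right (W' := {y ∈ W₁ | eval (x₀ y) p ≠ 0}) (FacOn.zero.congr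
        fun x _ y hy => by rw [(hαμ y hy.1).2.2.1 hy.2, zero_mul])).mono le_rfl fun y hy => ?_
      by_cases h : eval (x₀ y) p = 0
      · exact Or.inl ⟨hy, h⟩
      · exact Or.inr ⟨hy, h⟩
    have hB : FacOn (bd p e a r) W₁
        fun x y => μ y * (r ^ 2 - (x - a) ⬝ᵥ (x - a)) :=
      ((FacOn.fst (fun x => r ^ 2 - (x - a) ⬝ᵥ (x - a)) fun x (hx : x ∈ bd p e a r) =>
        sub_nonneg.mpr hx.2).mul (fun _ => 1) μ (fun _ _ => zero_le_one)
        fun y hy => (hαμ y hy).2.1).congr fun x _ y _ => by ring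
    have hC : FacOn (bd p e a r) W₁
        fun x y => μ y * ((x - x₀ y) ⬝ᵥ (x - x₀ y)) :=
      ((FacOn.sum Finset.univ (fun i x y => (x i - x₀ y i) ^ 2) fun i _ =>
        FacOn.sq (((Sep.left fun x : Fin n → ℝ => x i).add
          (Sep.right fun y => -x₀ y i)).congr fun x y => by ring)).mul (fun _ => 1) μ
        (fun _ _ => zero_le_one) fun y hy => (hαμ y hy).2.1).congr fun x _ y _ => by
          simp only [one_mul, dotProduct, Pi.sub_apply, sq]
    refine (((FacOn.snd (fun y => slack p e (x₀ y) y) fun y hy =>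
      hnn y hy.1 _ (hx₀ y).2.1).add hA').add (hB.add hC)).congr fun x hx y hy => ?_
    rw [(hαμ y hy).2.2.2 x hx.1.1]
    ring
  -- the singular centre
  have h₂ : FacOn (bd p e a r) W₂ (slack p e) := by
    by_cases hg : grad p a = 0
    swap
    · refine FacOn.empty_right.mono le_rfl fun y hy => hg ?_
      rw [← hiso _ (hbdry y hy.2.1) hy.2.2]
      exact hy.2.2
    have hex' : ∀ y, ∃ (m c : ℝ) (Z : Fin n → ℝ), y ∈ W₂ → 0 ≤ m ∧ 0 ≤ c ∧
        (c = 0 ∨ ((0:ℝ), Z) ∈ Par p e a) ∧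
        ∀ x, a ⬝ᵥ x = a ⬝ᵥ a → slack p e x y =
          slack p e a y + m * (th p e a ⬝ᵥ (x - a)) + c * Sn p e a x (0, Z) := fun y => by
      by_cases hy : y ∈ W₂
      · have hxa : x₀ y = a := hiso _ (hbdry y hy.2.1) hy.2.2
        obtain ⟨m, c, Z, h⟩ := node_kkt hp he ha hg hO hr (nu p e y) fun x hx => by
          have := hmin y hx
          simpa [hxa] using this
        exact ⟨m, c, Z, fun _ => h⟩
      · exact ⟨0, 0, 0, fun h => absurd h hy⟩
    choose m c Z hmc using hex'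
    have hA : FacOn (bd p e a r) W₂ fun x y => c y * Sn p e a x (0, Z y) := by
      refine ((((hnode hg).comp id (fun y => ((0:ℝ), Z y)) (fun x hx => hx)
        (W' := {y ∈ W₂ | ((0:ℝ), Z y) ∈ Par p e a}) fun y hy => ⟨hy.2, rfl⟩).mul (fun _ => 1) c
        (fun _ _ => zero_le_one) fun y hy => (hmc y hy.1).2.1).congr
          fun x _ y _ => by rw [one_mul]; rfl).union_right
        (W' := {y ∈ W₂ | c y = 0}) (FacOn.zero.congr fun x _ y hy => by rw [hy.2, zero_mul])
        |>.mono le_rfl fun y hy => ?_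
      rcases (hmc y hy).2.2.1 with h | h
      · exact Or.inr ⟨hy, h⟩
      · exact Or.inl ⟨hy, h⟩
    have hB : FacOn (bd p e a r) W₂ fun x y => m y * (th p e a ⬝ᵥ (x - a)) :=
      ((FacOn.fst (fun x => th p e a ⬝ᵥ (x - a)) fun x (hx : x ∈ bd p e a r) => by
        rcases eq_or_ne x a with rfl | hne
        · simp
        · exact (xpar_mem hp he ha hg hO hx.1 hne).2.1.le).mul (fun _ => 1) m
        (fun _ _ => zero_le_one) fun y hy => (hmc y hy).1).congr fun x _ y _ => by ring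
    refine (((FacOn.snd (fun y => slack p e a y) fun y hy => hnn y hy.1 _ haK).add hB).add hA).congr
      fun x hx y hy => ?_
    rw [(hmc y hy).2.2.2 x hx.1.1]
  refine (h₁.union_right h₂).mono le_rfl fun y hy => ?_
  by_cases h : eval (x₀ y) p = 0 ∧ grad p (x₀ y) = 0
  · exact Or.inr ⟨hy, h⟩
  · exact Or.inl ⟨hy, fun h0 hg => h ⟨h0, hg⟩⟩

include hp he in
theorem node_isolated {a : Fin n → ℝ} (ha : a ∈ Fset p e) (hg : grad p a = 0)
    (hO : Ordinary p e a) (δ : ℝ) (hδ : 0 < δ) :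
    ∃ ρ > (0:ℝ), ∀ x ∈ Sset p e a, x ∈ Metric.closedBall a ρ → x ≠ a →
      grad p x ≠ 0 ∧ (xpar p e a x).1 ≤ δ ∧
        ∀ z, slack p e z x = Sn p e a z (xpar p e a x) := by
  obtain ⟨δ', hδ', htr⟩ := Par_transversal hp he ha hg hO
  have hc : Continuous fun x : Fin n → ℝ => th p e a ⬝ᵥ (x - a) :=
    (continuous_dot _).comp (continuous_id.sub continuous_const)
  obtain ⟨ρ, hρ, h⟩ := Metric.nhds_basis_closedBall.mem_iff.mp
    (hc.continuousAt.eventually (gt_mem_nhds (show th p e a ⬝ᵥ (a - a) < min δ δ' by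
      rw [sub_self, dotProduct_zero]; exact lt_min hδ hδ')))
  refine ⟨ρ, hρ, fun x hx hxρ hne => ?_⟩
  obtain ⟨hP, hr, hdec⟩ := xpar_mem hp he ha hg hO hx hne
  have hle : (xpar p e a x).1 < min δ δ' := h hxρ
  obtain ⟨-, hgr, hsl⟩ := Sn_eq (e := e) hp hr hP.2.2
    (htr _ hP (hle.le.trans (min_le_right _ _)))
  rw [hdec, add_sub_cancel] at hgr hsl
  exact ⟨hgr, hle.le.trans (min_le_left _ _), hsl⟩

include hp he in
/-- Factorisation on a small piece around any boundary point. -/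
theorem piece_exists {a : Fin n → ℝ} (ha : a ∈ Fset p e) (hO : Ordinary p e a) :
    ∃ r > (0:ℝ), FacOn (bd p e a r) (Wset p e) (slack p e) := by
  have ha0 := fset_ne ha
  by_cases hg : grad p a = 0
  · obtain ⟨U, hU, V, hV, hf⟩ := node_local hp he ha hg hO
    obtain ⟨V₁, hV₁, V₂, hV₂, rfl⟩ := mem_inf_iff.mp hV
    obtain ⟨A, hA, hAV⟩ := mem_comap.mp hV₂
    obtain ⟨δ, hδ, hδA⟩ := Metric.nhds_basis_closedBall.mem_iff.mp hA
    obtain ⟨ρ, hρ, hiso⟩ := node_isolated hp he ha hg hO δ hδ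
    obtain ⟨δ₁, hδ₁, hbdU⟩ := bd_of_nhds hU
    set r := min ρ δ₁
    have hr : 0 < r := lt_min hρ hδ₁
    have hsub := hbdU r hr.le (min_le_right _ _)
    have hnear : ∀ x ∈ bd p e a r, x ∈ Metric.closedBall a ρ := fun x hx => by
      rw [Metric.mem_closedBall, dist_eq_norm]
      exact (norm_le_of_dist2 hr.le hx.2).trans (min_le_left _ _)
    have hV' : ∀ y ∈ Par p e a, y.1 ≤ δ → y ∈ V₁ ∩ V₂ := fun y hy hys =>
      ⟨mem_principal.mp hV₁ hy, hAV (hδA (by
        rw [Metric.mem_closedBall, Real.dist_eq, sub_zero, abs_of_nonneg hy.1]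
        exact hys))⟩
    refine ⟨r, hr, piece_fac hp he ha hr hO (fun x hx h0 => ?_) ?_
      fun _ => hf.mono hsub fun y hy => hV' y hy.1 (by rw [hy.2]; exact hδ.le)⟩
    · by_contra hne
      exact (hiso x hx.1 (hnear x hx) hne).1 h0
    · refine ((hf.mono hsub le_rfl).comp id (xpar p e a) (fun x hx => hx)
        (W' := {x ∈ bd p e a r | grad p x ≠ 0}) fun x hx => ?_).congr fun z _ x hx => ?_
      · have hne : x ≠ a := fun h => hx.2 (h ▸ hg)
        exact hV' _ (xpar_mem hp he ha hg hO hx.1.1 hne).1 (hiso x hx.1.1 (hnear x hx.1) hne).2.1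
      · have hne : x ≠ a := fun h => hx.2 (h ▸ hg)
        exact ((hiso x hx.1.1 (hnear x hx.1) hne).2.2 z).symm
  · obtain ⟨U, hU, V, hV, hf⟩ := smooth_local hp he ha0 ha.1 hg
    have hG : {x | grad p x ≠ 0} ∈ 𝓝[Sset p e a] a := mem_nhdsWithin_of_mem_nhds
      ((continuous_grad p).continuousAt.eventually_ne hg)
    obtain ⟨δ, hδ, hsub⟩ := bd_of_nhds (inter_mem (inter_mem hU hV) hG)
    have hs := hsub δ hδ.le le_rfl
    refine ⟨δ, hδ, piece_fac hp he ha hδ hO (fun x hx h0 => absurd h0 (hs hx).2)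
      (hf.mono (fun x hx => (hs hx).1.1) fun x hx => (hs hx.1).1.2) fun h => absurd h hg⟩

variable (hOrd : ∀ b ∈ frontier (hypCone p e), b ≠ 0 → Ordinary p e b)

include hp he hOrd in
/-- The global factorisation. -/
theorem global_fac_flat : FacOn (Fset p e) (Wset p e) (slack p e) := by
  obtain ⟨U, hU, V, hV, hf⟩ := glue_left (Fx := 𝓟 (Fset p e)) (Fy := 𝓟 (Wset p e))
    (S := slack p e) (isCompact_Fset (p := p) (e := e)) id
    (eventually_principal.mpr fun x hx => hx) fun a ha => by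
      rw [Filter.comap_id, inf_comm]
      have ha0 := fset_ne ha
      obtain ⟨r, hr, hfr⟩ := piece_exists hp he ha (hOrd a ha.1 ha0)
      have hev : ∀ᶠ x in 𝓝[Fset p e] a, x ∈ Fset p e ∧ 0 < lam a x ∧
          (chart a x - a) ⬝ᵥ (chart a x - a) < r ^ 2 := by
        refine Eventually.and self_mem_nhdsWithin (nhdsWithin_le_nhds
          ((lam_pos_eventually ha0).and ?_))
        exact (((continuous_dist2 a).tendsto a).comp (chart_tendsto ha0)).eventually
          (gt_mem_nhds (by rw [sub_self, zero_dotProduct]; positivity))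
      refine ⟨_, hev, Wset p e, mem_principal_self _,
        (((hfr.comp (chart a) id (fun x hx => ?_) fun y hy => hy).mul (fun x => lam a x)
          (fun _ => 1) (fun x hx => hx.2.1.le) fun _ _ => zero_le_one)).congr
          fun x hx y hy => ?_⟩
      · obtain ⟨hxF, hl, hd⟩ := hx
        obtain ⟨h1, h2⟩ := (mem_frontier_hypCone hp he).mp (frontier_chart (b := a) hp he hxF.1 hl)
        exact ⟨⟨chart_dot ha0 hl.ne', h1, h2⟩, hd.le⟩
      · have hl : lam a x ≠ 0 := hx.2.1.ne'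
        rw [mul_one]
        show lam a x * slack p e (chart a x) y = _
        simp only [slack, chart, dotProduct_smul, smul_eq_mul]
        rw [← mul_assoc, mul_inv_cancel₀ hl, one_mul]
  exact hf.mono (mem_principal.mp hU) (mem_principal.mp hV)

include hp he hOrd in
theorem singular_finite_flat : {x ∈ Fset p e | grad p x = 0}.Finite := by
  have hcpt : IsCompact {x ∈ Fset p e | grad p x = 0} := isCompact_Fset.inter_right
    (isClosed_eq (continuous_grad p) continuous_const)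
  have hiso : ∀ b ∈ {x ∈ Fset p e | grad p x = 0},
      ∀ᶠ x in 𝓝 b, x ∈ Fset p e → grad p x = 0 → x = b := by
    rintro b ⟨hb, hg⟩
    have hb0 := fset_ne hb
    obtain ⟨ρ, hρ, hiso⟩ := node_isolated hp he hb hg (hOrd b hb.1 hb0) 1 one_pos
    filter_upwards [lam_pos_eventually hb0,
      chart_tendsto hb0 (Metric.closedBall_mem_nhds b hρ)] with x hl hxρ hxF hx0
    replace hl : 0 < lam b x := hl
    obtain ⟨h1, h2⟩ := (mem_frontier_hypCone hp he).mp (frontier_chart (b := b) hp he hxF.1 hl)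
    by_contra hne
    have hcne : chart b x ≠ b := fun h => hne (by
      have hxb : x = lam b x • b := by
        have h' := congrArg (fun v => lam b x • v) h
        simpa [chart, smul_smul, hl.ne'] using h'
      have hn := congrArg norm hxb
      rw [hxF.2, norm_smul, hb.2, mul_one, Real.norm_eq_abs, abs_of_pos hl] at hn
      rw [hxb, ← hn, one_smul])
    refine (hiso (chart b x) ⟨chart_dot hb0 hl.ne', h1, h2⟩ hxρ hcne).1 (funext fun j => ?_)
    have h := grad_smul hp x (Pi.single j 1) (lam b x)⁻¹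
    rw [hx0, zero_dotProduct, mul_zero, mul_eq_zero, or_iff_right (inv_ne_zero hl.ne'),
      dotProduct_single, mul_one] at h
    exact h
  choose! N hN using fun b hb => (hiso b hb).exists_mem
  obtain ⟨t, ht, hcov⟩ := hcpt.elim_nhds_subcover N fun b hb => (hN b hb).1
  refine t.finite_toSet.subset fun x hx => ?_
  obtain ⟨b, hbt, hxN⟩ := Set.mem_iUnion₂.mp (hcov hx)
  rw [(hN b (ht b hbt)).2 x hxN hx.1 hx.2]
  exact hbt

include hp he hOrd in
theorem separate_flat (hn : 3 ≤ n) {x : Fin n → ℝ} (hx : x ∉ hypCone p e) :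
    ∃ y ∈ Wset p e, slack p e x y < 0 := by
  classical
  set s := insert (0 : Fin n → ℝ) (singular_finite_flat hp he hOrd).toFinset
  obtain ⟨a, ha, hav⟩ := exists_Lam_avoid hp he
    (t := s.image fun q => Submodule.span ℝ ({x, q} : Set (Fin n → ℝ))) fun M hM => by
      obtain ⟨q, -, rfl⟩ := Finset.mem_image.mp hM
      exact span_pair_ne_top hn x q
  let g : ℝ → Fin n → ℝ := fun t => (1 - t) • a + t • x
  have hgc : Continuous g := by fun_prop
  let T : Set ℝ := Set.Icc 0 1 ∩ g ⁻¹' hypCone p e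
  have hT : IsCompact T :=
    isCompact_Icc.inter_right ((isClosed_hypCone hp he).preimage hgc)
  obtain ⟨t₀, ht₀, hmax⟩ := hT.exists_isGreatest ⟨0, by simp, by simpa [g] using Lam_sub hp ha⟩
  obtain ⟨ht01, htK⟩ := ht₀
  have hlt : t₀ < 1 := lt_of_le_of_ne ht01.2 fun h => hx (by simpa [g, h] using htK)
  have h0 : eval (g t₀) p = 0 := by
    by_contra hne
    have hmem : g t₀ ∈ Lam p e := (mem_Lam hp).mpr ⟨htK, hne⟩
    have hev : ∀ᶠ t in 𝓝[>] t₀, t ∈ Set.Ioo t₀ 1 := Ioo_mem_nhdsGT hlt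
    obtain ⟨t, ⟨ht, ht'⟩⟩ := (hev.and
      (nhdsWithin_le_nhds
        (hgc.continuousAt.eventually ((isOpen_Lam hp he).mem_nhds hmem)))).exists
    exact absurd (hmax ⟨⟨by linarith [ht01.1, ht.1], ht.2.le⟩, Lam_sub hp ht'⟩)
      (not_le.mpr ht.1)
  set y := g t₀ with hy
  have hyF : y ∈ frontier (hypCone p e) := (mem_frontier_hypCone hp he).mpr ⟨htK, h0⟩
  have hspan : ∀ q ∈ s, ∀ c : ℝ, y ≠ c • q := by
    intro q hq c hc
    refine hav _ (Finset.mem_image.mpr ⟨q, hq, rfl⟩) ?_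
    have h1 : a = (1 - t₀)⁻¹ • (c • q - t₀ • x) := by
      rw [← hc, hy]
      simp only [g, add_sub_cancel_right, smul_smul]
      rw [inv_mul_cancel₀ (by linarith), one_smul]
    rw [h1]
    exact Submodule.smul_mem _ _ (Submodule.sub_mem _
      (Submodule.smul_mem _ _ (Submodule.subset_span (by simp)))
      (Submodule.smul_mem _ _ (Submodule.subset_span (by simp))))
  have hy0 : y ≠ 0 := fun h => hspan 0 (Finset.mem_insert_self _ _) 0 (by simpa using h)
  have hny : 0 < ‖y‖ := norm_pos_iff.mpr hy0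
  set w := ‖y‖⁻¹ • y
  have hwF : w ∈ Fset p e :=
    ⟨frontier_smul hp he hyF (inv_pos.mpr hny), by
      rw [norm_smul, norm_inv, norm_norm, inv_mul_cancel₀ hny.ne']⟩
  have hgw : grad p w ≠ 0 := fun h => hspan w
    (Finset.mem_insert_of_mem ((Set.Finite.mem_toFinset _).mpr ⟨hwF, h⟩)) ‖y‖ (by
      rw [smul_smul, mul_inv_cancel₀ hny.ne', one_smul])
  refine ⟨w, ⟨hwF, hgw⟩, ?_⟩
  obtain ⟨hwK, hw0⟩ := (mem_frontier_hypCone hp he).mp hwF.1
  have hga := support_pos hp he hwK hw0 hgw ha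
  have hge := (smooth_facts hp he hwK hw0 hgw).1
  have hgy : grad p w ⬝ᵥ y = 0 := by
    have := grad_self hp hw0
    rw [dotProduct_smul, smul_eq_mul, mul_eq_zero, or_iff_right (inv_ne_zero hny.ne')] at this
    exact this
  have hlin : (1 - t₀) * (grad p w ⬝ᵥ a) + t₀ * (grad p w ⬝ᵥ x) = 0 := by
    rw [← hgy, hy]
    simp only [g, dotProduct_add, dotProduct_smul, smul_eq_mul]
  have hneg : grad p w ⬝ᵥ x < 0 := by
    nlinarith [ht01.1, mul_pos (sub_pos.mpr hlt) hga]
  simp only [slack, nu, smul_dotProduct, smul_eq_mul]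
  exact mul_neg_of_pos_of_neg (inv_pos.mpr hge) hneg

include hp he in
/-- Every point of the cone is a boundary point plus a multiple of `e`. -/
theorem mem_ray_e (hd : 1 ≤ d) {x : Fin n → ℝ} (hx : x ∈ hypCone p e) :
    x = 0 ∨ (∃ c : ℝ, 0 ≤ c ∧ x = c • e) ∨ ∃ (c₁ c : ℝ) (x₁ : Fin n → ℝ),
      0 ≤ c₁ ∧ 0 ≤ c ∧ x₁ ∈ Fset p e ∧ x = c₁ • x₁ + c • e := by
  obtain ⟨t, ht⟩ := exists_frontier_on_line hp he hd x
  obtain ⟨htK, ht0⟩ := (mem_frontier_hypCone hp he).mp ht
  have htle : t ≤ 0 := by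
    by_contra hpos
    exact ((mem_Lam hp).mp (cone_add_eps (e := e) hp hx (not_le.mp hpos))).2 ht0
  rcases eq_or_ne (x + t • e) 0 with h | h
  · refine Or.inr (Or.inl ⟨-t, by linarith, ?_⟩)
    rw [neg_smul]
    exact eq_neg_of_add_eq_zero_left h
  · refine Or.inr (Or.inr ⟨‖x + t • e‖, -t, ‖x + t • e‖⁻¹ • (x + t • e), norm_nonneg _,
      by linarith, ⟨frontier_smul hp he ht (inv_pos.mpr (norm_pos_iff.mpr h)),
        norm_smul_inv_norm h⟩, ?_⟩)
    rw [smul_smul, mul_inv_cancel₀ (norm_ne_zero_iff.mpr h), one_smul, neg_smul,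
      add_neg_cancel_right]

include hp he hOrd in
theorem shadow_flat (hn : 3 ≤ n) : IsShadow (hypCone p e) := by
  classical
  rcases Nat.eq_zero_or_pos d with hd0 | hd
  · subst hd0
    have huniv : hypCone p e = Set.univ := Set.eq_univ_of_forall fun x t ht => by
      have h0 := eval_smul hp 0 (t • e - x)
      have h1 := eval_smul hp 0 e
      rw [zero_smul, pow_zero, one_mul] at h0 h1
      rw [← h0, h1] at ht
      exact absurd ht he.1.ne'
    refine ⟨0, 0, 0, (fun _ => 0), (fun _ => 0), Matrix.isSymm_zero, fun _ => Matrix.isSymm_zero,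
      fun _ => Matrix.isSymm_zero, ?_⟩
    rw [huniv]
    refine (Set.eq_univ_of_forall fun x => ?_).symm
    show ∃ u : Fin 0 → ℝ, _
    refine ⟨0, ?_⟩
    simp [PosSemidef.zero]
  have he' : FacOn ({e} : Set (Fin n → ℝ)) (Wset p e) (slack p e) :=
    (FacOn.snd (fun _ => (1:ℝ)) fun _ _ => zero_le_one).congr fun x hx y hy => by
      obtain ⟨hyK, hy0⟩ := (mem_frontier_hypCone hp he).mp hy.1.1
      rw [Set.mem_singleton_iff.mp hx, slack, nu, smul_dotProduct, smul_eq_mul,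
        inv_mul_cancel₀ (smooth_facts hp he hyK hy0 hy.2).1.ne']
  obtain ⟨T, hT, heq⟩ := he'.union_left (global_fac_flat hp he hOrd)
  obtain ⟨ι, _, A, B, hA, hB, hAB⟩ := hT.psd
  let pair : Matrix ι ι ℝ → Matrix ι ι ℝ → ℝ := fun W M => ∑ i, ∑ j, W i j * M i j
  let L : Submodule ℝ ((Fin n → ℝ) × Matrix ι ι ℝ) :=
    { carrier := {q | q.2.IsSymm ∧ ∀ y ∈ Wset p e, pair q.2 (B y) = slack p e q.1 y}
      add_mem' := by
        rintro q r ⟨hq1, hq2⟩ ⟨hr1, hr2⟩
        refine ⟨hq1.add hr1, fun y hy => ?_⟩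
        simp only [pair, slack, Prod.fst_add, Prod.snd_add, Matrix.add_apply, add_mul,
          Finset.sum_add_distrib, dotProduct_add] at hq2 hr2 ⊢
        rw [hq2 y hy, hr2 y hy]
      zero_mem' := ⟨Matrix.isSymm_zero, fun y _ => by simp [pair, slack]⟩
      smul_mem' := by
        rintro c q ⟨hq1, hq2⟩
        refine ⟨hq1.smul c, fun y hy => ?_⟩
        simp only [pair, slack, Prod.smul_fst, Prod.smul_snd, Matrix.smul_apply, smul_eq_mul,
          mul_assoc, ← Finset.mul_sum, dotProduct_smul] at hq2 ⊢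
        rw [hq2 y hy] }
  refine isShadow_of_psd L (fun q hq => hq.1) ?_
  ext x
  constructor
  · intro hx
    have key : ∀ (c₁ c : ℝ) (x₁ : Fin n → ℝ), 0 ≤ c₁ → 0 ≤ c →
        x₁ ∈ ({e} ∪ Fset p e : Set (Fin n → ℝ)) →
        ∃ W, (c₁ • x₁ + c • e, W) ∈ L ∧ W.PosSemidef := by
      intro c₁ c₂ x₁ hc₁ hc₂ h₁
      refine ⟨c₁ • A x₁ + c₂ • A e, ⟨?_, fun y hy => ?_⟩,
        ((hA x₁).smul hc₁).add ((hA e).smul hc₂)⟩
      · have h := (((hA x₁).smul hc₁).add ((hA e).smul hc₂)).isHermitian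
        rw [Matrix.IsHermitian, Matrix.conjTranspose_eq_transpose_of_trivial] at h
        exact h
      · have e1 := heq x₁ h₁ y hy
        have e2 := heq e (Or.inl rfl) y hy
        rw [hAB] at e1 e2
        simp only [pair, slack, Matrix.add_apply, Matrix.smul_apply, smul_eq_mul, add_mul, mul_assoc,
          Finset.sum_add_distrib, ← Finset.mul_sum, dotProduct_add, dotProduct_smul] at e1 e2 ⊢
        rw [e1, e2]
    rcases mem_ray_e hp he hd hx with rfl | ⟨c, hc, rfl⟩ | ⟨c₁, c, x₁, hc₁, hc, h₁, rfl⟩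
    · simpa using key 0 0 e le_rfl le_rfl (Or.inl rfl)
    · simpa using key 0 c e le_rfl hc (Or.inl rfl)
    · exact key c₁ c x₁ hc₁ hc (Or.inr h₁)
  · rintro ⟨W, ⟨-, hW⟩, hpsd⟩
    by_contra hx
    obtain ⟨y, hy, hneg⟩ := separate_flat hp he hOrd hn hx
    obtain ⟨R, hR⟩ := CStarAlgebra.nonneg_iff_eq_star_mul_self.mp hpsd.nonneg
    obtain ⟨Q, hQ⟩ := CStarAlgebra.nonneg_iff_eq_star_mul_self.mp (hB y).nonneg
    have hnn : 0 ≤ pair W (B y) := by
      have e1 : pair W (B y) = ∑ k, ∑ l, (∑ i, R k i * Q l i) ^ 2 := by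
        simp only [pair, hR, hQ, Matrix.mul_apply, Matrix.star_eq_conjTranspose,
          Matrix.conjTranspose_apply, star_trivial, sq, Finset.sum_mul_sum]
        rw [Finset.sum_congr rfl fun i _ => Finset.sum_comm, Finset.sum_comm]
        refine Finset.sum_congr rfl fun k _ => ?_
        rw [Finset.sum_congr rfl fun i _ => Finset.sum_comm, Finset.sum_comm]
        exact Finset.sum_congr rfl fun l _ => Finset.sum_congr rfl fun i _ =>
          Finset.sum_congr rfl fun j _ => by ring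
      rw [e1]
      positivity
    rw [hW y hy] at hnn
    exact absurd hnn (not_le.mpr hneg)

end Vale.Agent.P256
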