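import Vale.Agent.P256.Local

/-!
Newton bounds for real-rooted polynomials and the resulting bounds on Taylor coefficients of a
hyperbolic polynomial at points of its cone.
-/

namespace Vale.Agent.P256

open MvPolynomial Filter Topology

/-- A real polynomial whose complex roots are all real splits. -/
theorem splits_of_real_roots (F : Polynomial ℝ)
    (h : ∀ z : ℂ, Polynomial.aeval z F = 0 → z.im = 0) : F.Splits := by
  refine Polynomial.Splits.of_splits_map (algebraMap ℝ ℂ) (IsAlgClosed.splits _) fun z hz =>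
    ⟨z.re, ?_⟩
  have h0 := (Polynomial.mem_roots'.mp hz).2
  rw [Polynomial.IsRoot, Polynomial.eval_map_algebraMap] at h0
  exact Complex.ext (by simp) (by simp [h z h0])

theorem splits_derivative {F : Polynomial ℝ} (hF : F.Splits) :
    (Polynomial.derivative F).Splits := by
  rw [Polynomial.splits_iff_card_roots]
  refine le_antisymm (Polynomial.card_roots' _) ?_
  have h1 := Polynomial.card_roots_le_derivative F
  have h2 := hF.natDegree_eq_card_roots
  have h3 := Polynomial.natDegree_derivative_le F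
  omega

theorem splits_iterate_derivative {F : Polynomial ℝ} (hF : F.Splits) (k : ℕ) :
    (Polynomial.derivative^[k] F).Splits := by
  induction k with
  | zero => exact hF
  | succ k ih => rw [Function.iterate_succ_apply']; exact splits_derivative ih

theorem prod_coeff (M : Multiset ℝ) :
    (M.map fun u => 1 + Polynomial.C u * Polynomial.X).prod.coeff 0 = 1 ∧
    (M.map fun u => 1 + Polynomial.C u * Polynomial.X).prod.coeff 1 = M.sum ∧
    2 * (M.map fun u => 1 + Polynomial.C u * Polynomial.X).prod.coeff 2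
      = M.sum ^ 2 - (M.map fun u => u ^ 2).sum ∧
    0 ≤ (M.map fun u => |u|).sum ∧
    (M.map fun u => |u|).sum ≤ (M.map fun u => u ^ 2).sum + M.card ∧
    0 ≤ (M.map fun u => u ^ 2).sum ∧
    ∀ j, |(M.map fun u => 1 + Polynomial.C u * Polynomial.X).prod.coeff j|
      ≤ (M.map fun u => |u|).sum ^ j := by
  induction M using Multiset.induction_on with
  | empty =>
    refine ⟨by simp, by simp [Polynomial.coeff_one], by simp [Polynomial.coeff_one], by simp,
      by simp, by simp, fun j => ?_⟩
    cases j <;> simp [Polynomial.coeff_one]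
  | cons u M ih =>
    obtain ⟨i0, i1, i2, i3, i4, i5, i6⟩ := ih
    simp only [Multiset.map_cons, Multiset.prod_cons, Multiset.sum_cons, Multiset.card_cons,
      add_mul, one_mul, Polynomial.coeff_add, mul_assoc, Polynomial.coeff_C_mul]
    set P := (M.map fun u => 1 + Polynomial.C u * Polynomial.X).prod
    refine ⟨?_, ?_, ?_, by positivity, ?_, by positivity, fun j => ?_⟩
    · simp [i0]
    · rw [Polynomial.coeff_X_mul, i0, i1]; ring
    · rw [Polynomial.coeff_X_mul, i1]; linear_combination i2
    · push_cast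
      nlinarith [sq_nonneg (|u| - 1), sq_abs u]
    · rcases j with _ | j
      · simp [i0]
      · rw [Polynomial.coeff_X_mul]
        refine (abs_add_le _ _).trans ?_
        rw [abs_mul]
        have h1 := i6 (j + 1)
        have h2 := mul_le_mul_of_nonneg_left (i6 j) (abs_nonneg u)
        have h3 : (M.map fun u => |u|).sum ^ j ≤ (|u| + (M.map fun u => |u|).sum) ^ j :=
          pow_le_pow_left₀ i3 (le_add_of_nonneg_left (abs_nonneg u)) j
        have h4 := mul_le_mul_of_nonneg_left h3 (add_nonneg (abs_nonneg u) i3)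
        rw [pow_succ] at h1 ⊢
        nlinarith

/-- Newton's inequalities in the form needed here. -/
theorem newton (F : Polynomial ℝ) (hF : F.Splits) (h0 : F.coeff 0 ≠ 0) {D : ℕ}
    (hD : F.natDegree ≤ D) :
    0 ≤ (F.coeff 1 / F.coeff 0) ^ 2 - 2 * (F.coeff 2 / F.coeff 0) ∧
    ∀ j, |F.coeff j / F.coeff 0|
      ≤ ((F.coeff 1 / F.coeff 0) ^ 2 - 2 * (F.coeff 2 / F.coeff 0) + D) ^ j := by
  set M := F.roots.map fun r => -r⁻¹
  obtain ⟨i0, i1, i2, i3, i4, i5, i6⟩ := prod_coeff M
  have hne : ∀ r ∈ F.roots, r ≠ 0 := fun r hr h => by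
    have := (Polynomial.mem_roots'.mp hr).2
    rw [h, Polynomial.IsRoot, ← Polynomial.coeff_zero_eq_eval_zero] at this
    exact h0 this
  have hfac : F = Polynomial.C (F.coeff 0) *
      (M.map fun u => 1 + Polynomial.C u * Polynomial.X).prod := by
    set P := (M.map fun u => 1 + Polynomial.C u * Polynomial.X).prod
    have e1 : (F.roots.map fun r => Polynomial.X - Polynomial.C r).prod
        = Polynomial.C (F.roots.map fun r => -r).prod * P := by
      rw [show P = (F.roots.map fun r => 1 + Polynomial.C (-r⁻¹) * Polynomial.X).prod by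
        simp only [P, M, Multiset.map_map]; rfl]
      rw [map_multiset_prod, Multiset.map_map, ← Multiset.prod_map_mul]
      refine congrArg Multiset.prod (Multiset.map_congr rfl fun r hr => ?_)
      simp only [Function.comp_apply]
      rw [mul_add, mul_one, ← mul_assoc, ← Polynomial.C_mul, neg_mul_neg,
        mul_inv_cancel₀ (hne r hr)]
      simp
      ring
    have e2 : F = Polynomial.C (F.leadingCoeff * (F.roots.map fun r => -r).prod) * P := by
      rw [Polynomial.C_mul, mul_assoc, ← e1]
      exact hF.eq_prod_roots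
    have e3 : F.coeff 0 = F.leadingCoeff * (F.roots.map fun r => -r).prod := by
      conv_lhs => rw [e2]
      rw [Polynomial.coeff_C_mul, i0, mul_one]
    rw [e3]
    exact e2
  have hj : ∀ j, F.coeff j / F.coeff 0
      = (M.map fun u => 1 + Polynomial.C u * Polynomial.X).prod.coeff j := fun j => by
    conv_lhs => arg 1; rw [hfac]
    rw [Polynomial.coeff_C_mul, mul_div_cancel_left₀ _ h0]
  have hcard : (M.card : ℝ) ≤ D := by
    have : M.card = F.roots.card := Multiset.card_map _ _
    exact_mod_cast this.trans_le ((Polynomial.card_roots' F).trans hD)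
  have hs : (F.coeff 1 / F.coeff 0) ^ 2 - 2 * (F.coeff 2 / F.coeff 0)
      = (M.map fun u => u ^ 2).sum := by
    rw [hj, hj, i1, i2]; ring
  refine ⟨hs ▸ i5, fun j => ?_⟩
  rw [hs, hj]
  exact (i6 j).trans (pow_le_pow_left₀ i3 (by linarith) j)

/-- Bounds on the limit coefficients of a one-parameter family of real-rooted polynomials. -/
theorem newton_family (D : ℕ) {γ M η0 : ℝ} (hγ : 0 < γ) (hM : 0 < M) (hη0 : 0 < η0) :
    ∃ C, 0 ≤ C ∧ ∀ c : ℕ → ℝ, (∀ j, j ≤ D + 2 → |c j| ≤ M) →
      (∀ η, 0 < η → η ≤ η0 → ∃ F : Polynomial ℝ, F.Splits ∧ F.natDegree ≤ D ∧ γ * η ≤ F.coeff 0 ∧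
        F.coeff 0 ≤ M * η ∧ ∀ j, 1 ≤ j → j ≤ D + 2 → |F.coeff j - c j| ≤ M * η) →
      c 2 ≤ C * |c 1| ∧ ∀ j, 1 ≤ j → j ≤ D + 2 → |c j| ≤ C * (|c 1| + |c 2|) := by
  set θ₁ := min (γ / (8 * M ^ 2)) (min (1 / (2 * M)) (η0 / M)) with hθ₁def
  have hθ₁ : 0 < θ₁ := lt_min (by positivity) (lt_min (by positivity) (by positivity))
  set θ := η0 / (2 * M + 1) with hθdef
  have hθ : 0 < θ := by positivity
  set R := (1 + M * θ) / (γ * θ) with hRdef
  set E := (R ^ 2 + 2 * R + D + 1) ^ (D + 2) with hEdef
  have hR : 0 ≤ R := by positivity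
  have hE : 0 ≤ E := by positivity
  refine ⟨(θ₁ * M)⁻¹ + M * θ * (E + 1), by positivity, fun c hc hfam => ?_⟩
  constructor
  · have key : c 2 ≤ (θ₁ * M)⁻¹ * |c 1| := by
      rcases le_or_gt (c 2) 0 with hB | hB
      · exact hB.trans (by positivity)
      have hB' : c 2 ≤ M := (le_abs_self _).trans (hc 2 (by omega))
      have hle : θ₁ * c 2 ≤ η0 := calc
        θ₁ * c 2 ≤ η0 / M * M :=
          mul_le_mul ((min_le_right _ _).trans (min_le_right _ _)) hB' hB.le (by positivity)
        _ = η0 := div_mul_cancel₀ _ hM.ne'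
      obtain ⟨F, hF, hdeg, hlow, -, hj⟩ := hfam (θ₁ * c 2) (mul_pos hθ₁ hB) hle
      have hF0 : 0 < F.coeff 0 := lt_of_lt_of_le (by positivity) hlow
      obtain ⟨hsq, -⟩ := newton F hF hF0.ne' hdeg
      have hn : 2 * F.coeff 0 * F.coeff 2 ≤ F.coeff 1 ^ 2 := by
        have := mul_nonneg hsq (sq_nonneg (F.coeff 0))
        field_simp at this
        nlinarith
      have h1 := abs_le.mp (hj 1 le_rfl (by omega))
      have h2 := abs_le.mp (hj 2 (by omega) (by omega))
      have hMθ : M * θ₁ ≤ 1 / 2 := by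
        have := mul_le_mul_of_nonneg_left
          ((min_le_right _ _).trans (min_le_left _ _) : θ₁ ≤ 1 / (2 * M)) hM.le
        calc M * θ₁ ≤ M * (1 / (2 * M)) := this
          _ = 1 / 2 := by field_simp
      have hF2 : c 2 / 2 ≤ F.coeff 2 := by
        have := mul_le_mul_of_nonneg_right hMθ hB.le
        linarith [h2.1]
      by_contra hlt
      rw [not_le, inv_mul_lt_iff₀ (by positivity)] at hlt
      have hF1 : |F.coeff 1| ≤ 2 * θ₁ * M * c 2 := by
        have := abs_sub_abs_le_abs_sub (F.coeff 1) (c 1)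
        have := hj 1 le_rfl (by omega)
        linarith
      have hF1' : F.coeff 1 ^ 2 ≤ (2 * θ₁ * M * c 2) ^ 2 := by
        rw [← sq_abs]; exact pow_le_pow_left₀ (abs_nonneg _) hF1 2
      have hγθ : 8 * M ^ 2 * θ₁ ≤ γ := by
        have := (le_div_iff₀ (by positivity : (0:ℝ) < 8 * M ^ 2)).mp
          (min_le_left _ _ : θ₁ ≤ γ / (8 * M ^ 2))
        linarith
      have h3 : γ * (θ₁ * c 2) * (c 2 / 2) ≤ F.coeff 0 * F.coeff 2 :=
        mul_le_mul hlow hF2 (by positivity) hF0.le
      have h4 := mul_le_mul_of_nonneg_right hγθ (by positivity : (0:ℝ) ≤ θ₁ * c 2 ^ 2)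
      have h5 : 0 < γ * θ₁ * c 2 ^ 2 := by positivity
      nlinarith
    nlinarith [abs_nonneg (c 1), mul_nonneg (mul_nonneg hM.le hθ.le) (add_nonneg hE zero_le_one)]
  · intro j hj1 hjD
    suffices ∀ δ : ℝ, 0 < δ → δ ≤ 1 →
        |c j| ≤ M * θ * (E + 1) * (|c 1| + |c 2| + δ) by
      have h0 : |c j| ≤ M * θ * (E + 1) * (|c 1| + |c 2|) := by
        refine le_of_forall_pos_le_add fun ε hε => ?_
        have hpos : 0 < M * θ * (E + 1) := by positivity
        have hmin : 0 < min 1 (ε / (M * θ * (E + 1))) := lt_min one_pos (div_pos hε hpos)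
        refine (this _ hmin (min_le_left _ _)).trans ?_
        rw [mul_add]
        have := mul_le_mul_of_nonneg_left (min_le_right (1:ℝ) (ε / (M * θ * (E + 1)))) hpos.le
        rw [mul_div_cancel₀ _ hpos.ne'] at this
        linarith
      nlinarith [abs_nonneg (c 1), abs_nonneg (c 2), inv_nonneg.mpr (mul_pos hθ₁ hM).le]
    intro δ hδ hδ1
    set T := |c 1| + |c 2| + δ with hTdef
    have hT : 0 < T := by positivity
    have hT' : T ≤ 2 * M + 1 := by linarith [hc 1 (by omega), hc 2 (by omega)]
    have hηle : θ * T ≤ η0 := calc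
      θ * T ≤ θ * (2 * M + 1) := mul_le_mul_of_nonneg_left hT' hθ.le
      _ = η0 := div_mul_cancel₀ _ (by positivity)
    obtain ⟨F, hF, hdeg, hlow, hup, hj⟩ := hfam (θ * T) (mul_pos hθ hT) hηle
    have hF0 : 0 < F.coeff 0 := lt_of_lt_of_le (by positivity) hlow
    obtain ⟨hsq, hnw⟩ := newton F hF hF0.ne' hdeg
    have hbd : ∀ i, 1 ≤ i → i ≤ 2 → |F.coeff i / F.coeff 0| ≤ R := by
      intro i hi1 hi2
      have h1 : |c i| ≤ T := by
        have := abs_nonneg (c 1); have := abs_nonneg (c 2)
        interval_cases i <;> linarith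
      have h2 : |F.coeff i| ≤ (1 + M * θ) * T := by
        have := abs_sub_abs_le_abs_sub (F.coeff i) (c i)
        have := hj i hi1 (by omega)
        linarith
      rw [abs_div, abs_of_pos hF0, div_le_iff₀ hF0]
      refine h2.trans (le_trans ?_ (mul_le_mul_of_nonneg_left hlow hR))
      rw [hRdef]
      field_simp
      exact le_rfl
    have hS : (F.coeff 1 / F.coeff 0) ^ 2 - 2 * (F.coeff 2 / F.coeff 0) + D
        ≤ R ^ 2 + 2 * R + D + 1 := by
      have h1 := pow_le_pow_left₀ (abs_nonneg _) (hbd 1 le_rfl (by omega)) 2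
      rw [sq_abs] at h1
      linarith [(abs_le.mp (hbd 2 (by omega) le_rfl)).1]
    have hpw : |F.coeff j / F.coeff 0| ≤ E := (hnw j).trans <|
      (pow_le_pow_left₀ (by linarith [D.cast_nonneg (α := ℝ)]) hS j).trans
        (pow_le_pow_right₀ (by nlinarith [D.cast_nonneg (α := ℝ)]) hjD)
    rw [abs_div, abs_of_pos hF0, div_le_iff₀ hF0] at hpw
    have h1 := abs_sub_abs_le_abs_sub (c j) (F.coeff j)
    rw [abs_sub_comm] at h1
    have h2 := hj j hj1 hjD
    have h3 := mul_le_mul_of_nonneg_left hup hE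
    calc |c j| ≤ E * (M * (θ * T)) + M * (θ * T) := by linarith
      _ = M * θ * (E + 1) * T := by ring

variable {n d : ℕ} {p : MvPolynomial (Fin n) ℝ} {e : Fin n → ℝ}

theorem lineR_degree {σ : Type*} (P : MvPolynomial σ ℝ) (Y V : σ → ℝ) :
    (lineR P Y V).natDegree ≤ P.totalDegree := by
  rw [lineR, MvPolynomial.aeval_def, MvPolynomial.eval₂_eq]
  refine Polynomial.natDegree_sum_le_of_forall_le _ _ fun m hm => ?_
  refine (Polynomial.natDegree_C_mul_le _ _).trans ?_
  refine (Polynomial.natDegree_prod_le _ _).trans (le_trans ?_ (MvPolynomial.le_totalDegree hm))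
  refine Finset.sum_le_sum fun i _ => ?_
  refine (Polynomial.natDegree_pow_le).trans ?_
  refine mul_le_of_le_one_right (Nat.zero_le _) ?_
  refine (Polynomial.natDegree_add_le _ _).trans ?_
  simp only [Polynomial.natDegree_C, max_le_iff, zero_le, true_and]
  exact (Polynomial.natDegree_mul_C_le _ _).trans Polynomial.natDegree_X_le

theorem continuous_coeff_aeval {T σ : Type*} [TopologicalSpace T] (Q : MvPolynomial σ ℝ)
    {v : T → σ → Polynomial ℝ} (hv : ∀ o i, Continuous fun t => (v t o).coeff i) (i : ℕ) :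
    Continuous fun t => (aeval (v t) Q).coeff i := by
  induction Q using MvPolynomial.induction_on generalizing i with
  | C c => simpa using continuous_const
  | add a b ha hb => simp only [map_add, Polynomial.coeff_add]; exact (ha i).add (hb i)
  | mul_X a o ha =>
    simp only [map_mul, aeval_X, Polynomial.coeff_mul]
    exact continuous_finsetSum _ fun x _ => (ha x.1).mul (hv o x.2)

theorem continuous_linear_coeff {T : Type*} [TopologicalSpace T] {x v : T → Fin n → ℝ}
    (hx : Continuous x) (hv : Continuous v) (o : Fin n) (i : ℕ) :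
    Continuous fun t => (Polynomial.C (x t o) + Polynomial.X * Polynomial.C (v t o)).coeff i := by
  simp only [Polynomial.coeff_add, Polynomial.coeff_C, Polynomial.coeff_mul_C]
  by_cases hi : i = 0
  · simp only [hi, if_true]; fun_prop
  · simp only [if_neg hi]; fun_prop

theorem continuous_lineR_coeff {T : Type*} [TopologicalSpace T] (Q : MvPolynomial (Fin n) ℝ)
    {x v : T → Fin n → ℝ} (hx : Continuous x) (hv : Continuous v) (i : ℕ) :
    Continuous fun t => (lineR Q (x t) (v t)).coeff i :=
  continuous_coeff_aeval Q (fun o j => continuous_linear_coeff hx hv o j) i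

/-- Lines through a point of the open cone have only real zeros. -/
theorem lineR_splits (hp : p.IsHomogeneous d) (he : Hyperbolic p e) {x : Fin n → ℝ}
    (hx : x ∈ Lam p e) (v : Fin n → ℝ) : (lineR p x v).Splits := by
  refine splits_of_real_roots _ fun z hz => ?_
  rw [lineR, ← AlgHom.comp_apply, comp_aeval] at hz
  replace hz : lineVal p (cv x) (cv v) z = 0 := by
    rw [← hz, lineVal]
    exact congrArg (fun u => aeval u p) (funext fun i => by simp [cv]; ring)
  rcases eq_or_ne z 0 with rfl | h0
  · simp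
  rw [lineVal_inv hp _ _ h0, mul_eq_zero] at hz
  have := line_im (garding hp he hx) v (hz.resolve_left (pow_ne_zero _ h0))
  rw [Complex.inv_im, div_eq_zero_iff] at this
  rcases this with h | h
  · linarith
  · exact absurd (Complex.normSq_eq_zero.mp h) h0

/-- The derivative in direction `e` of the `k`-th coefficient on a line. -/
noncomputable def gcoef (p : MvPolynomial (Fin n) ℝ) (e x v : Fin n → ℝ) (k : ℕ) : ℝ :=
  ∑ i, e i * (lineR (pderiv i p) x v).coeff k

theorem lineR_expand (p : MvPolynomial (Fin n) ℝ) (e x v : Fin n → ℝ) (η : ℝ) (k : ℕ) :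
    (lineR p (x + η • e) v).coeff k = (lineR p x v).coeff k + η * gcoef p e x v k +
      η ^ 2 * ∑ i, ∑ j, (aeval (Sum.elim
        (fun o => Polynomial.C ((x + η • e) o) + Polynomial.X * Polynomial.C (v o))
        (fun o => Polynomial.C (x o) + Polynomial.X * Polynomial.C (v o))) (tay p i j)).coeff k *
          e i * e j := by
  have h := tay_spec p (R := Polynomial ℝ)
    (fun o => Polynomial.C ((x + η • e) o) + Polynomial.X * Polynomial.C (v o))
    (fun o => Polynomial.C (x o) + Polynomial.X * Polynomial.C (v o))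
  have e1 : ∀ o, (Polynomial.C ((x + η • e) o) + Polynomial.X * Polynomial.C (v o)) -
      (Polynomial.C (x o) + Polynomial.X * Polynomial.C (v o)) = Polynomial.C (η * e o) :=
    fun o => by simp [Polynomial.C_add]
  simp only [e1] at h
  rw [lineR, h]
  simp only [Polynomial.coeff_add, Polynomial.finsetSum_coeff, Polynomial.coeff_mul_C, gcoef,
    Finset.mul_sum, lineR]
  congr 1
  · congr 1
    exact Finset.sum_congr rfl fun i _ => by ring
  · exact Finset.sum_congr rfl fun i _ => Finset.sum_congr rfl fun j _ => by ring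

/-- The bounds on Taylor coefficients at points of the cone. -/
theorem coef_family (hp : p.IsHomogeneous d) (he : Hyperbolic p e) {T : Type*} [TopologicalSpace T]
    {S : Set T} (hS : IsCompact S) {x v : T → Fin n → ℝ} (hx : Continuous x) (hv : Continuous v)
    (hK : ∀ t ∈ S, x t ∈ hypCone p e) (k : ℕ)
    (hk : ∀ t ∈ S, (lineR p (x t) (v t)).coeff k = 0)
    (hg : ∀ t ∈ S, 0 < gcoef p e (x t) (v t) k) :
    ∃ C, 0 ≤ C ∧ ∀ t ∈ S,
      (lineR p (x t) (v t)).coeff (k + 2) ≤ C * |(lineR p (x t) (v t)).coeff (k + 1)| ∧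
      ∀ j, 1 ≤ j → |(lineR p (x t) (v t)).coeff (k + j)| ≤
        C * (|(lineR p (x t) (v t)).coeff (k + 1)| + |(lineR p (x t) (v t)).coeff (k + 2)|) := by
  classical
  set D := p.totalDegree
  set f : T → ℕ → ℝ := fun t i => (lineR p (x t) (v t)).coeff i with hfdef
  set g : T → ℕ → ℝ := fun t i => gcoef p e (x t) (v t) i with hgdef
  let R : ℝ × T → ℕ → ℝ := fun q i => ∑ a, ∑ c, (aeval (Sum.elim
    (fun o => Polynomial.C ((x q.2 + q.1 • e) o) + Polynomial.X * Polynomial.C (v q.2 o))
    (fun o => Polynomial.C (x q.2 o) + Polynomial.X * Polynomial.C (v q.2 o))) (tay p a c)).coeff i *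
      e a * e c
  have hfc : ∀ i, Continuous fun t => f t i := fun i => continuous_lineR_coeff p hx hv i
  have hgc : ∀ i, Continuous fun t => g t i := fun i => continuous_finsetSum _ fun a _ =>
    continuous_const.mul (continuous_lineR_coeff _ hx hv i)
  have hRc : ∀ i, Continuous fun q => R q i := fun i => by
    refine continuous_finsetSum _ fun a _ => continuous_finsetSum _ fun c _ => ?_
    refine ((continuous_coeff_aeval _ (fun o j => ?_) i).mul continuous_const).mul continuous_const
    rcases o with o | o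
    · exact continuous_linear_coeff ((hx.comp continuous_snd).add
        (continuous_fst.smul continuous_const)) (hv.comp continuous_snd) o j
    · exact continuous_linear_coeff (hx.comp continuous_snd) (hv.comp continuous_snd) o j
  obtain ⟨γ₀, hγ₀, hγle⟩ : ∃ γ₀ : ℝ, 0 < γ₀ ∧ ∀ t ∈ S, γ₀ ≤ g t k := by
    rcases S.eq_empty_or_nonempty with h | h
    · exact ⟨1, one_pos, by simp [h]⟩
    · obtain ⟨t, ht, hm⟩ := hS.exists_isMinOn h (hgc k).continuousOn
      exact ⟨_, hg t ht, fun u hu => hm hu⟩
  let w : ℕ → ℝ := fun j => ((j + k).descFactorial k : ℝ)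
  have hw : ∀ j, 1 ≤ w j := fun j => by
    have : 0 < (j + k).descFactorial k :=
      Nat.pos_of_ne_zero fun h => by rw [Nat.descFactorial_eq_zero_iff_lt] at h; omega
    exact Nat.one_le_cast.mpr this
  obtain ⟨M, hM, hMb⟩ : ∃ M : ℝ, 0 < M ∧ ∀ t ∈ S, ∀ j, j ≤ D + 2 → |w j * f t (j + k)| ≤ M ∧
      |w j * g t (j + k)| ≤ M ∧ ∀ η ∈ Set.Icc (0:ℝ) 1, |w j * R (η, t) (j + k)| ≤ M := by
    choose B1 hB1 using fun j => hS.exists_bound_of_continuousOn
      (continuous_const.mul (hfc (j + k))).continuousOn (f := fun t => w j * f t (j + k))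
    choose B2 hB2 using fun j => hS.exists_bound_of_continuousOn
      (continuous_const.mul (hgc (j + k))).continuousOn (f := fun t => w j * g t (j + k))
    choose B3 hB3 using fun j => (isCompact_Icc.prod hS).exists_bound_of_continuousOn
      (continuous_const.mul (hRc (j + k))).continuousOn (f := fun q => w j * R q (j + k))
      (s := Set.Icc (0:ℝ) 1 ×ˢ S)
    refine ⟨(∑ j ∈ Finset.range (D + 3), (|B1 j| + |B2 j| + |B3 j|)) + 1, by positivity,
      fun t ht j hj => ?_⟩
    have hsum := Finset.single_le_sum (fun i _ => by positivity)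
      (Finset.mem_range.mpr (by omega : j < D + 3)) (f := fun j => |B1 j| + |B2 j| + |B3 j|)
    have h1 := (hB1 j t ht).trans (le_abs_self _)
    have h2 := (hB2 j t ht).trans (le_abs_self _)
    simp only [Real.norm_eq_abs] at h1 h2
    refine ⟨?_, ?_, fun η hη => ?_⟩
    · linarith [abs_nonneg (B2 j), abs_nonneg (B3 j)]
    · linarith [abs_nonneg (B1 j), abs_nonneg (B3 j)]
    · have h3 := (hB3 j (η, t) ⟨hη, ht⟩).trans (le_abs_self _)
      simp only [Real.norm_eq_abs] at h3
      linarith [abs_nonneg (B1 j), abs_nonneg (B2 j)]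
  set η0 := min 1 (γ₀ / (2 * M + 1))
  have hη0 : 0 < η0 := lt_min one_pos (by positivity)
  obtain ⟨C, hC, hfam⟩ := newton_family D (γ := γ₀ / 2) (M := 2 * M) (η0 := η0) (half_pos hγ₀)
    (by positivity) hη0
  refine ⟨C * (w 1 + w 2), mul_nonneg hC (by linarith [hw 1, hw 2]), fun t ht => ?_⟩
  obtain ⟨h21, hjb⟩ := hfam (fun j => w j * f t (j + k))
    (fun j hj => ((hMb t ht j hj).1).trans (by linarith)) fun η hη hηle => by
      have hη1 : η ∈ Set.Icc (0:ℝ) 1 := ⟨hη.le, hηle.trans (min_le_left _ _)⟩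
      have hL := cone_add_eps (e := e) hp (hK t ht) hη
      have hco : ∀ j, (Polynomial.derivative^[k] (lineR p (x t + η • e) (v t))).coeff j
          = w j * f t (j + k) + η * (w j * g t (j + k)) + η ^ 2 * (w j * R (η, t) (j + k)) :=
        fun j => by
          rw [Polynomial.coeff_iterate_derivative, nsmul_eq_mul, lineR_expand]
          simp only [w, f, g, R]
          ring
      refine ⟨_, splits_iterate_derivative (lineR_splits hp he hL (v t)) k, ?_, ?_, ?_, ?_⟩
      · refine le_trans ?_ (lineR_degree p (x t + η • e) (v t))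
        exact (Polynomial.natDegree_iterate_derivative _ k).trans (Nat.sub_le _ _)
      · rw [hco, zero_add, show f t k = 0 from hk t ht, mul_zero, zero_add]
        obtain ⟨-, -, h3⟩ := hMb t ht 0 (by omega)
        have h3' := (abs_le.mp (h3 η hη1)).1
        rw [zero_add] at h3'
        have h4 : γ₀ ≤ w 0 * g t k :=
          (hγle t ht).trans (le_mul_of_one_le_left (hg t ht).le (hw 0))
        have h5 : η * M ≤ γ₀ / 2 := by
          refine (mul_le_mul_of_nonneg_right (hηle.trans (min_le_right _ _)) hM.le).trans ?_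
          rw [div_mul_eq_mul_div, div_le_div_iff₀ (by positivity) two_pos]
          nlinarith
        nlinarith [mul_le_mul_of_nonneg_left h3' (sq_nonneg η),
          mul_le_mul_of_nonneg_left h4 hη.le, mul_le_mul_of_nonneg_left h5 hη.le]
      · rw [hco, zero_add, show f t k = 0 from hk t ht, mul_zero, zero_add]
        obtain ⟨-, h2, h3⟩ := hMb t ht 0 (by omega)
        rw [zero_add] at h2 h3
        nlinarith [mul_le_mul_of_nonneg_left ((le_abs_self _).trans h2) hη.le,
          mul_le_mul_of_nonneg_left ((le_abs_self _).trans (h3 η hη1)) (sq_nonneg η),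
          mul_le_mul_of_nonneg_right hη1.2 (mul_nonneg hη.le hM.le)]
      · intro j _ hj
        obtain ⟨-, h2, h3⟩ := hMb t ht j hj
        rw [hco, add_assoc, add_sub_cancel_left]
        refine (abs_add_le _ _).trans ?_
        rw [abs_mul η, abs_mul (η ^ 2), abs_of_pos hη, abs_of_nonneg (sq_nonneg η)]
        nlinarith [mul_le_mul_of_nonneg_left h2 hη.le,
          mul_le_mul_of_nonneg_left (h3 η hη1) (sq_nonneg η),
          mul_le_mul_of_nonneg_right hη1.2 (mul_nonneg hη.le hM.le)]
  simp only [Nat.add_comm _ k, abs_mul, abs_of_nonneg (zero_le_one.trans (hw _))] at h21 hjb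
  simp only [hfdef] at h21 hjb
  set a := |(lineR p (x t) (v t)).coeff (k + 1)|
  set c2 := (lineR p (x t) (v t)).coeff (k + 2)
  have ha : 0 ≤ a := abs_nonneg _
  have hw1 := hw 1
  have hw2 := hw 2
  have hs : w 1 * a + w 2 * |c2| ≤ (w 1 + w 2) * (a + |c2|) := by nlinarith [abs_nonneg c2]
  refine ⟨?_, fun j hj1 => ?_⟩
  · rcases le_or_gt c2 0 with h | h
    · exact h.trans (mul_nonneg (mul_nonneg hC (by linarith)) ha)
    · nlinarith [le_mul_of_one_le_left h.le hw2, mul_nonneg hC (mul_nonneg (zero_le_one.trans hw2) ha)]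
  · rcases le_or_gt j (D + 2) with hj | hj
    · calc |(lineR p (x t) (v t)).coeff (k + j)|
          ≤ w j * |(lineR p (x t) (v t)).coeff (k + j)| := le_mul_of_one_le_left (abs_nonneg _) (hw j)
        _ ≤ C * (w 1 * a + w 2 * |c2|) := hjb j hj1 hj
        _ ≤ C * ((w 1 + w 2) * (a + |c2|)) := mul_le_mul_of_nonneg_left hs hC
        _ = C * (w 1 + w 2) * (a + |c2|) := by ring
    · rw [Polynomial.coeff_eq_zero_of_natDegree_lt
        ((lineR_degree p (x t) (v t)).trans_lt (by omega)), abs_zero]
      exact mul_nonneg (mul_nonneg hC (by linarith)) (add_nonneg ha (abs_nonneg _))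

end Vale.Agent.P256
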