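import Vale.Agent.P256.Flat.NodeSame

/-!
Factorisation of the supporting functionals near a singular point.
-/

namespace Vale.Agent.P256

open MvPolynomial Filter Topology Matrix

attribute [local irreducible] blow qp tangentForm tay

variable {n d : ℕ} {p : MvPolynomial (Fin n) ℝ} {e b : Fin n → ℝ}
variable (hp : p.IsHomogeneous d) (he : Hyperbolic p e) (hb : b ∈ Fset p e)
  (hg : grad p b = 0) (hO : Ordinary p e b)

include hp he hb hg hO in
theorem cross_pos {Z Z' : Fin n → ℝ} (hZ : ((0:ℝ), Z) ∈ Par p e b)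
    (hZ' : ((0:ℝ), Z') ∈ Par p e b) (hne : Z ≠ Z') :
    0 < grad (tangentForm p b) Z' ⬝ᵥ Z := by
  obtain ⟨hbK, -⟩ := (mem_frontier_hypCone hp he).mp hb.1
  have hm := two_le_mult hp he hb.1 hg
  have hq := tangent_hyperbolic hp he hbK
  have hqh := tangentForm_homogeneous p b
  obtain ⟨hZF, -, -, -⟩ := Par_limit hp he hb hg hO hZ
  obtain ⟨hZF', hZ0', hspan, -⟩ := Par_limit hp he hb hg hO hZ'
  have hZK := ((mem_frontier_hypCone hqh hq).mp hZF).1
  have hZK' := ((mem_frontier_hypCone hqh hq).mp hZF').1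
  obtain ⟨-, ⟨hbZ, htZ, -⟩, -⟩ := hZ
  obtain ⟨-, ⟨hbZ', htZ', -⟩, -⟩ := hZ'
  have hgq := hO Z' hZF' hspan
  refine lt_of_le_of_ne (support_nonneg hqh hq hZK' hZ0' hgq hZK) fun h => ?_
  refine tangent_line hp he hbK hm hO hZF' (u := Z - Z') (fun α β hab => ?_) hspan ?_
  · have e1 : β = 0 := by
      have := congrArg (fun v => b ⬝ᵥ v) hab
      simp only [dotProduct_sub, dotProduct_add, dotProduct_smul, smul_eq_mul, hbZ, hbZ', mul_zero,
        sub_zero, zero_add] at this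
      exact (mul_eq_zero.mp this.symm).resolve_right (dot_self_pos (fset_ne hb)).ne'
    rw [e1, zero_smul, add_zero] at hab
    have e2 := congrArg (fun v => th p e b ⬝ᵥ v) hab
    simp only [dotProduct_sub, dotProduct_smul, smul_eq_mul, htZ, htZ', sub_self, mul_one] at e2
    rw [← e2, zero_smul, sub_eq_zero] at hab
    exact hne hab
  · intro s
    have key : ∀ t ∈ Set.Ioo (0:ℝ) 1, eval (Z' + t • (Z - Z')) (tangentForm p b) = 0 := by
      intro t ht
      have hw : Z' + t • (Z - Z') = (1 - t) • Z' + t • Z := by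
        rw [smul_sub, sub_smul, one_smul]; abel
      have hK : Z' + t • (Z - Z') ∈ hypCone (tangentForm p b) e := hw ▸
        add_mem_cone hqh hq (smul_mem_cone hqh hZK' (by linarith [ht.2]))
          (smul_mem_cone hqh hZK ht.1)
      by_contra hne'
      have := support_pos hqh hq hZK' hZ0' hgq ((mem_Lam hqh).mpr ⟨hK, hne'⟩)
      rw [hw, dotProduct_add, dotProduct_smul, dotProduct_smul, grad_self hqh hZ0', ← h,
        smul_zero, smul_zero, add_zero] at this
      exact lt_irrefl _ this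
    have hP : lineR (tangentForm p b) Z' (Z - Z') = 0 :=
      Polynomial.eq_zero_of_infinite_isRoot _ ((Set.Ioo_infinite zero_lt_one).mono fun t ht => by
        show (lineR _ _ _).IsRoot t
        rw [Polynomial.IsRoot, lineR_eval]
        exact key t ht)
    rw [← lineR_eval, hP, Polynomial.eval_zero]

include hp he hb hg hO in
/-- Distinct limiting directions. -/
theorem flat_distinct {Z Z' : Fin n → ℝ} (hZ : ((0:ℝ), Z) ∈ Par p e b)
    (hZ' : ((0:ℝ), Z') ∈ Par p e b) (hne : Z ≠ Z') :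
    ∃ U ∈ 𝓝[Par p e b] ((0:ℝ), Z), ∃ V ∈ 𝓝[Par p e b] ((0:ℝ), Z'), FacOn U V (Sp p e b) := by
  obtain ⟨-, -, -, hge⟩ := Par_limit hp he hb hg hO hZ'
  obtain ⟨C, -, hbnd⟩ := node_bounds hp he hb hg hO hZ'
  set Fx := 𝓝[Par p e b] ((0:ℝ), Z)
  set Fy := 𝓝[Par p e b] ((0:ℝ), Z')
  have hx0 : Fx ≤ 𝓝 ((0:ℝ), Z) := nhdsWithin_le_nhds
  have hy0 : Fy ≤ 𝓝 ((0:ℝ), Z') := nhdsWithin_le_nhds
  have hgi : ∀ i, SepC Fx Fy (fun _ y => bgrad p b y.1 y.2 i)
      (grad (tangentForm p b) Z' i) := fun i => by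
    refine SepC.right ?_
    rw [← blow_grad_one]
    simp only [bgrad]
    exact ((continuous_eval_pair (pderiv (some i) (blow p b))).tendsto ((0:ℝ), Z')).mono_left hy0
  obtain ⟨U, hU, V, hV, hfac⟩ := facOn_pos (SepC.sum Finset.univ _ _ fun i _ =>
    (hgi i).mul (sepc_fst_snd (β := Fy) hx0 i)) (cross_pos hp he hb hg hO hZ hZ' hne)
  have hev : ∀ᶠ y in Fy, brad p b y.1 y.2 ≤ 0 ∧ 0 < bgrad p b y.1 y.2 ⬝ᵥ e :=
    (hbnd.mono fun y hy => hy.1).and ((bgrad_tendsto hy0).eventually (lt_mem_nhds hge))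
  have hevx : ∀ᶠ P in Fx, P ∈ Par p e b := self_mem_nhdsWithin
  refine ⟨_, inter_mem hU hevx, _, inter_mem hV hev,
    ((((hfac.mono Set.inter_subset_left Set.inter_subset_left).mul (fun P => P.1) (fun _ => 1)
      (fun P hP => hP.2.1) fun _ _ => zero_le_one).add
      (FacOn.snd (fun y => y.1 ^ 2 * -brad p b y.1 y.2) fun y hy =>
        mul_nonneg (sq_nonneg _) (neg_nonneg.mpr hy.2.1))).mul (fun _ => 1)
      (fun y => (bgrad p b y.1 y.2 ⬝ᵥ e)⁻¹) (fun _ _ => zero_le_one)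
      fun y hy => (inv_pos.mpr hy.2.2).le).congr fun P _ y _ => ?_⟩
  simp only [Sp, dotProduct]
  ring

include hp he hb hg hO in
/-- All supporting functionals near a singular point factorise near it. -/
theorem node_local : ∃ U ∈ 𝓝[Sset p e b] b,
    ∃ V ∈ 𝓟 (Par p e b) ⊓ comap Prod.fst (𝓝 (0:ℝ)), FacOn U V (Sn p e b) := by
  classical
  set Fy0 := 𝓟 (Par p e b) ⊓ comap Prod.fst (𝓝 (0:ℝ))
  have hcpt := isCompact_slice hp he hb hg hO
  refine glue_right hcpt Prod.snd (Filter.mem_inf_of_left (mem_principal.mpr fun y hy => hy.2.1))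
    fun Z' _ => ?_
  set Fy := Fy0 ⊓ comap Prod.snd (𝓝 Z')
  have hFy : Fy ≤ 𝓝[Par p e b] ((0:ℝ), Z') := by
    rw [nhdsWithin, nhds_prod_eq]
    refine le_inf (le_inf ?_ ?_) (inf_le_left.trans inf_le_left)
    · exact inf_le_left.trans inf_le_right
    · exact inf_le_right
  by_cases hZ' : ((0:ℝ), Z') ∈ Par p e b
  swap
  · refine ⟨Set.univ, univ_mem, ∅, ?_, FacOn.empty_right⟩
    have h1 : (Par p e b)ᶜ ∈ Fy :=
      hFy (nhdsWithin_le_nhds ((isClosed_Par hp he hb).isOpen_compl.mem_nhds hZ'))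
    have h2 : Par p e b ∈ Fy := hFy self_mem_nhdsWithin
    have := inter_mem h1 h2
    rwa [Set.compl_inter_self] at this
  obtain ⟨C, -, hbnd⟩ := node_bounds hp he hb hg hO hZ'
  obtain ⟨-, -, -, hge⟩ := Par_limit hp he hb hg hO hZ'
  have hev : ∀ᶠ y in Fy, brad p b y.1 y.2 ≤ 0 ∧ 0 < bgrad p b y.1 y.2 ⬝ᵥ e :=
    ((hbnd.mono fun y hy => hy.1).and
      ((bgrad_tendsto nhdsWithin_le_nhds).eventually (lt_mem_nhds hge))).filter_mono hFy
  have hxev : ∀ᶠ x in 𝓝[Sset p e b \ {b}] b, (xpar p e b x).2 ∈ slice p e b := by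
    filter_upwards [self_mem_nhdsWithin] with x hx
    exact (xpar_mem hp he hb hg hO hx.1 hx.2).1.2.1
  obtain ⟨U, hU, V, hV, hf⟩ := glue_left (Fy := Fy) hcpt (fun x => (xpar p e b x).2) hxev
    (S := Sn p e b) fun Z _ => by
      set Fx := 𝓝[Sset p e b \ {b}] b ⊓ comap (fun x => (xpar p e b x).2) (𝓝 Z)
      have hmem : ∀ᶠ x in Fx, x ∈ Sset p e b \ {b} := Filter.mem_inf_of_left self_mem_nhdsWithin
      have hx : Tendsto (xpar p e b) Fx (𝓝[Par p e b] ((0:ℝ), Z)) := by
        refine tendsto_nhdsWithin_iff.mpr ⟨?_, hmem.mono fun x hx =>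
          (xpar_mem hp he hb hg hO hx.1 hx.2).1⟩
        refine Tendsto.prodMk_nhds ?_ (tendsto_comap.mono_left inf_le_right)
        have hc : Continuous fun x : Fin n → ℝ => th p e b ⬝ᵥ (x - b) :=
          (continuous_dot _).comp (continuous_id.sub continuous_const)
        have := hc.tendsto b
        rw [sub_self, dotProduct_zero] at this
        exact this.mono_left (inf_le_left.trans nhdsWithin_le_nhds)
      by_cases hZ : ((0:ℝ), Z) ∈ Par p e b
      · obtain ⟨U, hU, V, hV, hf⟩ : ∃ U ∈ 𝓝[Par p e b] ((0:ℝ), Z),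
            ∃ V ∈ 𝓝[Par p e b] ((0:ℝ), Z'), FacOn U V (Sp p e b) := by
          rcases eq_or_ne Z Z' with rfl | hne
          · exact flat_same hp he hb hg hO hZ
          · exact flat_distinct hp he hb hg hO hZ hZ' hne
        refine ⟨_, inter_mem (hx hU) hmem, V, hFy hV,
          (hf.comp (xpar p e b) id (fun x hx => hx.1) fun y hy => hy).congr fun x hx y _ => ?_⟩
        exact (Sn_xpar (xpar_mem hp he hb hg hO hx.2.1 hx.2.2).2.2 y).symm
      · refine ⟨∅, ?_, Set.univ, univ_mem, FacOn.empty_left⟩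
        have h := hx (inter_mem (nhdsWithin_le_nhds
          ((isClosed_Par hp he hb).isOpen_compl.mem_nhds hZ)) self_mem_nhdsWithin)
        rwa [Set.compl_inter_self, Filter.mem_map, Set.preimage_empty] at h
  refine ⟨{b} ∪ U, ?_, V ∩ _, inter_mem hV hev,
    ((FacOn.snd (fun y => Sn p e b b y) fun y hy => ?_).congr
      fun x hx y _ => by rw [Set.mem_singleton_iff.mp hx]).union_left
      (hf.mono le_rfl Set.inter_subset_left)⟩
  · have hbS : b ∈ Sset p e b :=
      ⟨rfl, ((mem_frontier_hypCone hp he).mp hb.1).1, ((mem_frontier_hypCone hp he).mp hb.1).2⟩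
    have : Sset p e b = insert b (Sset p e b \ {b}) := by
      rw [Set.insert_sdiff_singleton, Set.insert_eq_of_mem hbS]
    rw [this, ← Set.insert_eq]
    exact insert_mem_nhdsWithin_insert hU
  · obtain ⟨-, hβ, hgey⟩ := hy
    simp only [Sn, sub_self, dotProduct_zero, zero_sub]
    rw [← mul_neg]
    exact mul_nonneg (inv_nonneg.mpr hgey.le) (mul_nonneg (sq_nonneg _) (neg_nonneg.mpr hβ))

end Vale.Agent.P256
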