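import Vale.Agent.P256.Flat.Blow

/-!
Factorisation of the supporting functionals near a singular point, in a common limiting direction.
-/

namespace Vale.Agent.P256

open MvPolynomial Filter Topology Matrix

variable {n d : ℕ} {p : MvPolynomial (Fin n) ℝ} {e b : Fin n → ℝ}

theorem quad_subst (T : Fin n → Fin n → ℝ) (P : Fin n → Fin n → ℝ) (D v : Fin n → ℝ)
    (hv : ∀ k, v k = ∑ i, D i * P i k) :
    ∑ k, ∑ l, T k l * v k * v l = ∑ i, ∑ j, (∑ k, ∑ l, T k l * P i k * P j l) * D i * D j := by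
  simp only [hv, Finset.sum_mul, Finset.mul_sum]
  symm
  calc ∑ i, ∑ j, ∑ k, ∑ l, T k l * P i k * P j l * D i * D j
      = ∑ i, ∑ k, ∑ j, ∑ l, T k l * P i k * P j l * D i * D j :=
        Finset.sum_congr rfl fun i _ => Finset.sum_comm
    _ = ∑ k, ∑ i, ∑ j, ∑ l, T k l * P i k * P j l * D i * D j := Finset.sum_comm
    _ = ∑ k, ∑ i, ∑ l, ∑ j, T k l * P i k * P j l * D i * D j :=
        Finset.sum_congr rfl fun k _ => Finset.sum_congr rfl fun i _ => Finset.sum_comm
    _ = ∑ k, ∑ l, ∑ i, ∑ j, T k l * P i k * P j l * D i * D j :=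
        Finset.sum_congr rfl fun k _ => Finset.sum_comm
    _ = _ := by
      refine Finset.sum_congr rfl fun k _ => Finset.sum_congr rfl fun l _ => ?_
      rw [Finset.sum_comm]
      exact Finset.sum_congr rfl fun i _ => Finset.sum_congr rfl fun j _ => by ring

/-- The divided difference of a power. -/
def dd1 (r s : ℝ) (j : ℕ) : ℝ := ∑ i ∈ Finset.range j, r ^ i * s ^ (j - 1 - i)

/-- The second divided difference of a power. -/
def dd2 (r s : ℝ) (j : ℕ) : ℝ := ∑ i ∈ Finset.range j, dd1 r s i * s ^ (j - 1 - i)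

theorem dd1_spec (r s : ℝ) (j : ℕ) : r ^ j - s ^ j = (r - s) * dd1 r s j := by
  rw [dd1, mul_comm]
  exact (geom_sum₂_mul r s j).symm

theorem dd2_spec (r s : ℝ) (j : ℕ) : dd1 r s j - j * s ^ (j - 1) = (r - s) * dd2 r s j := by
  rw [dd2, Finset.mul_sum]
  have h : ∀ i ∈ Finset.range j, (r - s) * (dd1 r s i * s ^ (j - 1 - i))
      = r ^ i * s ^ (j - 1 - i) - s ^ (j - 1) := fun i hi => by
    rw [← mul_assoc, ← dd1_spec, sub_mul, ← pow_add,
      Nat.add_sub_cancel' (by have := Finset.mem_range.mp hi; omega : i ≤ j - 1)]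
  rw [Finset.sum_congr rfl h, Finset.sum_sub_distrib, Finset.sum_const, Finset.card_range,
    nsmul_eq_mul]
  rfl

/-- The Taylor expansion of the blow-up at a boundary parameter, along the tangent space. -/
theorem node_expand {r s : ℝ} {Y v : Fin n → ℝ} (hB : eval (pt s Y) (blow p b) = 0)
    (hv : bgrad p b s Y ⬝ᵥ v = 0) :
    eval (pt r (Y + v)) (blow p b) = brad p b s Y * (r - s) +
      (∑ j ∈ Finset.range (len p b), (r - s) ^ 2 * dd2 r s j * eval Y (qp p b j)) +
      (∑ j ∈ Finset.range (len p b), (r - s) * dd1 r s j * (grad (qp p b j) Y ⬝ᵥ v)) +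
      ∑ j ∈ Finset.range (len p b),
        r ^ j * ∑ k, ∑ l, eval (Sum.elim (Y + v) Y) (tay (qp p b j) k l) * v k * v l := by
  rw [blow_sum] at hB
  rw [bgrad_sum] at hv
  rw [blow_sum, brad_sum, Finset.sum_mul, ← Finset.sum_add_distrib, ← Finset.sum_add_distrib,
    ← Finset.sum_add_distrib, ← sub_eq_zero, ← Finset.sum_sub_distrib]
  rw [show (∑ j ∈ Finset.range (len p b), (r ^ j * eval (Y + v) (qp p b j) -
      (↑j * s ^ (j - 1) * eval Y (qp p b j) * (r - s) +
        (r - s) ^ 2 * dd2 r s j * eval Y (qp p b j) +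
        (r - s) * dd1 r s j * (grad (qp p b j) Y ⬝ᵥ v) +
        r ^ j * ∑ k, ∑ l, eval (Sum.elim (Y + v) Y) (tay (qp p b j) k l) * v k * v l)))
    = ∑ j ∈ Finset.range (len p b),
        (s ^ j * eval Y (qp p b j) + s ^ j * (grad (qp p b j) Y ⬝ᵥ v)) from
    Finset.sum_congr rfl fun j _ => by
      have h1 := tay_spec' (qp p b j) (Y + v) Y
      simp only [Pi.add_apply, add_sub_cancel_left] at h1
      rw [h1]
      have h2 := dd1_spec r s j
      have h3 := dd2_spec r s j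
      rw [show (∑ i, eval Y (pderiv i (qp p b j)) * v i) = grad (qp p b j) Y ⬝ᵥ v from rfl]
      linear_combination (eval Y (qp p b j) + grad (qp p b j) Y ⬝ᵥ v) * h2 +
        (r - s) * eval Y (qp p b j) * h3, Finset.sum_add_distrib, hB, hv, add_zero]

/-- First-order coefficients of a polynomial difference. -/
noncomputable def phi {σ : Type*} [Fintype σ] (P : MvPolynomial σ ℝ) (X Y : σ → ℝ) (o : σ) : ℝ :=
  eval Y (pderiv o P) + ∑ o', eval (Sum.elim X Y) (tay P o o') * (X o' - Y o')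

theorem phi_spec {σ : Type*} [Fintype σ] (P : MvPolynomial σ ℝ) (X Y : σ → ℝ) :
    eval X P - eval Y P = ∑ o, phi P X Y o * (X o - Y o) := by
  rw [tay_spec' P X Y]
  simp only [phi, add_mul, Finset.sum_add_distrib, Finset.sum_mul]
  rw [show ∀ u v w : ℝ, u + v + w - u = v + w from fun u v w => by ring]
  congr 1
  exact Finset.sum_congr rfl fun o _ => Finset.sum_congr rfl fun o' _ => by ring

theorem SepC.phi {α β σ : Type*} [Fintype σ] {Fx : Filter α} {Fy : Filter β}
    (P : MvPolynomial σ ℝ) {X Y : σ → α → β → ℝ} {l : σ → ℝ}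
    (hX : ∀ o, SepC Fx Fy (X o) (l o)) (hY : ∀ o, SepC Fx Fy (Y o) (l o)) (o : σ) :
    SepC Fx Fy (fun x y => phi P (fun o => X o x y) (fun o => Y o x y) o)
      (eval l (pderiv o P)) :=
  ((SepC.eval_poly (pderiv o P) hY).add (SepC.sum Finset.univ _
    (fun o' => eval (Sum.elim l l) (tay P o o') * (l o' - l o')) fun o' _ =>
      (((SepC.eval_poly (tay P o o') (v := fun q x y =>
          Sum.elim (fun o => X o x y) (fun o => Y o x y) q) (l := Sum.elim l l)
        fun q => by rcases q with q | q <;> [exact hX q; exact hY q])).mul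
        ((hX o').sub (hY o'))))).congr (fun x y => rfl) (by simp)

/-- The directional derivative of the blow-up as a polynomial. -/
noncomputable def dblow (p : MvPolynomial (Fin n) ℝ) (e b : Fin n → ℝ) :
    MvPolynomial (Option (Fin n)) ℝ :=
  ∑ i, MvPolynomial.C (e i) * pderiv (some i) (blow p b)

theorem dblow_eval (p : MvPolynomial (Fin n) ℝ) (e b : Fin n → ℝ) (r : ℝ) (X : Fin n → ℝ) :
    eval (pt r X) (dblow p e b) = bgrad p b r X ⬝ᵥ e := by
  simp only [dblow, map_sum, map_mul, eval_C, bgrad, dotProduct]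
  exact Finset.sum_congr rfl fun i _ => mul_comm _ _

/-- The form identity, abstracted. -/
theorem node_algebra {r τ nb v0 w ge G a T K L M H2 h0 hD : ℝ} (hw : w * w = r) (hv : v0 * v0 = nb)
    (hge : ge ≠ 0) (hh : G / ge - 1 + K * a = h0 * τ + hD)
    (heq : a * G + (-nb * τ + (nb * τ ^ 2 * L + v0 * τ * M + H2)) - a ^ 2 * T = 0) :
    (G / ge - r * h0 - (1 - K * a) * (r * L)) * (v0 * τ) * (v0 * τ) +
        (v0 * τ) * w * (-(w * v0) * hD - (1 - K * a) * w * M) +
        r * (-(1 - K * a) * H2 + a ^ 2 * (T + K * G - K * a * T))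
      = G * (r * a + r * τ * (-nb) / ge - τ ^ 2 * (-nb) / ge) := by
  have hh' : G - ge + K * a * ge = (h0 * τ + hD) * ge := by
    rw [← hh]; field_simp
  field_simp
  subst hw
  subst hv
  linear_combination (w * w * v0 * v0 * τ) * hh' + (ge * w * w * (K * a - 1)) * heq

attribute [local irreducible] blow qp tangentForm tay

variable (hp : p.IsHomogeneous d) (he : Hyperbolic p e) (hb : b ∈ Fset p e)
  (hg : grad p b = 0) (hO : Ordinary p e b)

include hp he hb hg hO in
theorem node_form {Z : Fin n → ℝ} (hZ : ((0:ℝ), Z) ∈ Par p e b) {v : Fin n → ℝ} (hv : v ≠ 0)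
    (h1 : grad (tangentForm p b) Z ⬝ᵥ v = 0) (h2 : b ⬝ᵥ v = 0) (h3 : th p e b ⬝ᵥ v = 0) :
    ∑ i, ∑ j, eval (Sum.elim Z Z) (tay (tangentForm p b) i j) * v i * v j < 0 := by
  obtain ⟨hZF, hZ0, hspan, hge⟩ := Par_limit hp he hb hg hO hZ
  obtain ⟨-, ⟨hbZ, hthZ, -⟩, -⟩ := hZ
  obtain ⟨hbK, -⟩ := (mem_frontier_hypCone hp he).mp hb.1
  have hm := two_le_mult hp he hb.1 hg
  have hq := tangent_hyperbolic hp he hbK
  have hqh := tangentForm_homogeneous p b
  have hZK := ((mem_frontier_hypCone hqh hq).mp hZF).1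
  obtain ⟨hm1, hlin⟩ := linear_part hZ0 (hO Z hZF hspan)
  have hgg : grad (tangentForm (tangentForm p b) Z) v = grad (tangentForm p b) Z := by
    funext j
    have := dirderiv_congr (P := tangentForm (tangentForm p b) Z)
      (Q := ∑ i, C (grad (tangentForm p b) Z i) * MvPolynomial.X i) (Y := v) (V := Pi.single j 1)
      (y := v) (v := Pi.single j 1) fun t => by rw [hlin]; simp [dotProduct]
    simpa [Pi.single_apply, grad, pderiv_X, apply_ite] using this
  have hneg := (curv hqh hq hZK (u := v) (by omega) (by rw [hlin, h1])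
    (by rw [hgg]; exact hge)).resolve_right
    (tangent_line hp he hbK hm hO hZF (fun α β hab => hv (by
      have e1 : β = 0 := by
        rw [hab, dotProduct_add, dotProduct_smul, dotProduct_smul, hbZ, smul_zero, zero_add,
          smul_eq_mul, mul_eq_zero] at h2
        exact h2.resolve_right (dot_self_pos (fset_ne hb)).ne'
      rw [hab, e1, zero_smul, add_zero, dotProduct_smul, hthZ, smul_eq_mul, mul_one] at h3
      rw [hab, e1, h3, zero_smul, zero_smul, add_zero])) hspan)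
  have key : lineR (tangentForm p b) Z v = Polynomial.X ^ mult (tangentForm p b) Z *
      lineR (blow (tangentForm p b) Z) (pt 0 v) (pt 1 0) := lineR_blow _ _ _
  have h := congrArg (fun P : Polynomial ℝ => P.coeff 2) key
  rw [hm1, pow_one] at h
  simp only [coeff_two, Polynomial.coeff_X_mul, lineR_coeff_one, Fintype.sum_option, pt_none,
    pt_some, Pi.zero_apply, mul_zero, Finset.sum_const_zero, add_zero, mul_one] at h
  rw [h]
  exact hneg

omit hp he hb hg hO in
/-- Euler's relation at a parameter. -/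
theorem Par_euler {s : ℝ} {Y : Fin n → ℝ} (hB : eval (pt s Y) (blow p b) = 0) :
    bgrad p b s Y ⬝ᵥ Y = s * brad p b s Y := by
  rcases eq_or_ne s 0 with rfl | hs
  · rw [bgrad_zero, zero_mul]
    rw [blow_zero'] at hB
    exact grad_self (tangentForm_homogeneous p b) hB
  · exact (blow_point hs (by rw [blow_spec', hB, mul_zero])).2.2

section coordinates

variable (p e b) (P y : ℝ × (Fin n → ℝ)) (K : ℝ)

/-- The normalised normal. -/
noncomputable def cc (i : Fin n) : ℝ := (bgrad p b y.1 y.2 ⬝ᵥ e)⁻¹ * bgrad p b y.1 y.2 i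

/-- The projected unit vectors. -/
noncomputable def pp (i : Fin n) : Fin n → ℝ := proj (bgrad p b y.1 y.2) e (Pi.single i 1)

/-- The first-order displacement. -/
noncomputable def aa : ℝ := ∑ i, cc p e b y i * (P.2 i - y.2 i)

/-- The tilted point. -/
noncomputable def uu : Fin n → ℝ := fun i => P.2 i - aa p e b P y * e i

/-- The second-order coefficient in direction `e`. -/
noncomputable def tt : ℝ := ∑ i, ∑ k,
  eval (Sum.elim (pt P.1 (uu p e b P y)) (pt P.1 P.2)) (tay (blow p b) (some i) (some k)) *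
    (e i * e k)

/-- The variation of the derivative in direction `e`. -/
noncomputable def vph (o : Option (Fin n)) : ℝ := phi (dblow p e b) (pt P.1 P.2) (pt y.1 y.2) o

/-- The projected second-order coefficients. -/
noncomputable def sj (j : ℕ) (i i' : Fin n) : ℝ :=
  ∑ k, ∑ l, eval (Sum.elim (uu p e b P y) y.2) (tay (qp p b j) k l) * pp p e b y i k *
    pp p e b y i' l

/-- The bounded ratios. -/
noncomputable def rat : Fin (len p b) ⊕ (Fin (len p b) × Fin n) → ℝ := Sum.elim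
  (fun j => if 1 ≤ (j:ℕ) then eval y.2 (qp p b j) / -brad p b y.1 y.2 else 0)
  fun q => if 1 ≤ (q.1:ℕ) then
    (grad (qp p b q.1) y.2 ⬝ᵥ pp p e b y q.2) / √(-brad p b y.1 y.2) else 0

/-- The matrix of the factorising form. -/
noncomputable def gmat : Option (Fin n) → Option (Fin n) → ℝ
  | none, none => (bgrad p b P.1 P.2 ⬝ᵥ e) * (bgrad p b y.1 y.2 ⬝ᵥ e)⁻¹ -
      P.1 * (vph p e b P y none * (bgrad p b y.1 y.2 ⬝ᵥ e)⁻¹) -
      (1 - K * aa p e b P y) * (P.1 * ∑ j, dd2 P.1 y.1 (j : Fin (len p b)) * rat p e b y (Sum.inl j))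
  | none, some i => -(√P.1 * √(-brad p b y.1 y.2)) *
        (vph p e b P y (some i) * (bgrad p b y.1 y.2 ⬝ᵥ e)⁻¹ + K * cc p e b y i) -
      (1 - K * aa p e b P y) * √P.1 *
        ∑ j, dd1 P.1 y.1 (j : Fin (len p b)) * rat p e b y (Sum.inr (j, i))
  | some _, none => 0
  | some i, some i' => -(1 - K * aa p e b P y) *
        (∑ j : Fin (len p b), P.1 ^ (j:ℕ) * sj p e b P y j i i') +
      cc p e b y i * cc p e b y i' * (tt p e b P y + K * (bgrad p b P.1 P.2 ⬝ᵥ e) -
        K * aa p e b P y * tt p e b P y) +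
      K * (b i * b i') + K * (th p e b i * th p e b i')

/-- The coordinates of the factorising form. -/
noncomputable def gvec : Option (Fin n) → ℝ
  | none => √(-brad p b y.1 y.2) * (P.1 - y.1)
  | some i => √P.1 * (P.2 i - y.2 i)

/-- The supporting functional at `y` evaluated at the point with parameter `P`. -/
noncomputable def Sp : ℝ :=
  (bgrad p b y.1 y.2 ⬝ᵥ e)⁻¹ * (P.1 * (bgrad p b y.1 y.2 ⬝ᵥ P.2) - y.1 ^ 2 * brad p b y.1 y.2)

end coordinates

omit hp he hb hg hO in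
theorem Sn_xpar {x : Fin n → ℝ}
    (hdec : (xpar p e b x).1 • (xpar p e b x).2 = x - b) (y : ℝ × (Fin n → ℝ)) :
    Sn p e b x y = Sp p e b (xpar p e b x) y := by
  rw [Sn, Sp, ← hdec, dotProduct_smul, smul_eq_mul]

section limits

variable {α : Filter (ℝ × (Fin n → ℝ))} {β : Filter (ℝ × (Fin n → ℝ))} {Z : Fin n → ℝ}
  (hα : α ≤ 𝓝 ((0:ℝ), Z)) (hβ : β ≤ 𝓝 ((0:ℝ), Z))
  (hge : 0 < grad (tangentForm p b) Z ⬝ᵥ e)

omit hp he hb hg hO in
include hα in
theorem sepc_fst : SepC α β (fun P _ => P.1) 0 :=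
  SepC.left ((continuous_fst.tendsto ((0:ℝ), Z)).mono_left hα)

omit hp he hb hg hO in
include hα in
theorem sepc_fst_snd (i : Fin n) : SepC α β (fun P _ => P.2 i) (Z i) :=
  SepC.left ((((continuous_apply i).comp continuous_snd).tendsto ((0:ℝ), Z)).mono_left hα)

omit hp he hb hg hO in
include hβ in
theorem sepc_snd_fst : SepC α β (fun _ y => y.1) 0 :=
  SepC.right ((continuous_fst.tendsto ((0:ℝ), Z)).mono_left hβ)

omit hp he hb hg hO in
include hβ in
theorem sepc_snd_snd (i : Fin n) : SepC α β (fun _ y => y.2 i) (Z i) :=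
  SepC.right ((((continuous_apply i).comp continuous_snd).tendsto ((0:ℝ), Z)).mono_left hβ)

omit hp he hb hg hO in
theorem bgrad_tendsto {γ : Filter (ℝ × (Fin n → ℝ))} (hγ : γ ≤ 𝓝 ((0:ℝ), Z)) :
    Tendsto (fun y => bgrad p b y.1 y.2 ⬝ᵥ e) γ (𝓝 (grad (tangentForm p b) Z ⬝ᵥ e)) := by
  have h := ((continuous_bgrad_dot p b e).tendsto ((0:ℝ), Z)).mono_left hγ
  simp only [bgrad_zero] at h
  exact h

omit hp he hb hg hO in
include hβ hge in
theorem sepc_geinv : SepC α β (fun _ y => (bgrad p b y.1 y.2 ⬝ᵥ e)⁻¹)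
    (grad (tangentForm p b) Z ⬝ᵥ e)⁻¹ :=
  SepC.right ((bgrad_tendsto hβ).inv₀ hge.ne')

omit hp he hb hg hO in
include hβ hge in
theorem sepc_cc (i : Fin n) : SepC α β (fun _ y => cc p e b y i)
    ((grad (tangentForm p b) Z ⬝ᵥ e)⁻¹ * grad (tangentForm p b) Z i) := by
  refine SepC.mul (sepc_geinv hβ hge) (SepC.right ?_)
  rw [← blow_grad_one]
  simp only [bgrad]
  exact ((continuous_eval_pair (pderiv (some i) (blow p b))).tendsto ((0:ℝ), Z)).mono_left hβ

omit hp he hb hg hO in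
include hβ hge in
theorem sepc_pp (i k : Fin n) : SepC α β (fun _ y => pp p e b y i k)
    ((Pi.single i 1 : Fin n → ℝ) k -
      (grad (tangentForm p b) Z ⬝ᵥ e)⁻¹ * grad (tangentForm p b) Z i * e k) :=
  ((SepC.const _).sub ((sepc_cc hβ hge i).mul (SepC.const (e k)))).congr (fun x y => by
    simp only [pp, cc, proj, Pi.sub_apply, Pi.smul_apply, smul_eq_mul, dotProduct_single, mul_one]
    ring) rfl

omit hp he hb hg hO in
include hα hβ hge in
theorem sepc_aa : SepC α β (aa p e b) 0 :=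
  (SepC.sum Finset.univ _ _ fun i _ => (sepc_cc hβ hge i).mul
    ((sepc_fst_snd hα i).sub (sepc_snd_snd hβ i))).congr (fun x y => rfl) (by simp)

omit hp he hb hg hO in
include hα hβ hge in
theorem sepc_uu (i : Fin n) : SepC α β (fun P y => uu p e b P y i) (Z i) :=
  ((sepc_fst_snd hα i).sub ((sepc_aa hα hβ hge).mul (SepC.const (e i)))).congr (fun x y => rfl)
    (by simp)

omit hp he hb hg hO in
include hα hβ hge in
theorem sepc_tt : SepC α β (tt p e b)
    (∑ i, ∑ k, eval (Sum.elim (pt 0 Z) (pt 0 Z)) (tay (blow p b) (some i) (some k)) *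
      (e i * e k)) := by
  have hv : ∀ o, SepC α β (fun P y => Sum.elim (pt P.1 (uu p e b P y)) (pt P.1 P.2) o)
      (Sum.elim (pt (0:ℝ) Z) (pt (0:ℝ) Z) o) := fun o => by
    rcases o with (_ | o) | (_ | o)
    · exact sepc_fst hα
    · exact sepc_uu hα hβ hge o
    · exact sepc_fst hα
    · exact sepc_fst_snd hα o
  have h1 : ∀ i k : Fin n, SepC α β (fun P y =>
      eval (Sum.elim (pt P.1 (uu p e b P y)) (pt P.1 P.2)) (tay (blow p b) (some i) (some k)) *
        (e i * e k))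
      (eval (Sum.elim (pt 0 Z) (pt 0 Z)) (tay (blow p b) (some i) (some k)) * (e i * e k)) :=
    fun i k => SepC.mul (SepC.eval_poly _ hv) (SepC.const _)
  have h2 := SepC.sum (Finset.univ : Finset (Fin n)) _ _ fun i _ =>
    SepC.sum (Finset.univ : Finset (Fin n)) _ _ fun k _ => h1 i k
  exact h2.congr (fun P y => by simp only [tt]) rfl

omit hp he hb hg hO in
include hα hβ in
theorem sepc_vph (o : Option (Fin n)) :
    SepC α β (fun P y => vph p e b P y o) (eval (pt 0 Z) (pderiv o (dblow p e b))) := by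
  have hX : ∀ o, SepC α β (fun P _ => pt P.1 P.2 o) (pt (0:ℝ) Z o) := fun o => by
    cases o with
    | none => exact sepc_fst hα
    | some i => exact sepc_fst_snd hα i
  have hY : ∀ o, SepC α β (fun _ y => pt y.1 y.2 o) (pt (0:ℝ) Z o) := fun o => by
    cases o with
    | none => exact sepc_snd_fst hβ
    | some i => exact sepc_snd_snd hβ i
  have h := SepC.phi (dblow p e b) hX hY o
  exact h.congr (fun P y => by simp only [vph]) rfl

omit hp he hb hg hO in
include hα hβ hge in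
theorem sepc_sj (j : ℕ) (i i' : Fin n) : SepC α β (fun P y => sj p e b P y j i i')
    (∑ k, ∑ l, eval (Sum.elim Z Z) (tay (qp p b j) k l) *
      ((Pi.single i 1 : Fin n → ℝ) k -
        (grad (tangentForm p b) Z ⬝ᵥ e)⁻¹ * grad (tangentForm p b) Z i * e k) *
      ((Pi.single i' 1 : Fin n → ℝ) l -
        (grad (tangentForm p b) Z ⬝ᵥ e)⁻¹ * grad (tangentForm p b) Z i' * e l)) :=
  SepC.sum _ _ _ fun k _ => SepC.sum _ _ _ fun l _ => ((SepC.eval_poly (tay (qp p b j) k l)
    (v := fun o P y => Sum.elim (uu p e b P y) y.2 o) (l := Sum.elim Z Z) fun o => by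
      rcases o with o | o
      · exact sepc_uu hα hβ hge o
      · exact sepc_snd_snd hβ o).mul (sepc_pp hβ hge i k)).mul (sepc_pp hβ hge i' l)

omit hp he hb hg hO in
theorem SepC.pow {α' β' : Type*} {Fx : Filter α'} {Fy : Filter β'} {f : α' → β' → ℝ} {l : ℝ}
    (hf : SepC Fx Fy f l) (k : ℕ) : SepC Fx Fy (fun x y => f x y ^ k) (l ^ k) := by
  induction k with
  | zero => simpa using SepC.const (Fx := Fx) (Fy := Fy) 1
  | succ k ih => simpa only [pow_succ] using ih.mul hf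

omit hp he hb hg hO in
include hα hβ in
theorem sepc_dd1 (j : ℕ) : SepC α β (fun P y => dd1 P.1 y.1 j) (dd1 0 0 j) :=
  SepC.sum _ _ _ fun i _ => ((sepc_fst hα).pow i).mul ((sepc_snd_fst hβ).pow _)

omit hp he hb hg hO in
include hα hβ in
theorem sepc_dd2 (j : ℕ) : SepC α β (fun P y => dd2 P.1 y.1 j) (dd2 0 0 j) :=
  SepC.sum _ _ _ fun i _ => (sepc_dd1 hα hβ i).mul ((sepc_snd_fst hβ).pow _)

/-- The limit matrix. -/
noncomputable def glim (p : MvPolynomial (Fin n) ℝ) (e b Z : Fin n → ℝ) (K : ℝ) :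
    Option (Fin n) → Option (Fin n) → ℝ
  | none, none => 1
  | none, some _ => 0
  | some _, none => 0
  | some i, some i' => -(∑ k, ∑ l, eval (Sum.elim Z Z) (tay (qp p b 0) k l) *
        ((Pi.single i 1 : Fin n → ℝ) k -
          (grad (tangentForm p b) Z ⬝ᵥ e)⁻¹ * grad (tangentForm p b) Z i * e k) *
        ((Pi.single i' 1 : Fin n → ℝ) l -
          (grad (tangentForm p b) Z ⬝ᵥ e)⁻¹ * grad (tangentForm p b) Z i' * e l)) +
      ((grad (tangentForm p b) Z ⬝ᵥ e)⁻¹ * grad (tangentForm p b) Z i) *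
        ((grad (tangentForm p b) Z ⬝ᵥ e)⁻¹ * grad (tangentForm p b) Z i') *
        ((∑ i, ∑ k, eval (Sum.elim (pt 0 Z) (pt 0 Z)) (tay (blow p b) (some i) (some k)) *
          (e i * e k)) + K * (grad (tangentForm p b) Z ⬝ᵥ e)) +
      K * (b i * b i') + K * (th p e b i * th p e b i')

omit hp he hb hg hO in
include hα hβ hge in
theorem sepc_gmat (K : ℝ) {Lim : Fin (len p b) ⊕ (Fin (len p b) × Fin n) → ℝ}
    (hLim : ∀ o, Tendsto (fun y => rat p e b y o) β (𝓝 (Lim o))) (o o' : Option (Fin n)) :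
    SepC α β (fun P y => gmat p e b P y K o o') (glim p e b Z K o o') := by
  have h1 : SepC α β (fun P y => 1 - K * aa p e b P y) 1 :=
    ((SepC.const 1).sub ((SepC.const K).mul (sepc_aa hα hβ hge))).congr (fun _ _ => rfl) (by simp)
  have hG : SepC α β (fun P _ => bgrad p b P.1 P.2 ⬝ᵥ e) (grad (tangentForm p b) Z ⬝ᵥ e) :=
    SepC.left (bgrad_tendsto hα)
  have hw : SepC α β (fun P _ => √P.1) 0 := by
    refine SepC.left ?_
    have h := (Real.continuous_sqrt.comp continuous_fst).tendsto ((0:ℝ), Z)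
    simp only [Function.comp_apply, Real.sqrt_zero] at h
    exact h.mono_left hα
  have hv : SepC α β (fun _ y => √(-brad p b y.1 y.2)) (√(-brad p b 0 Z)) :=
    SepC.right (((Real.continuous_sqrt.comp
      (continuous_eval_pair (pderiv none (blow p b))).neg).tendsto ((0:ℝ), Z)).mono_left hβ)
  rcases o with _ | i <;> rcases o' with _ | i'
  · exact (((hG.mul (sepc_geinv hβ hge)).sub ((sepc_fst hα).mul ((sepc_vph hα hβ none).mul
      (sepc_geinv hβ hge)))).sub (h1.mul ((sepc_fst hα).mul (SepC.sum Finset.univ _ _ fun (j : Fin (len p b)) _ =>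
        (sepc_dd2 hα hβ j).mul (SepC.right (hLim (Sum.inl j))))))).congr
      (fun _ _ => rfl) (by simp [glim, mul_inv_cancel₀ hge.ne'])
  · exact (((hw.mul hv).neg.mul (((sepc_vph hα hβ (some i')).mul (sepc_geinv hβ hge)).add
      ((SepC.const K).mul (sepc_cc hβ hge i')))).sub ((h1.mul hw).mul
        (SepC.sum Finset.univ _ _ fun (j : Fin (len p b)) _ =>
          (sepc_dd1 hα hβ j).mul (SepC.right (hLim (Sum.inr (j, i'))))))).congr
      (fun _ _ => rfl) (by simp [glim])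
  · exact (SepC.const 0).congr (fun _ _ => rfl) rfl
  · have hsum := (SepC.sum Finset.univ (fun (j : Fin (len p b)) P y =>
        P.1 ^ (j:ℕ) * sj p e b P y j i i') _
        fun j _ => ((sepc_fst (β := β) hα).pow j).mul (sepc_sj hα hβ hge j i i'))
    refine ((((h1.neg.mul hsum).add (((sepc_cc hβ hge i).mul (sepc_cc hβ hge i')).mul
      (((sepc_tt hα hβ hge).add ((SepC.const K).mul hG)).sub
        (((SepC.const K).mul (sepc_aa hα hβ hge)).mul (sepc_tt hα hβ hge))))).add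
      (SepC.const (K * (b i * b i')))).add (SepC.const (K * (th p e b i * th p e b i')))).congr
      (fun _ _ => rfl) ?_
    rw [Finset.sum_eq_single (⟨0, Nat.succ_pos _⟩ : Fin (len p b)) (fun j _ hj => by
      rw [zero_pow (fun h => hj (Fin.ext h)), zero_mul]) (by simp)]
    simp [glim]

end limits

include hp he hb hg hO in
theorem glim_pos {Z : Fin n → ℝ} (hZ : ((0:ℝ), Z) ∈ Par p e b) :
    ∃ K δ : ℝ, 0 < δ ∧ ∀ v : Option (Fin n) → ℝ,
      δ * ∑ o, v o ^ 2 ≤ ∑ o, ∑ o', glim p e b Z K o o' * v o * v o' := by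
  obtain ⟨-, -, -, hge⟩ := Par_limit hp he hb hg hO hZ
  set c0 : Fin n → ℝ := (grad (tangentForm p b) Z ⬝ᵥ e)⁻¹ • grad (tangentForm p b) Z with hc0
  set T0 := ∑ i, ∑ k, eval (Sum.elim (pt 0 Z) (pt 0 Z)) (tay (blow p b) (some i) (some k)) *
    (e i * e k) with hT0
  obtain ⟨A, hA⟩ : ∃ A : Fin n → Fin n → ℝ,
      A = fun k l => eval (Sum.elim Z Z) (tay (qp p b 0) k l) := ⟨_, rfl⟩
  let Q : (Fin n → ℝ) → ℝ := fun v => -(∑ k, ∑ l, A k l *
    (v k - (c0 ⬝ᵥ v) * e k) * (v l - (c0 ⬝ᵥ v) * e l)) + T0 * (c0 ⬝ᵥ v) ^ 2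
  let L : (Fin n → ℝ) → ℝ := fun v =>
    (grad (tangentForm p b) Z ⬝ᵥ e) * (c0 ⬝ᵥ v) ^ 2 + (b ⬝ᵥ v) ^ 2 + (th p e b ⬝ᵥ v) ^ 2
  have hcd := continuous_dot c0
  obtain ⟨K, δ, -, hδ, hKpos⟩ := pd_exists Q L (by fun_prop)
    (((continuous_const.mul (hcd.pow 2)).add ((continuous_dot _).pow 2)).add
      ((continuous_dot _).pow 2))
    (fun t v => by
      simp only [Q, dotProduct_smul, smul_eq_mul, Pi.smul_apply, mul_add, mul_neg, Finset.mul_sum]
      congr 1
      · exact congrArg Neg.neg (Finset.sum_congr rfl fun k _ =>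
          Finset.sum_congr rfl fun l _ => by ring)
      · ring)
    (fun t v => by simp only [L, dotProduct_smul, smul_eq_mul]; ring)
    (fun v => add_nonneg (add_nonneg (mul_nonneg hge.le (sq_nonneg _)) (sq_nonneg _)) (sq_nonneg _))
    (fun v hv hL => by
      obtain ⟨h12, h3⟩ := (add_eq_zero_iff_of_nonneg
        (add_nonneg (mul_nonneg hge.le (sq_nonneg _)) (sq_nonneg _)) (sq_nonneg _)).mp hL
      obtain ⟨h1, h2⟩ := (add_eq_zero_iff_of_nonneg (mul_nonneg hge.le (sq_nonneg _))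
        (sq_nonneg _)).mp h12
      rw [mul_eq_zero, or_iff_right hge.ne', sq_eq_zero_iff] at h1
      rw [sq_eq_zero_iff] at h2 h3
      have h1' : grad (tangentForm p b) Z ⬝ᵥ v = 0 := by
        rw [hc0, smul_dotProduct, smul_eq_mul, mul_eq_zero,
          or_iff_right (inv_ne_zero hge.ne')] at h1
        exact h1
      have := node_form hp he hb hg hO hZ hv h1' h2 h3
      simp only [Q, h1, zero_mul, sub_zero, hA, qp_zero]
      linarith)
  refine ⟨K, min δ 1, lt_min hδ one_pos, fun v => ?_⟩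
  have hexp : ∀ (g v : Fin n → ℝ), ∑ i, ∑ j, g i * g j * v i * v j = (g ⬝ᵥ v) ^ 2 := fun g v => by
    simp only [dotProduct, sq, Finset.sum_mul_sum]
    exact Finset.sum_congr rfl fun i _ => Finset.sum_congr rfl fun j _ => by ring
  set w : Fin n → ℝ := fun i => v (some i) with hw
  have hglim : ∀ i i', glim p e b Z K (some i) (some i') * v (some i) * v (some i') =
      -((∑ k, ∑ l, A k l * ((Pi.single i 1 : Fin n → ℝ) k - c0 i * e k) *
        ((Pi.single i' 1 : Fin n → ℝ) l - c0 i' * e l)) * w i * w i') +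
      (T0 + K * (grad (tangentForm p b) Z ⬝ᵥ e)) * (c0 i * c0 i' * w i * w i') +
      K * (b i * b i' * w i * w i') + K * (th p e b i * th p e b i' * w i * w i') := fun i i' => by
    simp only [glim, hw, hA, hc0, hT0, Pi.smul_apply, smul_eq_mul]
    ring
  have e2 : ∑ k, ∑ l, A k l * (w k - (c0 ⬝ᵥ w) * e k) * (w l - (c0 ⬝ᵥ w) * e l)
      = ∑ i, ∑ i', (∑ k, ∑ l, A k l * ((Pi.single i 1 : Fin n → ℝ) k - c0 i * e k) *
        ((Pi.single i' 1 : Fin n → ℝ) l - c0 i' * e l)) * w i * w i' :=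
    quad_subst _ (fun i k => (Pi.single i 1 : Fin n → ℝ) k - c0 i * e k) w _ fun k => by
      simp only [mul_sub, Finset.sum_sub_distrib, dotProduct, Finset.sum_mul]
      congr 1
      · simp [Pi.single_apply]
      · exact Finset.sum_congr rfl fun i _ => by ring
  have e3 := hKpos w
  simp only [Q, L, e2] at e3
  simp only [Fintype.sum_option, show ∀ j, glim p e b Z K none (some j) = 0 from fun _ => rfl,
    show ∀ i, glim p e b Z K (some i) none = 0 from fun _ => rfl,
    show glim p e b Z K none none = 1 from rfl, zero_mul, Finset.sum_const_zero, add_zero,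
    zero_add, one_mul, hglim, Finset.sum_add_distrib, Finset.sum_neg_distrib, ← Finset.mul_sum,
    hexp]
  nlinarith [min_le_left δ 1, min_le_right δ 1, sq_nonneg (v none),
    Finset.sum_nonneg (fun i (_ : i ∈ Finset.univ) => sq_nonneg (w i))]

omit hp he hb hg hO in
theorem rat_mul {y : ℝ × (Fin n → ℝ)} {C : ℝ} (hβ : brad p b y.1 y.2 ≤ 0)
    (hy : ∀ j, 1 ≤ j → j < len p b → |eval y.2 (qp p b j)| ≤ C * -brad p b y.1 y.2 ∧
      ∀ i, |grad (qp p b j) y.2 ⬝ᵥ pp p e b y i| ≤ C * √(-brad p b y.1 y.2))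
    (r : ℝ) (j : Fin (len p b)) :
    dd2 r y.1 j * eval y.2 (qp p b j)
        = -brad p b y.1 y.2 * (dd2 r y.1 j * rat p e b y (Sum.inl j)) ∧
      ∀ i, dd1 r y.1 j * (grad (qp p b j) y.2 ⬝ᵥ pp p e b y i)
        = √(-brad p b y.1 y.2) * (dd1 r y.1 j * rat p e b y (Sum.inr (j, i))) := by
  rcases Nat.eq_zero_or_pos (j:ℕ) with h | h
  · exact ⟨by simp [rat, h, dd2], fun i => by simp [rat, h, dd1]⟩
  have h' : 1 ≤ (j:ℕ) := h
  refine ⟨?_, fun i => ?_⟩
  · simp only [rat, Sum.elim_inl, if_pos h']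
    rcases eq_or_ne (-brad p b y.1 y.2) 0 with h0 | h0
    · have := (hy j h' j.isLt).1
      rw [h0, mul_zero] at this
      rw [abs_nonpos_iff.mp this, h0, zero_mul, mul_zero]
    · conv_rhs => rw [mul_left_comm, mul_div_cancel₀ _ h0]
  · simp only [rat, Sum.elim_inr, if_pos h']
    rcases eq_or_ne (√(-brad p b y.1 y.2)) 0 with h0 | h0
    · have := (hy j h' j.isLt).2 i
      rw [h0, mul_zero] at this
      rw [abs_nonpos_iff.mp this, h0, mul_zero, zero_mul]
    · field_simp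

omit hp he hb hg hO in
theorem aa_eq (P y : ℝ × (Fin n → ℝ)) : aa p e b P y
    = (bgrad p b y.1 y.2 ⬝ᵥ (P.2 - y.2)) / (bgrad p b y.1 y.2 ⬝ᵥ e) := by
  rw [div_eq_inv_mul]
  simp only [aa, cc, dotProduct, Finset.mul_sum, mul_assoc, Pi.sub_apply]

omit hp he hb hg hO in
theorem uu_eq (P y : ℝ × (Fin n → ℝ)) :
    uu p e b P y = y.2 + proj (bgrad p b y.1 y.2) e (P.2 - y.2) := by
  funext i
  simp only [uu, proj, ← aa_eq, Pi.add_apply, Pi.sub_apply, Pi.smul_apply, smul_eq_mul]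
  ring

omit hp he hb hg hO in
/-- The two expansions at a pair of parameters. -/
theorem pair_expand {P y : ℝ × (Fin n → ℝ)} {C : ℝ} (hBx : eval (pt P.1 P.2) (blow p b) = 0)
    (hBy : eval (pt y.1 y.2) (blow p b) = 0) (hge : bgrad p b y.1 y.2 ⬝ᵥ e ≠ 0)
    (hβ : brad p b y.1 y.2 ≤ 0)
    (hy : ∀ j, 1 ≤ j → j < len p b → |eval y.2 (qp p b j)| ≤ C * -brad p b y.1 y.2 ∧
      ∀ i, |grad (qp p b j) y.2 ⬝ᵥ pp p e b y i| ≤ C * √(-brad p b y.1 y.2)) :
    aa p e b P y * (bgrad p b P.1 P.2 ⬝ᵥ e) + (-(-brad p b y.1 y.2) * (P.1 - y.1) +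
      (-brad p b y.1 y.2 * (P.1 - y.1) ^ 2 *
          (∑ j, dd2 P.1 y.1 (j : Fin (len p b)) * rat p e b y (Sum.inl j)) +
        √(-brad p b y.1 y.2) * (P.1 - y.1) * (∑ i, (P.2 - y.2) i *
          ∑ j, dd1 P.1 y.1 (j : Fin (len p b)) * rat p e b y (Sum.inr (j, i))) +
        ∑ i, ∑ i', (∑ j : Fin (len p b), P.1 ^ (j:ℕ) * sj p e b P y j i i') *
          (P.2 - y.2) i * (P.2 - y.2) i')) -
      aa p e b P y ^ 2 * tt p e b P y = 0 := by
  have hP2 := node_expand (p := p) (b := b) (r := P.1) hBy (proj_perp hge (P.2 - y.2))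
  rw [← uu_eq] at hP2
  simp only [← Fin.sum_univ_eq_sum_range] at hP2
  have htay := tay_spec' (blow p b) (pt P.1 (uu p e b P y)) (pt P.1 P.2)
  have hd : ∀ i, uu p e b P y i - P.2 i = -(aa p e b P y * e i) := fun i => by
    simp only [uu]; ring
  have heq : eval (pt P.1 (uu p e b P y)) (blow p b)
      = -(aa p e b P y * (bgrad p b P.1 P.2 ⬝ᵥ e)) + aa p e b P y ^ 2 * tt p e b P y := by
    rw [htay, hBx, zero_add]
    simp only [Fintype.sum_option, pt_none, pt_some, sub_self, mul_zero, zero_mul, zero_add,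
      Finset.sum_const_zero, hd]
    congr 1
    · simp only [dotProduct, Finset.mul_sum, ← Finset.sum_neg_distrib, bgrad]
      exact Finset.sum_congr rfl fun i _ => by ring
    · simp only [tt, Finset.mul_sum]
      exact Finset.sum_congr rfl fun i _ => Finset.sum_congr rfl fun k _ => by ring
  have e1 : ∑ j : Fin (len p b), (P.1 - y.1) ^ 2 * dd2 P.1 y.1 j * eval y.2 (qp p b j)
      = -brad p b y.1 y.2 * (P.1 - y.1) ^ 2 *
          ∑ j, dd2 P.1 y.1 (j : Fin (len p b)) * rat p e b y (Sum.inl j) := by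
    rw [Finset.mul_sum]
    exact Finset.sum_congr rfl fun j _ => by
      linear_combination (P.1 - y.1) ^ 2 * (rat_mul hβ hy P.1 j).1
  have e2 : ∑ j : Fin (len p b), (P.1 - y.1) * dd1 P.1 y.1 j *
        (grad (qp p b j) y.2 ⬝ᵥ proj (bgrad p b y.1 y.2) e (P.2 - y.2))
      = √(-brad p b y.1 y.2) * (P.1 - y.1) * (∑ i, (P.2 - y.2) i *
          ∑ j, dd1 P.1 y.1 (j : Fin (len p b)) * rat p e b y (Sum.inr (j, i))) := by
    simp only [Finset.mul_sum]
    rw [Finset.sum_comm (s := (Finset.univ : Finset (Fin n)))]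
    refine Finset.sum_congr rfl fun j _ => ?_
    rw [proj_single, dotProduct_sum, Finset.mul_sum]
    refine Finset.sum_congr rfl fun i _ => ?_
    rw [dotProduct_smul, smul_eq_mul]
    have h := (rat_mul hβ hy P.1 j).2 i
    rw [pp] at h
    linear_combination ((P.1 - y.1) * (P.2 - y.2) i) * h
  have e3 : ∑ j : Fin (len p b), P.1 ^ (j:ℕ) * ∑ k, ∑ l,
        eval (Sum.elim (uu p e b P y) y.2) (tay (qp p b j) k l) *
          proj (bgrad p b y.1 y.2) e (P.2 - y.2) k * proj (bgrad p b y.1 y.2) e (P.2 - y.2) l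
      = ∑ i, ∑ i', (∑ j : Fin (len p b), P.1 ^ (j:ℕ) * sj p e b P y j i i') *
          (P.2 - y.2) i * (P.2 - y.2) i' := by
    have hv : ∀ k, proj (bgrad p b y.1 y.2) e (P.2 - y.2) k
        = ∑ i, (P.2 - y.2) i * pp p e b y i k := fun k => by
      rw [proj_single, Finset.sum_apply]; rfl
    simp only [Finset.sum_mul]
    rw [Finset.sum_congr rfl fun i (_ : i ∈ (Finset.univ : Finset (Fin n))) => Finset.sum_comm,
      Finset.sum_comm (s := (Finset.univ : Finset (Fin n)))]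
    refine Finset.sum_congr rfl fun j _ => ?_
    rw [quad_subst _ (fun i k => pp p e b y i k) _ _ hv, Finset.mul_sum]
    refine Finset.sum_congr rfl fun i _ => ?_
    rw [Finset.mul_sum]
    refine Finset.sum_congr rfl fun i' _ => ?_
    simp only [sj]
    ring
  linear_combination heq - hP2 - e1 - e2 - e3

omit hp he hb hg hO in
theorem pair_first {P y : ℝ × (Fin n → ℝ)} (hge : bgrad p b y.1 y.2 ⬝ᵥ e ≠ 0) (K : ℝ) :
    (bgrad p b P.1 P.2 ⬝ᵥ e) / (bgrad p b y.1 y.2 ⬝ᵥ e) - 1 + K * aa p e b P y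
      = (vph p e b P y none * (bgrad p b y.1 y.2 ⬝ᵥ e)⁻¹) * (P.1 - y.1) +
        ∑ i, (P.2 - y.2) i * (vph p e b P y (some i) * (bgrad p b y.1 y.2 ⬝ᵥ e)⁻¹ +
          K * cc p e b y i) := by
  have h := phi_spec (dblow p e b) (pt P.1 P.2) (pt y.1 y.2)
  rw [dblow_eval, dblow_eval, Fintype.sum_option] at h
  simp only [pt_none, pt_some] at h
  have e1 : (bgrad p b P.1 P.2 ⬝ᵥ e) / (bgrad p b y.1 y.2 ⬝ᵥ e) - 1 = (bgrad p b y.1 y.2 ⬝ᵥ e)⁻¹ *
      (bgrad p b P.1 P.2 ⬝ᵥ e - bgrad p b y.1 y.2 ⬝ᵥ e) := by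
    rw [mul_sub, inv_mul_cancel₀ hge, div_eq_inv_mul]
  rw [e1, h, aa, mul_add, Finset.mul_sum, Finset.mul_sum, add_assoc, ← Finset.sum_add_distrib]
  congr 1
  · simp only [vph]; ring
  · refine Finset.sum_congr rfl fun i _ => ?_
    simp only [vph, Pi.sub_apply]
    ring

omit hp he hb hg hO in
/-- The value of the form. -/
theorem pair_value {P y : ℝ × (Fin n → ℝ)} {C : ℝ} (hP : P ∈ Par p e b) (hy' : y ∈ Par p e b)
    (hge : bgrad p b y.1 y.2 ⬝ᵥ e ≠ 0) (hG : bgrad p b P.1 P.2 ⬝ᵥ e ≠ 0)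
    (hβ : brad p b y.1 y.2 ≤ 0)
    (hy : ∀ j, 1 ≤ j → j < len p b → |eval y.2 (qp p b j)| ≤ C * -brad p b y.1 y.2 ∧
      ∀ i, |grad (qp p b j) y.2 ⬝ᵥ pp p e b y i| ≤ C * √(-brad p b y.1 y.2)) (K : ℝ) :
    (bgrad p b P.1 P.2 ⬝ᵥ e)⁻¹ *
        (∑ o, ∑ o', gmat p e b P y K o o' * gvec p b P y o * gvec p b P y o')
      = Sp p e b P y := by
  obtain ⟨hr, ⟨hbX, htX, -⟩, hBx⟩ := hP
  obtain ⟨hs, ⟨hbY, htY, -⟩, hBy⟩ := hy'
  set D := P.2 - y.2 with hD
  set G := bgrad p b P.1 P.2 ⬝ᵥ e with hGdef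
  set nb := -brad p b y.1 y.2 with hnb
  set L2 := ∑ j, dd2 P.1 y.1 (j : Fin (len p b)) * rat p e b y (Sum.inl j) with hL2
  set M := ∑ i, D i * ∑ j, dd1 P.1 y.1 (j : Fin (len p b)) * rat p e b y (Sum.inr (j, i)) with hM
  set H2 := ∑ i, ∑ i', (∑ j : Fin (len p b), P.1 ^ (j:ℕ) * sj p e b P y j i i') * D i * D i'
    with hH2
  set hDs := ∑ i, D i * (vph p e b P y (some i) * (bgrad p b y.1 y.2 ⬝ᵥ e)⁻¹ + K * cc p e b y i)
    with hhDs
  have hww : √P.1 * √P.1 = P.1 := Real.mul_self_sqrt hr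
  have halg := node_algebra (w := √P.1) (v0 := √nb) (τ := P.1 - y.1) (L := L2) (M := M) (H2 := H2)
    (T := tt p e b P y) (K := K) hww (Real.mul_self_sqrt (neg_nonneg.mpr hβ)) hge
    (pair_first hge K) (pair_expand hBx hBy hge hβ hy)
  have hSp : Sp p e b P y = P.1 * aa p e b P y +
      P.1 * (P.1 - y.1) * -nb / (bgrad p b y.1 y.2 ⬝ᵥ e) -
      (P.1 - y.1) ^ 2 * -nb / (bgrad p b y.1 y.2 ⬝ᵥ e) := by
    have hgX : bgrad p b y.1 y.2 ⬝ᵥ P.2
        = bgrad p b y.1 y.2 ⬝ᵥ D + y.1 * brad p b y.1 y.2 := by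
      rw [hD, dotProduct_sub, Par_euler hBy]; ring
    rw [Sp, aa_eq, ← hD, hgX, hnb, neg_neg]
    field_simp
    ring
  have hbD : b ⬝ᵥ D = 0 := by rw [hD, dotProduct_sub, hbY, hbX, sub_zero]
  have htD : th p e b ⬝ᵥ D = 0 := by rw [hD, dotProduct_sub, htY, htX, sub_self]
  have hcD : cc p e b y ⬝ᵥ D = aa p e b P y := rfl
  have hexp : ∀ (g v : Fin n → ℝ), ∑ i, ∑ j, g i * g j * v i * v j = (g ⬝ᵥ v) ^ 2 := fun g v => by
    simp only [dotProduct, sq, Finset.sum_mul_sum]
    exact Finset.sum_congr rfl fun i _ => Finset.sum_congr rfl fun j _ => by ring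
  have c1 : ∑ i, gmat p e b P y K none (some i) * gvec p b P y none * gvec p b P y (some i) =
      (√nb * (P.1 - y.1)) * √P.1 *
        (-(√P.1 * √nb) * hDs - (1 - K * aa p e b P y) * √P.1 * M) := by
    rw [hhDs, hM]
    simp only [Finset.mul_sum, mul_sub, ← Finset.sum_sub_distrib]
    refine Finset.sum_congr rfl fun i _ => ?_
    simp only [gmat, gvec, hD, Pi.sub_apply, ← hnb, Finset.mul_sum, Finset.sum_mul, sub_mul]
    congr 1
    · ring
    · exact Finset.sum_congr rfl fun j _ => by ring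
  have c3 : ∑ i, ∑ i', gmat p e b P y K (some i) (some i') * gvec p b P y (some i) *
      gvec p b P y (some i') = P.1 * (-(1 - K * aa p e b P y) * H2 +
        aa p e b P y ^ 2 * (tt p e b P y + K * G - K * aa p e b P y * tt p e b P y)) := by
    have e1 : ∀ i i', gmat p e b P y K (some i) (some i') * gvec p b P y (some i) *
        gvec p b P y (some i') =
        P.1 * (-(1 - K * aa p e b P y) *
          ((∑ j : Fin (len p b), P.1 ^ (j:ℕ) * sj p e b P y j i i') * D i * D i')) +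
        P.1 * ((tt p e b P y + K * G - K * aa p e b P y * tt p e b P y) *
          (cc p e b y i * cc p e b y i' * D i * D i')) +
        P.1 * K * (b i * b i' * D i * D i') +
        P.1 * K * (th p e b i * th p e b i' * D i * D i') := fun i i' => by
      simp only [gmat, gvec, hD, hGdef, Pi.sub_apply]
      linear_combination ((P.2 i - y.2 i) * (P.2 i' - y.2 i') *
        (-(1 - K * aa p e b P y) *
            (∑ j : Fin (len p b), P.1 ^ (j:ℕ) * sj p e b P y j i i') +
          cc p e b y i * cc p e b y i' * (tt p e b P y + K * (bgrad p b P.1 P.2 ⬝ᵥ e) -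
            K * aa p e b P y * tt p e b P y) +
          K * (b i * b i') + K * (th p e b i * th p e b i'))) * hww
    simp only [e1, Finset.sum_add_distrib, ← Finset.mul_sum, hexp, hbD, htD, hcD, ← hH2]
    ring
  have hsum : ∑ o, ∑ o', gmat p e b P y K o o' * gvec p b P y o * gvec p b P y o'
      = G * (P.1 * aa p e b P y + P.1 * (P.1 - y.1) * -nb / (bgrad p b y.1 y.2 ⬝ᵥ e) -
        (P.1 - y.1) ^ 2 * -nb / (bgrad p b y.1 y.2 ⬝ᵥ e)) := by
    rw [← halg]
    simp only [Fintype.sum_option, Finset.sum_add_distrib, c1, c3,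
      show ∀ i, gmat p e b P y K (some i) none = 0 from fun _ => rfl, zero_mul,
      Finset.sum_const_zero, zero_add]
    simp only [gmat, gvec, ← hnb, ← hGdef, ← hL2, div_eq_mul_inv]
    ring
  rw [hsum, ← hSp, ← mul_assoc, inv_mul_cancel₀ hG, one_mul]

include hp he hb hg hO in
/-- Common limiting direction. -/
theorem flat_same {Z : Fin n → ℝ} (hZ : ((0:ℝ), Z) ∈ Par p e b) :
    ∃ U ∈ 𝓝[Par p e b] ((0:ℝ), Z), ∃ V ∈ 𝓝[Par p e b] ((0:ℝ), Z),
      FacOn U V (Sp p e b) := by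
  obtain ⟨-, -, -, hge⟩ := Par_limit hp he hb hg hO hZ
  obtain ⟨C, hC, hbnd⟩ := node_bounds hp he hb hg hO hZ
  obtain ⟨K, δ, hδ, hK⟩ := glim_pos hp he hb hg hO hZ
  refine glue_bounded (rat p e b) C (hbnd.mono fun y hy o => ?_) fun Lim => ?_
  · obtain ⟨hβ, hy⟩ := hy
    rcases o with j | q <;> simp only [rat, Sum.elim_inl, Sum.elim_inr] <;> split_ifs with hj
    · rw [abs_div, abs_of_nonneg (neg_nonneg.mpr hβ)]
      exact div_le_of_le_mul₀ (neg_nonneg.mpr hβ) hC (hy j hj j.isLt).1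
    · simpa using hC
    · rw [abs_div, abs_of_nonneg (Real.sqrt_nonneg _)]
      exact div_le_of_le_mul₀ (Real.sqrt_nonneg _) hC ((hy q.1 hj q.1.isLt).2 q.2)
    · simpa using hC
  set Fx := 𝓝[Par p e b] ((0:ℝ), Z) with hFx
  set Fy := Fx ⊓ comap (rat p e b) (𝓝 Lim) with hFy
  have hx0 : Fx ≤ 𝓝 ((0:ℝ), Z) := nhdsWithin_le_nhds
  have hy0 : Fy ≤ 𝓝 ((0:ℝ), Z) := inf_le_left.trans hx0
  obtain ⟨U, hU, V, hV, hfac⟩ := facOn_form_option (Fx := Fx) (Fy := Fy)
    (fun o o' P y => gmat p e b P y K o o') (glim p e b Z K)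
    (fun o o' => sepc_gmat hx0 hy0 hge K (Lim := Lim)
      (fun q => ((continuous_apply q).tendsto Lim).comp (tendsto_comap.mono_left inf_le_right)) o o')
    hδ hK
  have hz : ∀ o, Sep fun P y => gvec p b P y o := fun o => by
    rcases o with _ | i
    · exact ((((Sep.left fun P : ℝ × (Fin n → ℝ) => P.1).add
        (Sep.right fun y : ℝ × (Fin n → ℝ) => -y.1)).mul_fun (fun _ => 1)
          fun y => √(-brad p b y.1 y.2)).congr fun P y => by simp only [gvec]; ring)
    · exact ((((Sep.left fun P : ℝ × (Fin n → ℝ) => P.2 i).add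
        (Sep.right fun y : ℝ × (Fin n → ℝ) => -y.2 i)).mul_fun (fun P => √P.1)
          fun _ => 1).congr fun P y => by simp only [gvec]; ring)
  have hx1 : ∀ᶠ P in Fx, P ∈ Par p e b ∧ 0 < bgrad p b P.1 P.2 ⬝ᵥ e :=
    Eventually.and self_mem_nhdsWithin ((bgrad_tendsto hx0).eventually (lt_mem_nhds hge))
  refine ⟨_, inter_mem hU hx1, _,
    inter_mem hV ((hx1.filter_mono inf_le_left).and (hbnd.filter_mono inf_le_left)),
    (((hfac (fun o P y => gvec p b P y o) hz).mono Set.inter_subset_left Set.inter_subset_left).mul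
      (fun P => (bgrad p b P.1 P.2 ⬝ᵥ e)⁻¹) (fun _ => 1)
      (fun P hP => (inv_pos.mpr hP.2.2).le) fun _ _ => zero_le_one).congr fun P hP y hy => ?_⟩
  rw [mul_one]
  exact pair_value hP.2.1 hy.2.1.1 hy.2.1.2.ne' hP.2.2.ne' hy.2.2.1 hy.2.2.2 K

end Vale.Agent.P256
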