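import Vale.Agent.P256.Flat.NodeLocal
import Vale.Agent.P256.Main

/-!
Multiplier rules for linear functionals on small pieces of the boundary.
-/

namespace Vale.Agent.P256

open MvPolynomial Filter Topology Matrix

attribute [local irreducible] blow qp tangentForm tay

variable {n d : ℕ} {p : MvPolynomial (Fin n) ℝ} {e : Fin n → ℝ}

/-- Farkas' lemma for two functionals on a hyperplane. -/
theorem farkas_two {a l u₁ u₂ w₀ : Fin n → ℝ} (ha : a ⬝ᵥ w₀ = 0) (h₁ : 0 < u₁ ⬝ᵥ w₀)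
    (h₂ : 0 < u₂ ⬝ᵥ w₀)
    (h : ∀ w, a ⬝ᵥ w = 0 → 0 < u₁ ⬝ᵥ w → 0 < u₂ ⬝ᵥ w → 0 ≤ l ⬝ᵥ w) :
    ∃ c₁ c₂ : ℝ, 0 ≤ c₁ ∧ 0 ≤ c₂ ∧
      ∀ w, a ⬝ᵥ w = 0 → l ⬝ᵥ w = c₁ * (u₁ ⬝ᵥ w) + c₂ * (u₂ ⬝ᵥ w) := by
  have h' : ∀ w, a ⬝ᵥ w = 0 → 0 ≤ u₁ ⬝ᵥ w → 0 ≤ u₂ ⬝ᵥ w → 0 ≤ l ⬝ᵥ w := by
    intro w hw hw1 hw2
    have ht : Tendsto (fun ε : ℝ => l ⬝ᵥ w + ε * (l ⬝ᵥ w₀)) (𝓝[>] 0) (𝓝 (l ⬝ᵥ w)) := by
      have hc : Continuous fun ε : ℝ => l ⬝ᵥ w + ε * (l ⬝ᵥ w₀) := by fun_prop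
      simpa using (hc.tendsto 0).mono_left nhdsWithin_le_nhds
    refine ge_of_tendsto ht ?_
    filter_upwards [self_mem_nhdsWithin] with ε hε
    replace hε : 0 < ε := hε
    have := h (w + ε • w₀) (by rw [dotProduct_add, dotProduct_smul, hw, ha, smul_zero, add_zero])
      (by rw [dotProduct_add, dotProduct_smul, smul_eq_mul]; positivity)
      (by rw [dotProduct_add, dotProduct_smul, smul_eq_mul]; positivity)
    rwa [dotProduct_add, dotProduct_smul, smul_eq_mul] at this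
  have h0 : ∀ w, a ⬝ᵥ w = 0 → u₁ ⬝ᵥ w = 0 → u₂ ⬝ᵥ w = 0 → l ⬝ᵥ w = 0 := fun w hw hw1 hw2 => by
    have e1 := h' w hw hw1.ge hw2.ge
    have e2 := h' (-w) (by rw [dotProduct_neg, hw, neg_zero])
      (by rw [dotProduct_neg, hw1, neg_zero]) (by rw [dotProduct_neg, hw2, neg_zero])
    rw [dotProduct_neg] at e2
    linarith
  by_cases hP : ∃ v, a ⬝ᵥ v = 0 ∧ u₁ ⬝ᵥ v = 1 ∧ u₂ ⬝ᵥ v = 0
  · obtain ⟨v, hv, hv1, hv2⟩ := hP
    set q := (u₂ ⬝ᵥ w₀)⁻¹ • (w₀ - (u₁ ⬝ᵥ w₀) • v) with hq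
    have hqa : a ⬝ᵥ q = 0 := by
      simp only [hq, dotProduct_smul, dotProduct_sub, ha, hv, smul_zero, sub_zero]
    have hq1 : u₁ ⬝ᵥ q = 0 := by
      simp only [hq, dotProduct_smul, dotProduct_sub, hv1, smul_eq_mul, mul_one, sub_self, mul_zero]
    have hq2 : u₂ ⬝ᵥ q = 1 := by
      simp only [hq, dotProduct_smul, dotProduct_sub, hv2, smul_eq_mul, mul_zero, sub_zero]
      exact inv_mul_cancel₀ h₂.ne'
    refine ⟨l ⬝ᵥ v, l ⬝ᵥ q, h' v hv (hv1 ▸ zero_le_one) hv2.ge,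
      h' q hqa hq1.ge (hq2 ▸ zero_le_one), fun w hw => ?_⟩
    have := h0 (w - (u₁ ⬝ᵥ w) • v - (u₂ ⬝ᵥ w) • q)
      (by simp only [dotProduct_sub, dotProduct_smul, hw, hv, hqa, smul_zero, sub_zero])
      (by simp only [dotProduct_sub, dotProduct_smul, hv1, hq1, smul_eq_mul, mul_one, mul_zero,
        sub_self])
      (by simp only [dotProduct_sub, dotProduct_smul, hv2, hq2, smul_eq_mul, mul_one, mul_zero,
        sub_zero, sub_self])
    simp only [dotProduct_sub, dotProduct_smul, smul_eq_mul] at this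
    linarith
  · have hz : ∀ v, a ⬝ᵥ v = 0 → u₂ ⬝ᵥ v = 0 → u₁ ⬝ᵥ v = 0 := fun v hv hv2 => by
      by_contra hne
      exact hP ⟨(u₁ ⬝ᵥ v)⁻¹ • v, by simp [dotProduct_smul, hv],
        by simp [dotProduct_smul, hne], by simp [dotProduct_smul, hv2]⟩
    refine ⟨0, (l ⬝ᵥ w₀) / (u₂ ⬝ᵥ w₀), le_rfl, div_nonneg (h w₀ ha h₁ h₂) h₂.le, fun w hw => ?_⟩
    set v := w - ((u₂ ⬝ᵥ w) / (u₂ ⬝ᵥ w₀)) • w₀ with hv
    have hva : a ⬝ᵥ v = 0 := by
      simp only [hv, dotProduct_sub, dotProduct_smul, hw, ha, smul_zero, sub_zero]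
    have hv2 : u₂ ⬝ᵥ v = 0 := by
      simp only [hv, dotProduct_sub, dotProduct_smul, smul_eq_mul, div_mul_cancel₀ _ h₂.ne', sub_self]
    have := h0 v hva (hz v hva hv2) hv2
    simp only [hv, dotProduct_sub, dotProduct_smul, smul_eq_mul] at this
    rw [zero_mul, zero_add]
    field_simp at this ⊢
    linarith

/-- Directions in the open tangent cone point into the cone. -/
theorem eventually_Lam (hp : p.IsHomogeneous d) (he : Hyperbolic p e) {y w : Fin n → ℝ}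
    (hy : y ∈ hypCone p e) (hw : w ∈ Lam (tangentForm p y) e) :
    ∀ᶠ t in 𝓝[>] (0:ℝ), y + t • w ∈ Lam p e := by
  obtain ⟨S, hS, hSw⟩ : ∃ S : ℝ, 0 < S ∧ w + S • e ∈ Lam p e := by
    have hc : Tendsto (fun τ : ℝ => τ⁻¹ • w + e) atTop (𝓝 e) := by
      simpa using ((tendsto_inv_atTop_zero (𝕜 := ℝ)).smul_const w).add_const e
    obtain ⟨τ, h1, h2⟩ := ((hc.eventually ((isOpen_Lam hp he).mem_nhds
      (self_mem_Lam hp he))).and (eventually_gt_atTop (0:ℝ))).exists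
    exact ⟨τ, h2, by simpa [smul_smul, h2.ne'] using smul_mem_Lam hp h1 h2⟩
  have hev := (isCompact_Icc : IsCompact (Set.Icc (0:ℝ) S)).eventually_forall_of_forall_eventually
    (x₀ := (0:ℝ)) (P := fun t σ => eval (pt t (w + σ • e)) (blow p y) ≠ 0) fun σ hσ => by
      refine ((continuous_eval_pair (blow p y)).comp
        (continuous_fst.prodMk (continuous_const.add (continuous_snd.smul continuous_const))))
        |>.continuousAt.eventually_ne ?_
      show eval (pt (0:ℝ) (w + σ • e)) (blow p y) ≠ 0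
      rw [blow_zero']
      exact hw σ hσ.1
  filter_upwards [nhdsWithin_le_nhds hev, self_mem_nhdsWithin] with t ht hpos
  replace hpos : 0 < t := hpos
  intro s hs
  rcases le_or_gt (S * t) s with hbig | hsmall
  · have hm := add_mem_Lam_right hp he hy (smul_mem_Lam hp hSw hpos) (s - S * t) (by linarith)
    rwa [smul_add, smul_smul, ← add_assoc, add_assoc _ ((t * S) • e), ← add_smul,
      show t * S + (s - S * t) = s by ring] at hm
  · have h1 := blow_spec' p y (w + (s / t) • e) t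
    rw [smul_add, smul_smul, mul_div_cancel₀ _ hpos.ne', ← add_assoc] at h1
    rw [h1]
    exact mul_ne_zero (pow_ne_zero _ hpos.ne')
      (ht (s / t) ⟨div_nonneg hs hpos.le, (div_le_iff₀ hpos).mpr hsmall.le⟩)

theorem smooth_tangent_Lam (hp : p.IsHomogeneous d) (he : Hyperbolic p e) {y w : Fin n → ℝ}
    (hy : y ∈ hypCone p e) (h0 : eval y p = 0) (hg : grad p y ≠ 0) (hw : 0 < grad p y ⬝ᵥ w) :
    w ∈ Lam (tangentForm p y) e := fun s hs => by
  rw [(linear_part h0 hg).2, dotProduct_add, dotProduct_smul, smul_eq_mul]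
  have := mul_nonneg hs (smooth_facts hp he hy h0 hg).1.le
  linarith

/-- The piece of the cone near `a`. -/
def piece (p : MvPolynomial (Fin n) ℝ) (e a : Fin n → ℝ) (r : ℝ) : Set (Fin n → ℝ) :=
  {x | a ⬝ᵥ x = a ⬝ᵥ a ∧ x ∈ hypCone p e ∧ (x - a) ⬝ᵥ (x - a) ≤ r ^ 2}

theorem continuous_dist2 (a : Fin n → ℝ) : Continuous fun x : Fin n → ℝ => (x - a) ⬝ᵥ (x - a) :=
  continuous_finsetSum _ fun i _ =>
    (((continuous_apply i).sub continuous_const)).mul ((continuous_apply i).sub continuous_const)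

theorem norm_le_of_dist2 {v : Fin n → ℝ} {r : ℝ} (hr : 0 ≤ r) (h : v ⬝ᵥ v ≤ r ^ 2) : ‖v‖ ≤ r := by
  refine (pi_norm_le_iff_of_nonneg hr).mpr fun i => ?_
  rw [Real.norm_eq_abs]
  refine abs_le_of_sq_le_sq ?_ hr
  refine le_trans ?_ h
  rw [sq]
  exact Finset.single_le_sum (f := fun j => v j * v j) (fun j _ => mul_self_nonneg _)
    (Finset.mem_univ i)

variable (hp : p.IsHomogeneous d) (he : Hyperbolic p e)

include hp he in
theorem isCompact_piece (a : Fin n → ℝ) {r : ℝ} (hr : 0 ≤ r) : IsCompact (piece p e a r) := by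
  refine (isCompact_closedBall a r).of_isClosed_subset ?_ fun x hx => ?_
  · exact (isClosed_eq (continuous_dot a) continuous_const).inter
      ((isClosed_hypCone hp he).inter (isClosed_le (continuous_dist2 a) continuous_const))
  · rw [Metric.mem_closedBall, dist_eq_norm]
    exact norm_le_of_dist2 hr hx.2.2

include hp he in
theorem piece_interior {a : Fin n → ℝ} (ha : a ∈ Fset p e) {r : ℝ} (hr : 0 < r) :
    ∃ x ∈ Lam p e, a ⬝ᵥ x = a ⬝ᵥ a ∧ (x - a) ⬝ᵥ (x - a) < r ^ 2 := by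
  have ha0 := fset_ne ha
  obtain ⟨haK, -⟩ := (mem_frontier_hypCone hp he).mp ha.1
  have hc : Tendsto (fun ε : ℝ => chart a (a + ε • e)) (𝓝[>] 0) (𝓝 a) := by
    refine (chart_tendsto ha0).comp ?_
    have : Continuous fun ε : ℝ => a + ε • e := by fun_prop
    simpa using (this.tendsto 0).mono_left nhdsWithin_le_nhds
  have hl : ∀ᶠ ε in 𝓝[>] (0:ℝ), 0 < lam a (a + ε • e) := by
    have : Continuous fun ε : ℝ => a + ε • e := by fun_prop
    have h := (this.tendsto 0).mono_left (nhdsWithin_le_nhds (s := Set.Ioi (0:ℝ)))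
    simp only [zero_smul, add_zero] at h
    exact h.eventually (lam_pos_eventually ha0)
  have hd : ∀ᶠ ε in 𝓝[>] (0:ℝ),
      (chart a (a + ε • e) - a) ⬝ᵥ (chart a (a + ε • e) - a) < r ^ 2 :=
    (((continuous_dist2 a).tendsto a).comp hc).eventually
      (gt_mem_nhds (by rw [sub_self, zero_dotProduct]; positivity))
  obtain ⟨ε, ⟨hl', hd'⟩, hε⟩ := ((hl.and hd).and self_mem_nhdsWithin).exists
  exact ⟨_, smul_mem_Lam hp (cone_add_eps hp haK hε) (inv_pos.mpr hl'), chart_dot ha0 hl'.ne', hd'⟩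

omit hp he in
theorem dist2_step (a x v : Fin n → ℝ) :
    (x + v - a) ⬝ᵥ (x + v - a) = (x - a) ⬝ᵥ (x - a) + 2 * ((x - a) ⬝ᵥ v) + v ⬝ᵥ v := by
  simp only [dotProduct, Pi.sub_apply, Pi.add_apply, Finset.mul_sum, ← Finset.sum_add_distrib]
  exact Finset.sum_congr rfl fun i _ => by ring

include hp he in
/-- The multiplier rule on a piece, away from its singular points. -/
theorem piece_kkt {a : Fin n → ℝ} (ha : a ∈ Fset p e) {r : ℝ} (hr : 0 < r) (l : Fin n → ℝ)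
    {x₀ : Fin n → ℝ} (h₀ : x₀ ∈ piece p e a r) (hmin : ∀ x ∈ piece p e a r, l ⬝ᵥ x₀ ≤ l ⬝ᵥ x)
    (hs : eval x₀ p = 0 → grad p x₀ ≠ 0) :
    ∃ α μ : ℝ, 0 ≤ α ∧ 0 ≤ μ ∧ (eval x₀ p ≠ 0 → α = 0) ∧ ∀ x, a ⬝ᵥ x = a ⬝ᵥ a →
      l ⬝ᵥ x = l ⬝ᵥ x₀ + α * slack p e x x₀ +
        μ * ((r ^ 2 - (x - a) ⬝ᵥ (x - a)) + (x - x₀) ⬝ᵥ (x - x₀)) := by
  classical
  obtain ⟨hxH, hxK, hxr⟩ := h₀
  obtain ⟨xb, hxb, hxbH, hxbr⟩ := piece_interior hp he ha hr
  set w₀ := xb - x₀ with hw₀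
  set u₂ := -(x₀ - a) with hu₂
  set act := (x₀ - a) ⬝ᵥ (x₀ - a) = r ^ 2
  have ha₀ : a ⬝ᵥ w₀ = 0 := by rw [hw₀, dotProduct_sub, hxbH, hxH, sub_self]
  have hball : act → ∀ x, 2 * (u₂ ⬝ᵥ (x - x₀))
      = (r ^ 2 - (x - a) ⬝ᵥ (x - a)) + (x - x₀) ⬝ᵥ (x - x₀) := fun hact x => by
    have := dist2_step a x₀ (x - x₀)
    rw [add_sub_cancel] at this
    rw [this, hact, hu₂, neg_dotProduct]
    ring
  have hu₂pos : act → 0 < u₂ ⬝ᵥ w₀ := fun hact => by
    have h1 := hball hact xb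
    have h2 : 0 ≤ (xb - x₀) ⬝ᵥ (xb - x₀) := Finset.sum_nonneg fun i _ => mul_self_nonneg _
    rw [← hw₀] at h1
    linarith
  -- feasible directions
  have hfeas : ∀ w, a ⬝ᵥ w = 0 → (act → 0 < u₂ ⬝ᵥ w) →
      w ∈ Lam (tangentForm p x₀) e → 0 ≤ l ⬝ᵥ w := fun w hw hact hwL => by
    have hc : Continuous fun t : ℝ => (x₀ + t • w - a) ⬝ᵥ (x₀ + t • w - a) :=
      (continuous_dist2 a).comp (by fun_prop)
    have hev2 : ∀ᶠ t in 𝓝[>] (0:ℝ), (x₀ + t • w - a) ⬝ᵥ (x₀ + t • w - a) ≤ r ^ 2 := by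
      by_cases hA : act
      · have hlim : ∀ᶠ t in 𝓝[>] (0:ℝ), 0 < 2 * (u₂ ⬝ᵥ w) - t * (w ⬝ᵥ w) := by
          have hc' : Continuous fun t : ℝ => 2 * (u₂ ⬝ᵥ w) - t * (w ⬝ᵥ w) := by fun_prop
          exact nhdsWithin_le_nhds (hc'.continuousAt.eventually (lt_mem_nhds (by
            show 0 < 2 * (u₂ ⬝ᵥ w) - (0:ℝ) * (w ⬝ᵥ w)
            rw [zero_mul, sub_zero]; linarith [hact hA])))
        filter_upwards [hlim, self_mem_nhdsWithin] with t ht hpos
        replace hpos : 0 < t := hpos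
        have h1 := hball hA (x₀ + t • w)
        rw [add_sub_cancel_left, dotProduct_smul, smul_dotProduct, dotProduct_smul, smul_eq_mul,
          smul_eq_mul, smul_eq_mul] at h1
        nlinarith [mul_pos hpos ht]
      · have hlt : (x₀ - a) ⬝ᵥ (x₀ - a) < r ^ 2 := lt_of_le_of_ne hxr hA
        exact nhdsWithin_le_nhds ((hc.continuousAt.eventually (gt_mem_nhds (by
          show (x₀ + (0:ℝ) • w - a) ⬝ᵥ (x₀ + (0:ℝ) • w - a) < r ^ 2
          rw [zero_smul, add_zero]; exact hlt))).mono fun t ht => ht.le)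
    obtain ⟨t, ⟨h1, h2⟩, ht⟩ :=
      (((eventually_Lam hp he hxK hwL).and hev2).and self_mem_nhdsWithin).exists
    replace ht : 0 < t := ht
    have := hmin (x₀ + t • w) ⟨by rw [dotProduct_add, dotProduct_smul, hw, smul_zero, add_zero, hxH],
      Lam_sub hp h1, h2⟩
    rw [dotProduct_add, dotProduct_smul, smul_eq_mul] at this
    nlinarith
  rcases eq_or_ne (eval x₀ p) 0 with hx0 | hx0
  · have hg := hs hx0
    have hge := (smooth_facts hp he hxK hx0 hg).1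
    have hself := grad_self hp hx0
    set u₁ := nu p e x₀ with hu₁
    have hu1 : ∀ x, slack p e x x₀ = u₁ ⬝ᵥ (x - x₀) := fun x => by
      rw [slack, hu₁, dotProduct_sub, nu, smul_dotProduct, smul_dotProduct, hself, smul_zero,
        sub_zero]
    have hpos1 : 0 < u₁ ⬝ᵥ w₀ := by
      rw [hw₀, ← hu1, slack, nu, smul_dotProduct, smul_eq_mul]
      exact mul_pos (inv_pos.mpr hge) (support_pos hp he hxK hx0 hg hxb)
    have hL : ∀ w, 0 < u₁ ⬝ᵥ w → w ∈ Lam (tangentForm p x₀) e := fun w hw =>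
      smooth_tangent_Lam hp he hxK hx0 hg (by
        rw [hu₁, nu, smul_dotProduct, smul_eq_mul] at hw
        exact (pos_iff_pos_of_mul_pos hw).mp (inv_pos.mpr hge))
    by_cases hA : act
    · obtain ⟨c₁, c₂, hc₁, hc₂, hc⟩ := farkas_two (l := l) ha₀ hpos1 (hu₂pos hA)
        fun w hw h1 h2 => hfeas w hw (fun _ => h2) (hL w h1)
      refine ⟨c₁, c₂ / 2, hc₁, by positivity, fun h => absurd hx0 h, fun x hx => ?_⟩
      have := hc (x - x₀) (by rw [dotProduct_sub, hx, hxH, sub_self])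
      rw [← hu1, dotProduct_sub] at this
      rw [← hball hA x]
      linarith
    · obtain ⟨c₁, c₂, hc₁, hc₂, hc⟩ := farkas_two (l := l) ha₀ hpos1 hpos1
        fun w hw h1 _ => hfeas w hw (fun h => absurd h hA) (hL w h1)
      refine ⟨c₁ + c₂, 0, by positivity, le_rfl, fun h => absurd hx0 h, fun x hx => ?_⟩
      have := hc (x - x₀) (by rw [dotProduct_sub, hx, hxH, sub_self])
      rw [← hu1, dotProduct_sub] at this
      linarith
  · have hL : ∀ w, w ∈ Lam (tangentForm p x₀) e := fun w s _ hz => by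
      have hm : mult p x₀ = 0 := by
        by_contra hm
        have h := homComp_lt (p := p) (y := x₀) (Nat.pos_of_ne_zero hm)
        have h1 := lineR_coeff_hom p x₀ w 0
        rw [lineR_coeff_zero, h, map_zero] at h1
        exact hx0 h1
      have h1 := lineR_coeff_hom p x₀ (w + s • e) 0
      rw [lineR_coeff_zero, ← hm, ← tangentForm_eq, hz] at h1
      exact hx0 h1
    by_cases hA : act
    · obtain ⟨c₁, c₂, hc₁, hc₂, hc⟩ := farkas_two (l := l) ha₀ (hu₂pos hA) (hu₂pos hA)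
        fun w hw h1 _ => hfeas w hw (fun _ => h1) (hL w)
      refine ⟨0, (c₁ + c₂) / 2, le_rfl, by positivity, fun _ => rfl, fun x hx => ?_⟩
      have := hc (x - x₀) (by rw [dotProduct_sub, hx, hxH, sub_self])
      rw [dotProduct_sub] at this
      rw [← hball hA x]
      linarith
    · refine ⟨0, 0, le_rfl, le_rfl, fun _ => rfl, fun x hx => ?_⟩
      have hw : a ⬝ᵥ (x - x₀) = 0 := by rw [dotProduct_sub, hx, hxH, sub_self]
      have h1 := hfeas (x - x₀) hw (fun h => absurd h hA) (hL _)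
      have h2 := hfeas (-(x - x₀)) (by rw [dotProduct_neg, hw, neg_zero]) (fun h => absurd h hA)
        (hL _)
      rw [dotProduct_neg, dotProduct_sub] at h2
      rw [dotProduct_sub] at h1
      linarith

include hp he in
/-- The multiplier rule at a singular centre. -/
theorem node_kkt {a : Fin n → ℝ} (ha : a ∈ Fset p e) (hg : grad p a = 0)
    (hO : Ordinary p e a) {r : ℝ} (hr : 0 < r) (l : Fin n → ℝ)
    (hmin : ∀ x ∈ piece p e a r, l ⬝ᵥ a ≤ l ⬝ᵥ x) :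
    ∃ (m c : ℝ) (Z : Fin n → ℝ), 0 ≤ m ∧ 0 ≤ c ∧ (c = 0 ∨ ((0:ℝ), Z) ∈ Par p e a) ∧
      ∀ x, a ⬝ᵥ x = a ⬝ᵥ a →
        l ⬝ᵥ x = l ⬝ᵥ a + m * (th p e a ⬝ᵥ (x - a)) + c * Sn p e a x (0, Z) := by
  obtain ⟨haK, -⟩ := (mem_frontier_hypCone hp he).mp ha.1
  have ha0 := fset_ne ha
  have haa := dot_self_pos ha0
  have hq := tangent_hyperbolic hp he haK
  have hqh := tangentForm_homogeneous p a
  set q := tangentForm p a with hqdef
  set w₀ := e + (-(a ⬝ᵥ e) / (a ⬝ᵥ a)) • a with hw₀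
  have hw₀a : a ⬝ᵥ w₀ = 0 := by
    rw [hw₀, dotProduct_add, dotProduct_smul, smul_eq_mul, div_mul_cancel₀ _ haa.ne',
      add_neg_cancel]
  have hw₀L : w₀ ∈ Lam q e := fun s hs => by
    rw [hw₀, add_right_comm, hqdef, tangent_shift hp]
    exact self_mem_Lam hqh hq s hs
  have hopen : ∀ w, a ⬝ᵥ w = 0 → w ∈ Lam q e → 0 ≤ l ⬝ᵥ w := fun w hw hwL => by
    have hc : Continuous fun t : ℝ => (a + t • w - a) ⬝ᵥ (a + t • w - a) :=
      (continuous_dist2 a).comp (by fun_prop)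
    obtain ⟨t, ⟨h1, h2⟩, ht⟩ := (((eventually_Lam hp he haK hwL).and
      (nhdsWithin_le_nhds (hc.continuousAt.eventually (gt_mem_nhds (by
        rw [zero_smul, add_zero, sub_self, zero_dotProduct]; positivity :
          (a + (0:ℝ) • w - a) ⬝ᵥ (a + (0:ℝ) • w - a) < r ^ 2))))).and self_mem_nhdsWithin).exists
    replace ht : 0 < t := ht
    have := hmin (a + t • w) ⟨by rw [dotProduct_add, dotProduct_smul, hw, smul_zero, add_zero],
      Lam_sub hp h1, h2.le⟩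
    rw [dotProduct_add, dotProduct_smul, smul_eq_mul] at this
    nlinarith
  have hcone : ∀ w, a ⬝ᵥ w = 0 → w ∈ hypCone q e → 0 ≤ l ⬝ᵥ w := fun w hw hwK => by
    have ht : Tendsto (fun ε : ℝ => l ⬝ᵥ w + ε * (l ⬝ᵥ w₀)) (𝓝[>] 0) (𝓝 (l ⬝ᵥ w)) := by
      have hc : Continuous fun ε : ℝ => l ⬝ᵥ w + ε * (l ⬝ᵥ w₀) := by fun_prop
      simpa using (hc.tendsto 0).mono_left nhdsWithin_le_nhds
    refine ge_of_tendsto ht ?_
    filter_upwards [self_mem_nhdsWithin] with ε hε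
    have := hopen (w + ε • w₀)
      (by rw [dotProduct_add, dotProduct_smul, hw, hw₀a, smul_zero, add_zero])
      (add_mem_Lam_right hqh hq hwK (smul_mem_Lam hqh hw₀L hε))
    rwa [dotProduct_add, dotProduct_smul, smul_eq_mul] at this
  have hth : 0 < th p e a ⬝ᵥ w₀ := th_pos hp he ha hg hO (Lam_sub hqh hw₀L) hw₀a fun h => by
    have hm : 1 ≤ mult p a := le_trans one_le_two (two_le_mult hp he ha.1 hg)
    exact ((mem_Lam hqh).mp hw₀L).2 (by rw [h]; exact eval_zero_pos hqh hm)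
  obtain ⟨Z, hZ, hZmin⟩ := (isCompact_slice hp he ha hg hO).exists_isMinOn
    ⟨(th p e a ⬝ᵥ w₀)⁻¹ • w₀, by rw [dotProduct_smul, hw₀a, smul_zero],
      by rw [dotProduct_smul, smul_eq_mul, inv_mul_cancel₀ hth.ne'],
      smul_mem_cone hqh (Lam_sub hqh hw₀L) (inv_pos.mpr hth)⟩ (continuous_dot l).continuousOn
  obtain ⟨hZa, hZth, hZK⟩ := hZ
  set m := l ⬝ᵥ Z with hmdef
  have hm : 0 ≤ m := hcone Z hZa hZK
  have hM : ∀ w, a ⬝ᵥ w = 0 → w ∈ hypCone q e → 0 ≤ l ⬝ᵥ w - m * (th p e a ⬝ᵥ w) := fun w hw hwK => by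
    rcases eq_or_ne w 0 with rfl | hw0
    · simp
    have hpos := th_pos hp he ha hg hO hwK hw hw0
    have := hZmin (show (th p e a ⬝ᵥ w)⁻¹ • w ∈ slice p e a from
      ⟨by rw [dotProduct_smul, hw, smul_zero],
        by rw [dotProduct_smul, smul_eq_mul, inv_mul_cancel₀ hpos.ne'],
        smul_mem_cone hqh hwK (inv_pos.mpr hpos)⟩)
    simp only [Set.mem_ofPred_eq, dotProduct_smul, smul_eq_mul, ← hmdef] at this
    rw [← div_eq_inv_mul, le_div_iff₀ hpos] at this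
    linarith
  have hdir : ∀ w, a ⬝ᵥ w = 0 → w ∈ Lam (tangentForm q Z) e →
      0 ≤ l ⬝ᵥ w - m * (th p e a ⬝ᵥ w) := fun w hw hwL => by
    obtain ⟨t, h1, ht⟩ := ((eventually_Lam hqh hq hZK hwL).and self_mem_nhdsWithin).exists
    replace ht : 0 < t := ht
    have := hM (Z + t • w) (by rw [dotProduct_add, dotProduct_smul, hZa, hw, smul_zero, add_zero])
      (Lam_sub hqh h1)
    simp only [dotProduct_add, dotProduct_smul, smul_eq_mul, hZth, ← hmdef] at this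
    nlinarith
  have hxa : ∀ x, a ⬝ᵥ x = a ⬝ᵥ a → a ⬝ᵥ (x - a) = 0 := fun x hx => by
    rw [dotProduct_sub, hx, sub_self]
  rcases eq_or_ne (eval Z q) 0 with hZ0 | hZ0
  · have hPar : ((0:ℝ), Z) ∈ Par p e a :=
      ⟨le_rfl, ⟨hZa, hZth, hZK⟩, by rw [blow_zero']; exact hZ0⟩
    obtain ⟨hZF, -, hspan, hge⟩ := Par_limit hp he ha hg hO hPar
    have hgZ := hO Z hZF hspan
    have hpos : 0 < grad q Z ⬝ᵥ w₀ := support_pos hqh hq hZK hZ0 hgZ hw₀L
    obtain ⟨c₁, c₂, hc₁, hc₂, hc⟩ := farkas_two (l := l - m • th p e a) hw₀a hpos hpos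
      fun w hw h1 _ => by
        rw [sub_dotProduct, smul_dotProduct, smul_eq_mul]
        exact hdir w hw (smooth_tangent_Lam hqh hq hZK hZ0 hgZ h1)
    refine ⟨m, (c₁ + c₂) * (grad q Z ⬝ᵥ e), Z, hm, mul_nonneg (by positivity) hge.le,
      Or.inr hPar, fun x hx => ?_⟩
    have := hc (x - a) (hxa x hx)
    rw [sub_dotProduct, smul_dotProduct, smul_eq_mul, dotProduct_sub] at this
    simp only [Sn, bgrad_zero, ← hqdef]
    rw [zero_pow two_ne_zero, zero_mul, sub_zero, ← mul_assoc, mul_assoc (c₁ + c₂),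
      mul_inv_cancel₀ hge.ne', mul_one]
    linarith
  · have hL : ∀ w, w ∈ Lam (tangentForm q Z) e := fun w s _ hz => by
      have hm0 : mult q Z = 0 := by
        by_contra hm'
        have h := homComp_lt (p := q) (y := Z) (Nat.pos_of_ne_zero hm')
        have h1 := lineR_coeff_hom q Z w 0
        rw [lineR_coeff_zero, h, map_zero] at h1
        exact hZ0 h1
      have h1 := lineR_coeff_hom q Z (w + s • e) 0
      rw [lineR_coeff_zero, ← hm0, ← tangentForm_eq, hz] at h1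
      exact hZ0 h1
    refine ⟨m, 0, Z, hm, le_rfl, Or.inl rfl, fun x hx => ?_⟩
    have h1 := hdir (x - a) (hxa x hx) (hL _)
    have h2 := hdir (-(x - a)) (by rw [dotProduct_neg, hxa x hx, neg_zero]) (hL _)
    rw [dotProduct_neg, dotProduct_neg, dotProduct_sub l] at h2
    rw [dotProduct_sub l] at h1
    linarith

end Vale.Agent.P256
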